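import Crest.Agent.X212.Dgr80.Defs

/-!
# Row 212, CYC (helper79): seeds which depend only on the connection.  DEFINITIONS

`K = L²`, the fibre `Fm κ K` is a Hilbert space.  The field `fld T` of an operator `T` with smooth
kernel is `z ↦ k(z, ·)`.  The seed is the skew part of the diagonal of the kernel of
`w x x* x x* w'*`, `x = f G f'`, where `f` and `f'` have separated supports.
-/

set_option autoImplicit false
set_option linter.unusedSectionVars false
noncomputable section
open scoped Manifold ContDiff Topology InnerProductSpace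
open MeasureTheory Set Function

namespace Crest.Agent.X212.Cyc79
open An Dgr80
open Wrd81 (wd)

section lin
variable {κ : Type} [Fintype κ] [DecidableEq κ] {K K' : Type} [NormedAddCommGroup K]
  [InnerProductSpace ℝ K] [NormedAddCommGroup K'] [InnerProductSpace ℝ K']

theorem idx_apply {α : Type} [Fintype α] (S : α → α → ℝ) (T : K →L[ℝ] K) (v : Fm α K) (a : α) :
    idx S T v a = ∑ b, S a b • T (v b) := by
  simp [idx]

variable (K) in
/-- amplification `T ⊗ 1` -/
def amp : CL (En κ) (CL (Fm κ K) (Fm κ K)) := LinearMap.toContinuousLinearMap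
  { toFun := fun T => idx (fun i j => T (EuclideanSpace.single j 1) i) (ContinuousLinearMap.id ℝ K)
    map_add' := fun S T => by
      ext v i; simp [idx_apply, add_smul, Finset.sum_add_distrib]
    map_smul' := fun t T => by
      ext v i; simp [idx_apply, Finset.smul_sum, mul_smul] }

theorem amp_apply (T : En κ) (v : Fm κ K) (i : κ) :
    amp K T v i = ∑ j, T (EuclideanSpace.single j 1) i • v j := idx_apply _ _ v i

omit [DecidableEq κ] in
/-- contraction of the fibre with a vector of `K` -/
def ct (h : K) : CL (Fm κ K) (Eu κ) :=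
  (PiLp.continuousLinearEquiv 2 ℝ fun _ : κ => ℝ).symm.toContinuousLinearMap ∘L
    ContinuousLinearMap.pi fun i => innerSL ℝ h ∘L PiLp.proj 2 (fun _ : κ => K) i

omit [DecidableEq κ] in
/-- `1 ⊗ R` -/
def fb (R : K →L[ℝ] K') : CL (Fm κ K) (Fm κ K') :=
  (PiLp.continuousLinearEquiv 2 ℝ fun _ : κ => K').symm.toContinuousLinearMap ∘L
    ContinuousLinearMap.pi fun i => R ∘L PiLp.proj 2 (fun _ : κ => K) i

@[simp] theorem ct_apply (h : K) (v : Fm κ K) (i : κ) : ct h v i = ⟪h, v i⟫_ℝ := rfl

@[simp] theorem fb_apply (R : K →L[ℝ] K') (v : Fm κ K) (i : κ) : fb R v i = R (v i) := rfl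

end lin

variable {E : Type} [NormedAddCommGroup E] [NormedSpace ℝ E] [FiniteDimensional ℝ E]
  [MeasurableSpace E] [BorelSpace E]
  {HM : Type} [TopologicalSpace HM] {I : ModelWithCorners ℝ E HM}
  {M : Type} [TopologicalSpace M] [ChartedSpace HM M] [IsManifold I ∞ M]
  [MeasurableSpace M] [T2Space M] [BorelSpace M] {ι : Type} [Fintype ι] {lam : Type} [Fintype lam]

section fld
variable (F : Pre I M ι) {κ : Type} [Fintype κ]

variable (κ) in
/-- square integrable sections -/
abbrev KK : Type := F.H 0 (triv M (Eu κ))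

variable (κ) in
/-- the Hilbert fibre -/
abbrev VV : Type := Fm κ (KK F κ)

/-- `α z = k(z, ·)` is the smooth kernel of `T` -/
def IsFld (T : (M → Eu κ) → M → Eu κ) (α : M → VV F κ) : Prop :=
  Sm I α ∧ ∀ (u : Sec I (triv M (Eu κ))) z, ct (F.toH 0 _ u) (α z) = T u.1 z

open Classical in
/-- the field `z ↦ k(z, ·)` of an operator with smooth kernel `k` -/
def fld (T : (M → Eu κ) → M → Eu κ) : M → VV F κ :=
  if h : ∃ α, IsFld F T α then h.choose else 0

/-- separated supports -/
def Sep (f f' : M → ℝ) : Prop := F.Cb f ∧ F.Cb f' ∧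
  ∃ φ : M → ℝ, F.Cb φ ∧ (∀ x, f x ≠ 0 → 1 ≤ φ x) ∧ ∀ x, f' x ≠ 0 → φ x ≤ 0

end fld

section letters
variable {V : Type} [NormedAddCommGroup V] [NormedSpace ℝ V]

variable (V) in
/-- the letters of adjoint words in any bundle -/
def laV : La M → SL M V
  | .mul f => .op fun x => f x • (1 : CL V V)
  | .G => .G

/-- the word `f G f'` -/
def xw (f f' : M → ℝ) : List (La M) := [.mul f, .G, .mul f']

end letters

variable (M) in
/-- data of a seed -/
structure Cy where
  f : M → ℝ
  f' : M → ℝ
  w : List (La M)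
  w' : List (La M)

/-- admissible data -/
structure Cy.OK (d : Cy M) (F : Fr I M ι) : Prop where
  sep : Sep F.toPre d.f d.f'
  w : ∀ t ∈ d.w, La.OK F t
  w' : ∀ t ∈ d.w', La.OK F t

section sem
variable {r : ℕ} (F : Fr I M ι) (c : Cfg M ι lam r)

/-- the Hilbert fibre of a configuration -/
abbrev Vc : Type := VV F.toPre (Fin c.m.N × Fin c.m.N)

/-- the connection on the Hilbert fibre -/
def AA : ι → M → CL (Vc F c) (Vc F c) := fun a x => amp _ (c.m.adW c.W a x)

/-- the adjoint representation on the Hilbert fibre -/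
def rr : CL c.m.A (CL (Vc F c) (Vc F c)) := amp _ ∘L adR (Fin c.m.N)

/-- the base field of `f G f' pg` -/
def bf (f f' : M → ℝ) : M → Vc F c :=
  fld F.toPre fun u => wd (c.la F) (fun y => c.m.pg y (u y)) (xw f f')

/-- words on the Hilbert fibre -/
def wv (s : M → Vc F c) (w : List (La M)) : M → Vc F c := wd (sl F (AA F c)) s (w.map (laV _))

/-- the letter `ad l` -/
def adl (l : M → c.m.A) (u : M → Vc F c) : M → Vc F c := fun x => rr F c (c.m.pg x (l x)) (u x)

/-- the gradient of `∫ ⟪w x x*, l₁ (w' x x*)⟫` with respect to the first factor -/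
def gh (f f' : M → ℝ) (w w' : List (La M)) (l₁ : (M → Vc F c) → M → Vc F c) (x : M) :
    Fm ι c.m.A :=
  gc F (AA F c) (rr F c) (bf F c f' f) ((w ++ xw f f').map (laV _))
      (l₁ (wv F c (bf F c f' f) (w' ++ xw f f'))) x +
    gc F (AA F c) (rr F c) (bf F c f f') ((xw f' f).map (laV _))
      (bk F (AA F c) ((w ++ xw f f').map (laV _)) (l₁ (wv F c (bf F c f f') w'))) x

end sem

namespace Cy
variable {r : ℕ} (d : Cy M) (F : Fr I M ι) (c : Cfg M ι lam r)

/-- the field of `w x x*` -/
def al : M → Vc F c := wv F c (bf F c d.f' d.f) (d.w ++ xw d.f d.f')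

/-- the field of `w' x x*` -/
def be : M → Vc F c := wv F c (bf F c d.f' d.f) (d.w' ++ xw d.f d.f')

/-- the seed with its gradient; `⟪s, l⟫ = ⟪be, ad l al⟫`, `ad l` is skew -/
def sed : Sed M ι lam r where
  s c x := c.m.pg x (tp (rr F c) (d.al F c x) (d.be F c x))
  sA c l x := gh F c d.f d.f' d.w' d.w (adl F c l) x - gh F c d.f d.f' d.w d.w' (adl F c l) x
  sP _ _ := 0

end Cy

end Crest.Agent.X212.Cyc79
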