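import Crest.Agent.X212.Mp86.Wt
import Crest.Agent.X212.Sob92.Fun
import Crest.Agent.X212.Cht98.Cov

/-!
# Row 212, CYC (helper79): weights on tame manifolds; weighted local boundedness
-/

set_option autoImplicit false
set_option linter.unusedSectionVars false
noncomputable section
open scoped Manifold ContDiff Topology InnerProductSpace
open MeasureTheory Set Function Filter

namespace Crest.Agent.X212.Cyc79
open An Mp86
open Wz78 (lap)

variable {E : Type} [NormedAddCommGroup E] [NormedSpace ℝ E] [FiniteDimensional ℝ E]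
  [MeasurableSpace E] [BorelSpace E]
  {HM : Type} [TopologicalSpace HM] {I : ModelWithCorners ℝ E HM} [I.Boundaryless]
  {M : Type} [TopologicalSpace M] [ChartedSpace HM M] [IsManifold I ∞ M]
  [MeasurableSpace M] [T2Space M] [BorelSpace M] [SecondCountableTopology M]
  {ι : Type} [Fintype ι] {V : Type} [NormedAddCommGroup V] [InnerProductSpace ℝ V]
  {F : Fr I M ι} {A : ι → M → V →L[ℝ] V} {ψ ψ' U W φ ζ : M → ℝ} {g g' l l' N S β : ℝ}
  {s v : M → V}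

/-- logarithms of weights -/
structure Lw (F : Fr I M ι) (g l : ℝ) (ψ : M → ℝ) : Prop where
  sm : Sm I ψ
  gr : ∀ x, ∑ a, F.D a ψ x ^ 2 ≤ g
  lop : ∀ x, -l ≤ Lop I F.e F.dv ψ x

theorem md1 {N : Type} [NormedAddCommGroup N] [NormedSpace ℝ N] {f : M → N} (h : Sm I f) (x : M) :
    MD I f x := (cm1 h x).md le_rfl

theorem D_cmp {h : ℝ → ℝ} {h' : ℝ} {x : M} (hψ : Sm I ψ) (hh : HasDerivAt h h' (ψ x)) (a : ι) :
    F.D a (fun y => h (ψ y)) x = h' * F.D a ψ x := by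
  have := dv_comp (v := F.e a) hh.hasFDerivAt (md1 hψ x)
  simp only [ContinuousLinearMap.toSpanSingleton_apply, smul_eq_mul] at this
  exact this.trans (mul_comm _ _)

theorem sum_cmp {h : ℝ → ℝ} {h' : ℝ} {x : M} (hψ : Sm I ψ) (hh : HasDerivAt h h' (ψ x)) :
    ∑ a, F.D a (fun y => h (ψ y)) x ^ 2 = h' ^ 2 * ∑ a, F.D a ψ x ^ 2 := by
  simp only [D_cmp hψ hh, mul_pow, Finset.mul_sum]

theorem gr_nn (F : Fr I M ι) (ψ : M → ℝ) (x : M) : 0 ≤ ∑ a, F.D a ψ x ^ 2 :=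
  Finset.sum_nonneg fun _ _ => sq_nonneg _

theorem gr_nn' (F : Fr I M ι) (ψ : M → ℝ) (x : M) : 0 ≤ ∑ a, Sob92.dv I (F.e a) ψ x ^ 2 :=
  gr_nn F ψ x

theorem Lw.add (h : Lw F g l ψ) (k : Lw F g' l' ψ') :
    Lw F (2 * g + 2 * g') (l + l') fun x => ψ x + ψ' x := by
  refine ⟨h.sm.add k.sm, fun x => ?_, fun x => ?_⟩
  · have : ∑ a, F.D a (fun x => ψ x + ψ' x) x ^ 2 ≤
        ∑ a, (2 * F.D a ψ x ^ 2 + 2 * F.D a ψ' x ^ 2) := Finset.sum_le_sum fun a _ => by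
      rw [show F.D a (fun x => ψ x + ψ' x) x = F.D a ψ x + F.D a ψ' x from
        Sob92.dv_add (md1 h.sm x) (md1 k.sm x)]
      nlinarith [sq_nonneg (F.D a ψ x - F.D a ψ' x)]
    rw [Finset.sum_add_distrib, ← Finset.mul_sum, ← Finset.mul_sum] at this
    linarith [h.gr x, k.gr x]
  · rw [Lop_add (vf F.toPre x) (cm2 h.sm x) (cm2 k.sm x)]; linarith [h.lop x, k.lop x]

theorem Lw.mul (h : Lw F g l ψ) {t : ℝ} (ht : 0 ≤ t) : Lw F (t ^ 2 * g) (t * l) fun x => t * ψ x :=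
  ⟨contMDiff_const.mul h.sm, fun x => by
    rw [sum_cmp (h := fun r => t * r) h.sm (by simpa using (hasDerivAt_id (ψ x)).const_mul t)]
    exact mul_le_mul_of_nonneg_left (h.gr x) (sq_nonneg _), fun x => by
    rw [Lop_mul t (vf F.toPre x) (cm2 h.sm x)]; nlinarith [h.lop x]⟩

theorem Lw.mono (h : Lw F g l ψ) (h1 : g ≤ g') (h2 : l ≤ l') : Lw F g' l' ψ :=
  ⟨h.sm, fun x => (h.gr x).trans h1, fun x => by linarith [h.lop x]⟩

theorem Lw.wt (h : Lw F (1 / 16) (1 / 4) ψ) (hl : Tendsto ψ (cocompact M) atBot) :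
    Wt F fun x => Real.exp (ψ x) := by
  refine ⟨Real.contDiff_exp.contMDiff.comp h.sm, fun x => Real.exp_pos _,
    Real.tendsto_exp_atBot.comp hl, fun x => ?_, fun x => ?_⟩
  · rw [sum_cmp h.sm (Real.hasDerivAt_exp _)]; nlinarith [h.gr x, sq_nonneg (Real.exp (ψ x))]
  · rw [Lop_comp (vf F.toPre x) (cm2 h.sm x) (.of_forall Real.hasDerivAt_exp)
      (Real.hasDerivAt_exp _)]
    nlinarith [h.lop x, Real.exp_pos (ψ x), mul_nonneg (Real.exp_pos (ψ x)).le (gr_nn' F ψ x)]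

/-- a proper function with bounded derivatives -/
theorem exists_lw {C : ℕ → ℝ} (h : F.Tame C) :
    ∃ ψ g l, 0 ≤ g ∧ 0 ≤ l ∧ Lw F g l ψ ∧ Tendsto ψ (cocompact M) atBot := by
  classical
  have := Sob92.lcs (I := I) (M := M)
  have := Sob92.scs (I := I) (M := M)
  let K := CompactExhaustion.choice M
  have step : ∀ (n : ℕ) (T : Set M), IsCompact T → ∃ χ : M → ℝ, F.CBs χ C ∧ HasCompactSupport χ ∧
      (∀ x, 0 ≤ χ x ∧ χ x ≤ 1) ∧ ∀ x ∈ T ∪ K n, ∀ᶠ y in 𝓝 x, χ y = 1 := fun n T hT => by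
    obtain ⟨T', h1, h2⟩ := exists_compact_superset (hT.union (K.isCompact n))
    obtain ⟨χ, a, b, c, d⟩ := h.exh T' h1
    exact ⟨χ, a, b, c, fun x hx => eventually_of_mem (mem_interior_iff_mem_nhds.1 (h2 hx)) d⟩
  choose nx a1 a2 a3 a4 using step
  let T : ℕ → {T : Set M // IsCompact T} := fun n => Nat.rec ⟨∅, isCompact_empty⟩
    (fun n T => ⟨tsupport (nx n T.1 T.2), a2 n T.1 T.2⟩) n
  let χ : ℕ → M → ℝ := fun n => nx n (T n).1 (T n).2
  have b1 : ∀ n, ∀ x ∈ tsupport (χ n), ∀ᶠ y in 𝓝 x, χ (n + 1) y = 1 := fun n x hx =>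
    a4 (n + 1) _ _ x (.inl hx)
  have b2 : ∀ {n x}, χ n x = 1 → x ∈ tsupport (χ n) := fun h =>
    subset_tsupport _ (by rw [mem_support, h]; exact one_ne_zero)
  have b3 : Monotone fun n => tsupport (χ n) :=
    monotone_nat_of_le_succ fun n x hx => b2 (b1 n x hx).self_of_nhds
  have ex : ∀ x, ∃ n, x ∈ tsupport (χ n) := fun x =>
    let ⟨n, hn⟩ := K.exists_mem x; ⟨n, b2 (a4 n _ _ x (.inr hn)).self_of_nhds⟩
  let ψ : M → ℝ := fun x => χ (Nat.find (ex x)) x - Nat.find (ex x)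
  have loc : ∀ x, ψ =ᶠ[𝓝 x] fun y => χ (Nat.find (ex x)) y - Nat.find (ex x) := fun x => by
    have c1 : ∀ᶠ y in 𝓝 x, ∀ n ∈ Finset.range (Nat.find (ex x)), y ∉ tsupport (χ n) :=
      (eventually_all_finset _).2 fun n hn => (isClosed_tsupport _).isOpen_compl.mem_nhds
        (Nat.find_min (ex x) (Finset.mem_range.1 hn))
    filter_upwards [c1, b1 _ x (Nat.find_spec (ex x))] with y h1 h2
    have d1 : Nat.find (ex x) ≤ Nat.find (ex y) :=
      not_lt.1 fun e => h1 _ (Finset.mem_range.2 e) (Nat.find_spec (ex y))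
    rcases d1.eq_or_lt with e | e
    · simp only [ψ, e]
    · have d2 : Nat.find (ex y) = Nat.find (ex x) + 1 := le_antisymm (Nat.find_min' _ (b2 h2)) e
      simp only [ψ, d2, h2, image_eq_zero_of_notMem_tsupport (Nat.find_min (ex y) e)]
      push_cast; ring
  have sχ : ∀ n, Sm I (χ n) := fun n => (a1 n _ _).1
  refine ⟨ψ, Fintype.card ι * C 1 ^ 2, |Fintype.card ι * (C 2 + C 0 * C 2)|, by positivity,
    abs_nonneg _, ⟨fun x => ((sχ _ x).sub contMDiffAt_const).congr_of_eventuallyEq (loc x),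
      fun x => ?_, fun x => ?_⟩, tendsto_atBot.2 fun b => ?_⟩
  · refine (Finset.sum_le_card_nsmul _ _ _ fun a _ => ?_).trans
      (by rw [nsmul_eq_mul, Finset.card_univ])
    rw [show F.D a ψ x = F.D a (χ (Nat.find (ex x))) x from (dv_congr (loc x)).trans
      ((D_cmp (h := fun r => r - _) (sχ _) ((hasDerivAt_id _).sub_const _) a).trans (one_mul _))]
    exact sq_le_sq' (abs_le.1 ((a1 _ _ _).2 1 [a] le_rfl x)).1
      (abs_le.1 ((a1 _ _ _).2 1 [a] le_rfl x)).2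
  · rw [Lop_congr (loc x), Lop_sub (vf F.toPre x) (cm2 (sχ _) x) contMDiffAt_const, Lop_const,
      sub_zero]
    exact (neg_le_neg (le_abs_self _)).trans (abs_le.1 (abs_Lop_le F h (a1 _ _ _) x)).1
  · obtain ⟨m, hm⟩ := exists_nat_ge (1 - b)
    refine mem_cocompact.2 ⟨_, a2 m (T m).1 (T m).2, fun x hx => ?_⟩
    have : (m : ℝ) ≤ Nat.find (ex x) :=
      Nat.cast_le.2 (not_lt.1 fun e => hx (b3 e.le (Nat.find_spec (ex x))))
    have h2 : χ (Nat.find (ex x)) x ≤ 1 := (a3 _ _ _ x).2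
    change χ _ x - _ ≤ b
    linarith

/-- admissible denominators -/
structure Wu (F : Fr I M ι) (U : M → ℝ) : Prop where
  sm : Sm I U
  pos : ∀ x, 0 < U x
  gr : ∀ x, 64 * ∑ a, F.D a U x ^ 2 ≤ U x ^ 2
  lop : ∀ x, 8 * Lop I F.e F.dv U x ≤ U x

theorem wu_one : Wu F fun _ => 1 :=
  ⟨contMDiff_const, fun _ => one_pos, fun x => by simp [Pre.D, Sob92.dv_const],
    fun x => by rw [Lop_const]; norm_num⟩

theorem Wu.add (h : Wu F U) {η : ℝ} (hη : 0 ≤ η) : Wu F fun x => U x + η := by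
  refine ⟨h.sm.add contMDiff_const, fun x => by linarith [h.pos x], fun x => ?_, fun x => ?_⟩
  · rw [sum_cmp (h := fun r => r + η) h.sm ((hasDerivAt_id _).add_const η)]
    nlinarith [h.gr x, h.pos x]
  · rw [Lop_add (vf F.toPre x) (cm2 h.sm x) contMDiffAt_const, Lop_const]; linarith [h.lop x]

theorem Wu.lw (h : Wu F U) : Lw F (1 / 64) (1 / 8) fun x => -Real.log (U x) := by
  have d : ∀ t, 0 < t → HasDerivAt (fun r => -Real.log r) (-t⁻¹) t := fun t ht =>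
    (Real.hasDerivAt_log ht.ne').neg
  refine ⟨fun x => ((Real.contDiffAt_log.2 (h.pos x).ne').comp_contMDiffAt (h.sm x)).neg,
    fun x => ?_, fun x => ?_⟩
  · have := h.pos x
    rw [sum_cmp h.sm (d _ this), neg_sq, inv_pow, inv_mul_le_iff₀ (by positivity)]
    linarith [h.gr x]
  · have := h.pos x
    rw [Lop_comp (g' := fun t => -t⁻¹) (vf F.toPre x) (cm2 h.sm x)
      ((lt_mem_nhds this).mono d) (hasDerivAt_inv this.ne').neg, neg_neg]
    have h1 : (U x)⁻¹ * Lop I F.e F.dv U x ≤ 1 / 8 := by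
      rw [inv_mul_le_iff₀ this]; linarith [h.lop x]
    linarith [mul_nonneg (show 0 ≤ (U x ^ 2)⁻¹ by positivity) (gr_nn' F U x)]

/-- `exp ψ` for a function with small derivatives -/
theorem wu_exp (h : Sm I ψ) (h1 : ∀ x, ∑ a, F.D a ψ x ^ 2 ≤ 1 / 64)
    (h2 : ∀ x, Lop I F.e F.dv ψ x ≤ 1 / 16) : Wu F fun x => Real.exp (ψ x) := by
  refine ⟨Real.contDiff_exp.contMDiff.comp h, fun x => Real.exp_pos _, fun x => ?_, fun x => ?_⟩
  · rw [sum_cmp h (Real.hasDerivAt_exp _)]; nlinarith [h1 x, sq_nonneg (Real.exp (ψ x))]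
  · rw [Lop_comp (vf F.toPre x) (cm2 h x) (.of_forall Real.hasDerivAt_exp) (Real.hasDerivAt_exp _)]
    have := h1 x
    simp only [Pre.D] at this
    nlinarith [h2 x, Real.exp_pos (ψ x)]

/-- functions of size `N` in `C²` -/
structure Cu (F : Fr I M ι) (N : ℝ) (φ : M → ℝ) : Prop where
  sm : Sm I φ
  gr : ∀ x, ∑ a, F.D a φ x ^ 2 ≤ N
  lop : ∀ x, |Lop I F.e F.dv φ x| ≤ N

theorem Cu.mono (h : Cu F N φ) {N' : ℝ} (k : N ≤ N') : Cu F N' φ :=
  ⟨h.sm, fun x => (h.gr x).trans k, fun x => (h.lop x).trans k⟩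

theorem cu_of_cbs {C D : ℕ → ℝ} (h : F.Tame C) (hφ : F.CBs φ D) :
    Cu F (Fintype.card ι * (D 2 ^ 2 + (1 + |C 0|) * |D 2|)) φ := by
  have h2 : ∀ a y, |F.D a φ y| ≤ |D 2| := fun a y => (hφ.2 2 [a] one_le_two y).trans (le_abs_self _)
  refine ⟨hφ.1, fun x => ?_, fun x => (Finset.abs_sum_le_sum_abs _ _).trans ?_⟩ <;>
    refine (Finset.sum_le_card_nsmul _ _ _ fun a _ => ?_).trans
      (by rw [nsmul_eq_mul, Finset.card_univ])
  · exact le_add_of_le_of_nonneg (sq_le_sq.2 (h2 a x)) (by positivity)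
  · have h1 : |F.D a (F.D a φ) x| ≤ |D 2| := (hφ.2 2 [a, a] le_rfl x).trans (le_abs_self _)
    have h3 : |F.dv a x| ≤ |C 0| := ((h.dv a).2 0 [] le_rfl x).trans (le_abs_self _)
    refine (abs_add_le (F.D a (F.D a φ) x) (F.dv a x * F.D a φ x)).trans ?_
    rw [abs_mul]
    nlinarith [mul_le_mul h3 (h2 a x) (abs_nonneg _) (abs_nonneg _), sq_nonneg (D 2)]

theorem exists_st : ∃ m, 1 ≤ m ∧ ∀ t, |deriv Real.smoothTransition t| ≤ m ∧
    |deriv (deriv Real.smoothTransition) t| ≤ m := by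
  obtain ⟨C, hC⟩ := Cht98.deriv_bounds Real.smoothTransition.contDiff Cht98.hcs_deriv_st (B := 1)
    fun t => by
      rw [Real.norm_eq_abs, abs_of_nonneg (Real.smoothTransition.nonneg t)]
      exact Real.smoothTransition.le_one t
  refine ⟨max 1 (C 2), le_max_left _ _, fun t => ⟨le_max_of_le_right ?_, le_max_of_le_right ?_⟩⟩
  · simpa using hC 2 1 one_le_two t
  · simpa [iteratedDeriv_succ] using hC 2 2 le_rfl t

/-- the universal constant of the cut-off functions -/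
def mS : ℝ := exists_st.choose

theorem one_le_mS : 1 ≤ mS := exists_st.choose_spec.1

/-- the cut-off function `0` for `φ ≤ s`, `1` for `φ ≥ s + 1/k` -/
def cf (k s : ℝ) (φ : M → ℝ) (x : M) : ℝ := Real.smoothTransition (k * (φ x - s))

theorem cf_zero {k s : ℝ} (hk : 0 ≤ k) {x : M} (h : φ x ≤ s) : cf k s φ x = 0 :=
  Real.smoothTransition.zero_of_nonpos (mul_nonpos_of_nonneg_of_nonpos hk (by linarith))

theorem cf_one {k s : ℝ} {x : M} (h : 1 ≤ k * (φ x - s)) : cf k s φ x = 1 :=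
  Real.smoothTransition.one_of_one_le h

theorem cf_abs (k s : ℝ) (x : M) : |cf k s φ x| ≤ 1 := by
  rw [cf, abs_of_nonneg (Real.smoothTransition.nonneg _)]; exact Real.smoothTransition.le_one _

theorem Cu.cf (h : Cu F N φ) {k : ℝ} (hk : 1 ≤ k) (s : ℝ) : Cu F (2 * (mS * k) ^ 2 * N) (cf k s φ) := by
  have c := Real.smoothTransition.contDiff (n := (⊤ : ℕ∞))
  have c1 : Differentiable ℝ Real.smoothTransition := c.differentiable (by simp)
  have c2 : Differentiable ℝ (deriv Real.smoothTransition) :=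
    (contDiff_infty_iff_deriv.1 c).2.differentiable (by simp)
  have a : ∀ t, HasDerivAt (fun t => k * (t - s)) k t := fun t => by
    simpa using ((hasDerivAt_id t).sub_const s).const_mul k
  have d1 : ∀ t, HasDerivAt (fun t => Real.smoothTransition (k * (t - s)))
      (deriv Real.smoothTransition (k * (t - s)) * k) t := fun t => (c1 _).hasDerivAt.comp t (a t)
  have d2 : ∀ t, HasDerivAt (fun t => deriv Real.smoothTransition (k * (t - s)) * k)
      (deriv (deriv Real.smoothTransition) (k * (t - s)) * k * k) t := fun t =>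
    ((c2 _).hasDerivAt.comp t (a t)).mul_const k
  have m1 := one_le_mS
  have b := fun t => exists_st.choose_spec.2 t
  have mk : 1 ≤ mS * k := one_le_mul_of_one_le_of_one_le m1 hk
  refine ⟨(c.comp (contDiff_const.mul (contDiff_id.sub contDiff_const))).contMDiff.comp h.sm,
    fun x => ?_, fun x => ?_⟩
  · have N0 := (gr_nn F φ x).trans (h.gr x)
    rw [show Cyc79.cf k s φ = fun y => (fun t => Real.smoothTransition (k * (t - s))) (φ y) from rfl,
      sum_cmp h.sm (d1 _)]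
    have : (deriv Real.smoothTransition (k * (φ x - s)) * k) ^ 2 ≤ (mS * k) ^ 2 := by
      rw [mul_pow, mul_pow]
      exact mul_le_mul_of_nonneg_right (sq_le_sq' (abs_le.1 (b _).1).1 (abs_le.1 (b _).1).2)
        (sq_nonneg _)
    nlinarith [mul_le_mul this (h.gr x) (gr_nn F φ x) (sq_nonneg _), sq_nonneg (mS * k)]
  · have N0 := (gr_nn F φ x).trans (h.gr x)
    rw [show Cyc79.cf k s φ = fun y => (fun t => Real.smoothTransition (k * (t - s))) (φ y) from rfl,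
      Lop_comp (vf F.toPre x) (cm2 h.sm x) (.of_forall d1) (d2 _)]
    refine (abs_add_le _ _).trans ?_
    simp only [abs_mul, abs_of_nonneg (show 0 ≤ k by linarith)]
    have e1 : |deriv (deriv Real.smoothTransition) (k * (φ x - s))| * k * k *
        |∑ a, Sob92.dv I (F.e a) φ x ^ 2| ≤ mS * k * k * N := by
      rw [abs_of_nonneg (gr_nn' F φ x)]
      gcongr
      exacts [(b _).2, h.gr x]
    have e2 : |deriv Real.smoothTransition (k * (φ x - s))| * k * |Lop I F.e F.dv φ x| ≤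
        mS * k * N := by
      gcongr
      exacts [(b _).1, h.lop x]
    have e3 : mS * k * k ≤ (mS * k) ^ 2 := by nlinarith [mul_le_mul_of_nonneg_right m1 (show 0 ≤ k by linarith)]
    have e4 : mS * k ≤ (mS * k) ^ 2 := by nlinarith
    nlinarith [mul_le_mul_of_nonneg_right e3 N0, mul_le_mul_of_nonneg_right e4 N0]

/-- `ζ² |v|²` is a subsolution -/
theorem sub_cut (hA : Mc I A) (hv : Sm I v) (hζ : Cu F N ζ) (h1 : ∀ x, |ζ x| ≤ 1) {x : M} {σ : ℝ}
    (h0 : 0 ≤ σ) (e : ζ x ≠ 0 → v x + lap I F.e F.dv A v x = 0 ∧ 10 * N * ‖v x‖ ^ 2 ≤ σ) :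
    ζ x * ζ x * ‖v x‖ ^ 2 - σ ≤ Lop I F.e F.dv (fun y => ζ y * ζ y * ‖v y‖ ^ 2) x := by
  have z2 := cm2 hζ.sm x
  have hD : ∀ a, Sob92.dv I (F.e a) (fun y => ζ y * ζ y) x = 2 * ζ x * F.D a ζ x := fun a => by
    rw [Mp86.dv_mul (md1 hζ.sm x) (md1 hζ.sm x)]; simp only [Pre.D]; ring
  rw [Lop_mul_fun (f := fun y => ζ y * ζ y) (vf F.toPre x) (z2.mul z2) (cm_normSq (cm2 hv x)),
    Lop_mul_fun (vf F.toPre x) z2 z2, Lop_normSq (vf F.toPre x) (hA.mc x).sm (hA.mc x).sk (cm2 hv x)]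
  simp only [hD]
  simp only [mul_assoc, ← Finset.mul_sum, ← sq (Sob92.dv _ _ _ _)]
  have g0 := gr_nn F ζ x
  simp only [Pre.D] at g0
  by_cases hz : ζ x = 0
  · simp only [hz]; nlinarith [mul_nonneg g0 (sq_nonneg ‖v x‖)]
  obtain ⟨e1, e2⟩ := e hz
  rw [LA_eq_lap, ← eq_neg_of_add_eq_zero_left e1, real_inner_self_eq_norm_sq]
  have k1 := sum_dv_normSq_le (e := F.e) (fun a => hA.sk a x) (md1 hv x)
  have k2 := Finset.sum_mul_sq_le_sq_mul_sq Finset.univ (fun a => F.D a ζ x)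
    fun a => Sob92.dv I (F.e a) (fun y => ‖v y‖ ^ 2) x
  have G0 : 0 ≤ gr2 I F.e A v x := gr2_nonneg
  have N0 := (gr_nn F ζ x).trans (hζ.gr x)
  have k3 := k2.trans (mul_le_mul (hζ.gr x) k1 (Finset.sum_nonneg fun _ _ => sq_nonneg _) N0)
  have k4 : -N ≤ ζ x * Lop I F.e F.dv ζ x := (abs_le.1 (by
    rw [abs_mul]; nlinarith [h1 x, hζ.lop x, abs_nonneg (ζ x), abs_nonneg (Lop I F.e F.dv ζ x)])).1
  change _ ≤ _ + ζ x * (ζ x * (_ + 2 * gr2 I F.e A v x)) + _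
  set X := ∑ a, F.D a ζ x * Sob92.dv I (F.e a) (fun y => ‖v y‖ ^ 2) x
  have k5 : -(2 * (ζ x ^ 2 * gr2 I F.e A v x) + 8 * (N * ‖v x‖ ^ 2)) ≤ 4 * (ζ x * X) := by
    refine (abs_le_of_sq_le_sq' ?_ (by positivity)).1
    nlinarith [mul_le_mul_of_nonneg_left k3 (sq_nonneg (ζ x)),
      sq_nonneg (ζ x ^ 2 * gr2 I F.e A v x - 4 * (N * ‖v x‖ ^ 2))]
  nlinarith [mul_le_mul_of_nonneg_right k4 (sq_nonneg ‖v x‖), mul_nonneg g0 (sq_nonneg ‖v x‖),
    mul_nonneg (sq_nonneg (ζ x)) (sq_nonneg ‖v x‖)]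

/-- `L² → L⁴` for nonnegative subsolutions -/
theorem eng_l4 {w σ : M → ℝ} (h : Eng F w σ) (h0 : ∀ x, 0 ≤ w x) (hS : L4 F.toPre S) (hS0 : 0 ≤ S)
    (hβ0 : 0 ≤ β) (hi : Integrable (fun x => σ x ^ 2) F.μ) (hβ : ∫ x, σ x ^ 2 ∂F.μ ≤ β ^ 2) :
    Integrable (fun x => w x ^ 4) F.μ ∧ ∫ x, w x ^ 4 ∂F.μ ≤ (S * β ^ 2) ^ 2 := by
  have wc := h.sm.continuous
  let δ : ℕ → ℝ := fun n => 1 / (n + 1)
  have δ0 : ∀ n, 0 < δ n := fun n => Nat.one_div_pos_of_nat
  have fc : ∀ n, Continuous fun x => max (w x - 2 * δ n) 0 ^ 4 := fun n => by fun_prop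
  have key : ∀ n, Integrable (fun x => max (w x - 2 * δ n) 0 ^ 4) F.μ ∧
      ∫ x, max (w x - 2 * δ n) 0 ^ 4 ∂F.μ ≤ (S * β ^ 2) ^ 2 := fun n => by
    obtain ⟨v, a1, a2, a3, -, a5⟩ := h.l4_le hS hS0 hβ0 hi hβ (δ0 n) (δ0 n)
    have i4 : Integrable (fun x => v x ^ 4) F.μ := integ_pow a1 a2 (by norm_num)
    have le : ∀ x, max (w x - 2 * δ n) 0 ^ 4 ≤ v x ^ 4 := fun x => by
      rcases le_total (w x - 2 * δ n) 0 with h1 | h1
      · rw [max_eq_right h1]; simp; positivity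
      · rw [max_eq_left h1]
        exact pow_le_pow_left₀ h1 (by linarith [a3 x]) 4
    have i5 := i4.mono' (fc n).aestronglyMeasurable (.of_forall fun x => by
      rw [Real.norm_of_nonneg (by positivity)]; exact le x)
    exact ⟨i5, (integral_mono i5 i4 le).trans a5⟩
  refine fatou (f := fun n x => max (w x - 2 * δ n) 0 ^ 4)
    (by fun_prop : Continuous fun x => w x ^ 4).measurable (fun x => by positivity)
    (fun n => (fc n).measurable) (fun n => (key n).1) (fun n x => by positivity)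
    (fun n => (key n).2) fun x => ?_
  have := (((tendsto_one_div_add_atTop_nhds_zero_nat (𝕜 := ℝ)).const_mul 2).const_sub
    (w x)).max (tendsto_const_nhds (x := (0 : ℝ))) |>.pow 4
  rwa [mul_zero, sub_zero, max_eq_left (h0 x)] at this

/-- the constant of the local bound -/
def kL (S N : ℝ) : ℝ := (3 + 8 * S ^ 2) * (20 * N * √S * (20 * N * (S * 4)))

theorem sup_wt (hl : Lw F (1 / 16) (1 / 4) ψ) (hψ : Tendsto ψ (cocompact M) atBot) (hA : Mc I A)
    (hS : L4 F.toPre S) (hS0 : 0 < S) {ζ' : M → ℝ} (hζ : Cu F N ζ) (hζ' : Cu F N ζ') (hN : 0 < N)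
    (h1 : ∀ x, |ζ x| ≤ 1) (h1' : ∀ x, |ζ' x| ≤ 1) (e1 : ∀ x, ζ x ≠ 0 → s x = 0)
    (e2 : ∀ x, ζ' x ≠ 0 → ζ x = 1) (hβ0 : 0 < β)
    (hi : Integrable (fun x => Real.exp (ψ x) * ‖s x‖ ^ 2) F.μ)
    (hβ : ∫ x, Real.exp (ψ x) * ‖s x‖ ^ 2 ∂F.μ ≤ β) (x : M) :
    Real.exp (ψ x) * (ζ' x * ζ' x * ‖F.res A s x‖ ^ 2) ≤ kL S N * β := by
  have := Sob92.openPos F.toPre
  have hW := hl.wt hψ
  have hW' := ((hl.mul (t := 1 / 2) (by norm_num)).mono (by norm_num) (by norm_num)).wt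
    (hψ.const_mul_atBot (by norm_num))
  have ee : ∀ x, Real.exp (1 / 2 * ψ x) ^ 2 = Real.exp (ψ x) := fun x => by
    rw [← Real.exp_nat_mul]; congr 1; push_cast; ring
  obtain ⟨i1, l1⟩ := hW'.l4_le (s := s) (β := √β) hA hS hS0.le (Real.sqrt_nonneg _)
    (by simpa only [mul_pow, ee] using hi)
    (by simpa only [mul_pow, ee, Real.sq_sqrt hβ0.le] using hβ)
  obtain ⟨t, ht, ht'⟩ := res_rhs F A s
  set v := F.res A s
  obtain ⟨C, hC⟩ := ht.2.1
  have eq : ∀ x, ζ x ≠ 0 → v x + lap I F.e F.dv A v x = 0 := fun x hx => by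
    rw [ht.2.2, ← norm_le_zero_iff, ← norm_zero (E := V), ← e1 x hx]; exact ht' x
  have sn : Sm I fun y => ‖v y‖ ^ 2 := fun y => cm_normSq (ht.1 y)
  have bd : ∀ {ζ : M → ℝ}, (∀ x, |ζ x| ≤ 1) → ∀ x, ζ x * ζ x * ‖v x‖ ^ 2 ≤ C ^ 2 := fun {ζ} h x => by
    have a1 : ζ x * ζ x ≤ 1 := by nlinarith [abs_le.1 (h x)]
    nlinarith [pow_le_pow_left₀ (norm_nonneg _) (hC x) 2, sq_nonneg ‖v x‖]
  have nn : ∀ (ζ : M → ℝ) x, 0 ≤ ζ x * ζ x * ‖v x‖ ^ 2 := fun ζ x =>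
    mul_nonneg (mul_self_nonneg _) (sq_nonneg _)
  have E1 := hW.en (f := fun x => ζ x * ζ x * ‖v x‖ ^ 2) (σ := fun x => 10 * N * ‖v x‖ ^ 2) ((hζ.sm.mul hζ.sm).mul sn) (nn ζ) (bd h1)
    (continuous_const.mul sn.continuous)
    fun x => sub_cut hA ht.1 hζ h1 (by positivity) fun hx => ⟨eq x hx, le_rfl⟩
  have r1 : ∀ x, (2 * (Real.exp (ψ x) * (10 * N * ‖v x‖ ^ 2))) ^ 2 =
      (20 * N) ^ 2 * (Real.exp (1 / 2 * ψ x) * ‖v x‖) ^ 4 := fun x => by rw [← ee]; ring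
  obtain ⟨i2, l2⟩ := eng_l4 (β := 20 * N * (S * 4 * β)) E1
    (fun x => mul_nonneg (Real.exp_pos _).le (nn ζ x)) hS hS0.le (by positivity)
    (by simpa only [r1] using i1.const_mul _) (by
      simp only [r1, integral_const_mul]
      rw [mul_pow (20 * N)]
      refine mul_le_mul_of_nonneg_left (l1.trans_eq ?_) (sq_nonneg _)
      rw [mul_pow 2, Real.sq_sqrt hβ0.le]; ring)
  have E2 := hW.en (f := fun x => ζ' x * ζ' x * ‖v x‖ ^ 2) (σ := fun x => 10 * N * (ζ x * ζ x * ‖v x‖ ^ 2))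
    ((hζ'.sm.mul hζ'.sm).mul sn) (nn ζ') (bd h1')
    (continuous_const.mul ((hζ.sm.mul hζ.sm).mul sn).continuous)
    fun x => sub_cut hA ht.1 hζ' h1' (mul_nonneg (by positivity) (nn ζ x)) fun hx =>
      ⟨eq x (by rw [e2 x hx]; exact one_ne_zero), by simp [e2 x hx]⟩
  have r2 : ∀ x, (2 * (Real.exp (ψ x) * (10 * N * (ζ x * ζ x * ‖v x‖ ^ 2)))) ^ 4 =
      (20 * N) ^ 4 * (Real.exp (ψ x) * (ζ x * ζ x * ‖v x‖ ^ 2)) ^ 4 := fun x => by ring
  refine (E2.sup_le (β := 20 * N * √S * (20 * N * (S * 4 * β))) hS hS0 (by positivity)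
    (by simpa only [r2] using i2.const_mul _) ?_ x).trans_eq (by rw [kL]; ring)
  simp only [r2, integral_const_mul]
  refine (mul_le_mul_of_nonneg_left l2 (by positivity)).trans_eq ?_
  rw [mul_pow (20 * N * √S), mul_pow (20 * N) (√S), show 4 = 2 * 2 from rfl, pow_mul (√S),
    Real.sq_sqrt hS0.le]
  ring

theorem kL_nonneg (hS : 0 ≤ S) (hN : 0 ≤ N) : 0 ≤ kL S N := by unfold kL; positivity

/-- **weighted local boundedness**, uniformly in the connection -/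
theorem sup_w {C : ℕ → ℝ} (hT : F.Tame C) (hA : Mc I A) (hU : Wu F U)
    (hS : L4 F.toPre S) (hS0 : 0 < S) {ζ' : M → ℝ} (hζ : Cu F N ζ) (hζ' : Cu F N ζ') (hN : 0 < N)
    (h1 : ∀ x, |ζ x| ≤ 1) (h1' : ∀ x, |ζ' x| ≤ 1) (e1 : ∀ x, ζ x ≠ 0 → s x = 0)
    (e2 : ∀ x, ζ' x ≠ 0 → ζ x = 1) (hs : Continuous s) (hc : HasCompactSupport s) (x : M) :
    ‖ζ' x • F.res A s x‖ ^ 2 ≤ 6 * kL S N * U x * ∫ y, (U y)⁻¹ * ‖s y‖ ^ 2 ∂F.μ := by
  obtain ⟨ψ, g, l, g0, l0, hψ, hl⟩ := exists_lw hT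
  obtain ⟨B, hB⟩ := (hc.isCompact.insert x).exists_bound_of_continuousOn
    hψ.sm.continuous.continuousOn
  have B0 : 0 ≤ B := (norm_nonneg _).trans (hB x (mem_insert _ _))
  have p := hU.pos x
  have k0 := kL_nonneg hS0.le hN.le
  set ε := (8 * (1 + g + l + B))⁻¹ with hε
  have ε0 : 0 < ε := by positivity
  have e0 : ε * (1 + g + l + B) = 1 / 8 := by rw [hε]; field_simp
  have a1 : ε ≤ 1 / 8 := by nlinarith
  have a2 : ε * g ≤ 1 / 8 := by nlinarith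
  have L := ((hψ.mul ε0.le).add (hU.add p.le).lw).mono (g' := 1 / 16) (l' := 1 / 4)
    (by nlinarith) (by nlinarith)
  have ex : ∀ y, Real.exp (ε * ψ y + -Real.log (U y + U x)) = Real.exp (ε * ψ y) * (U y + U x)⁻¹ :=
    fun y => by rw [Real.exp_add, Real.exp_neg, Real.exp_log (by linarith [hU.pos y])]
  have b1 : ∀ y ∈ insert x (tsupport s), 7 / 8 ≤ Real.exp (ε * ψ y) ∧ Real.exp (ε * ψ y) ≤ 8 / 7 :=
    fun y hy => by
      have c1 := abs_le.1 (hB y hy)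
      have c2 := Real.add_one_le_exp (ε * ψ y)
      have c3 := Real.add_one_le_exp (-(ε * ψ y))
      refine ⟨by nlinarith, ?_⟩
      have c4 : Real.exp (ε * ψ y) * Real.exp (-(ε * ψ y)) = 1 := by rw [← Real.exp_add]; simp
      have c5 : 7 / 8 ≤ Real.exp (-(ε * ψ y)) := by nlinarith
      nlinarith [mul_le_mul_of_nonneg_left c5 (Real.exp_pos (ε * ψ y)).le]
  have uc := hU.sm.continuous
  have ci : Continuous fun y => (U y)⁻¹ * ‖s y‖ ^ 2 :=
    (uc.inv₀ fun y => (hU.pos y).ne').mul (hs.norm.pow 2)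
  have hc2 : ∀ f : M → ℝ, HasCompactSupport fun y => f y * ‖s y‖ ^ 2 := fun f =>
    hc.mono fun y hy h => hy (by simp [h])
  have i0 := ci.integrable_of_hasCompactSupport (μ := F.μ) (hc2 _)
  have i1 := ((Real.continuous_exp.comp L.sm.continuous).mul
    (hs.norm.pow 2)).integrable_of_hasCompactSupport (μ := F.μ) (hc2 _)
  have J0 : 0 ≤ ∫ y, (U y)⁻¹ * ‖s y‖ ^ 2 ∂F.μ :=
    integral_nonneg fun y => mul_nonneg (inv_nonneg.2 (hU.pos y).le) (sq_nonneg _)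
  refine le_of_forall_pos_le_add fun δ hδ => ?_
  have key := sup_wt (β := 8 / 7 * ∫ y, (U y)⁻¹ * ‖s y‖ ^ 2 ∂F.μ + δ / (6 * (kL S N + 1) * U x))
    L (tendsto_atBot_add_right_of_ge' _ (-Real.log (U x)) (hl.const_mul_atBot ε0)
      (.of_forall fun y => neg_le_neg (Real.log_le_log p (by linarith [hU.pos y]))))
    hA hS hS0 hζ hζ' hN h1 h1' e1 e2 (by positivity) i1 (le_add_of_le_of_nonneg (by
      rw [← integral_const_mul]
      refine integral_mono i1 (i0.const_mul _) fun y => ?_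
      by_cases hy : y ∈ tsupport s
      · simp only [ex, ← mul_assoc]
        have := hU.pos y
        gcongr
        · exact (b1 y (.inr hy)).2
        · linarith
      · simp [image_eq_zero_of_notMem_tsupport hy]) (by positivity)) x
  rw [ex, mul_assoc, ← two_mul, mul_inv] at key
  rw [norm_smul, mul_pow, Real.norm_eq_abs, sq_abs, sq (ζ' x)]
  set Y := ζ' x * ζ' x * ‖F.res A s x‖ ^ 2
  have Y0 : 0 ≤ Y := mul_nonneg (mul_self_nonneg _) (sq_nonneg _)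
  have f1 : 7 / 8 * (2⁻¹ * (U x)⁻¹ * Y) ≤ _ :=
    (mul_le_mul_of_nonneg_right (b1 x (.inl rfl)).1 (by positivity)).trans key
  have f2 := mul_le_mul_of_nonneg_left f1 p.le
  have f3 : U x * (kL S N * (δ / (6 * (kL S N + 1) * U x))) ≤ δ / 6 := by
    rw [show U x * (kL S N * (δ / (6 * (kL S N + 1) * U x))) = δ / 6 * (kL S N / (kL S N + 1)) by
      field_simp]
    exact mul_le_of_le_one_right (by positivity) ((div_le_one (by positivity)).2 (by linarith))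
  rw [show U x * (7 / 8 * (2⁻¹ * (U x)⁻¹ * Y)) = 7 / 16 * Y by field_simp; ring] at f2
  nlinarith [mul_nonneg (mul_nonneg k0 p.le) J0]

end Crest.Agent.X212.Cyc79
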