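import Crest.Agent.X212.Cyc79.Cf
import Crest.Agent.X212.Cyc79.Sup
import Crest.Agent.X212.Dgr80.Rs
import Crest.Agent.X212.Std94.Smo
import Crest.Agent.X212.Eqv71.Res

/-!
# Row 212, CYC (helper79): sup bounds of the fields, uniformly in the connection
-/

set_option autoImplicit false
set_option linter.unusedSectionVars false
noncomputable section
open scoped Manifold ContDiff Topology InnerProductSpace
open MeasureTheory Set Function Filter

namespace Crest.Agent.X212.Cyc79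
open An Sob92 Wz78 Dgr80
open Mp86 (Mc Bumps L4 Dom LaSz LLSz)
open Wrd81 (wd)

section lin
variable {κ : Type} [Fintype κ] [DecidableEq κ] {K : Type} [NormedAddCommGroup K]
  [InnerProductSpace ℝ K]

theorem hasSum_ct {J : Type*} (b : HilbertBasis J ℝ K) (v : Fm κ K) :
    HasSum (fun n => ‖ct (b n) v‖ ^ 2) (‖v‖ ^ 2) := by
  simp only [PiLp.norm_sq_eq_of_L2, ct_apply, Real.norm_eq_abs, sq_abs]
  refine hasSum_sum fun i _ => ?_
  simpa only [real_inner_self_eq_norm_sq, real_inner_comm (b _), ← sq] using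
    b.hasSum_inner_mul_inner (v i) (v i)

theorem norm_amp [CompleteSpace K] (T : En κ) (v : Fm κ K) : ‖amp K T v‖ ≤ ‖T‖ * ‖v‖ := by
  obtain ⟨w, b, -⟩ := exists_hilbertBasis ℝ K
  refine le_of_sq_le_sq (le_trans ?_ (mul_pow _ _ 2).ge) (by positivity)
  refine hasSum_le (fun n => ?_) (hasSum_ct b _) ((hasSum_ct b v).mul_left _)
  rw [ct_amp, ← mul_pow]
  exact pow_le_pow_left₀ (norm_nonneg _) (T.le_opNorm _) 2

theorem norm_ct (h : K) (v : Fm κ K) : ‖ct h v‖ ≤ ‖h‖ * ‖v‖ := by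
  refine le_of_sq_le_sq ?_ (by positivity)
  rw [mul_pow, PiLp.norm_sq_eq_of_L2, PiLp.norm_sq_eq_of_L2 _ v, Finset.mul_sum]
  refine Finset.sum_le_sum fun i _ => ?_
  rw [← mul_pow]
  exact pow_le_pow_left₀ (norm_nonneg _) (abs_real_inner_le_norm _ _) 2

theorem cont_ct (v : Fm κ K) : Continuous fun h : K => ct h v :=
  (PiLp.continuous_toLp 2 _).comp (continuous_pi fun _ => continuous_id.inner continuous_const)

theorem norm_of_ct {p : En κ} (hp : ∀ v w, ⟪p v, w⟫_ℝ = ⟪v, p w⟫_ℝ) {v : Fm κ K} {c : ℝ}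
    (h1 : ∀ h, p (ct h v) = ct h v) (h2 : ∀ h, ‖ct h v‖ ^ 2 ≤ c * ‖h‖ ^ 2) (hc : 0 ≤ c) :
    ‖v‖ ^ 2 ≤ (∑ i, ‖p (EuclideanSpace.single i 1)‖ ^ 2) * c := by
  rw [PiLp.norm_sq_eq_of_L2, Finset.sum_mul]
  refine Finset.sum_le_sum fun i _ => ?_
  have e : ‖v i‖ ^ 2 = ⟪p (EuclideanSpace.single i 1), ct (v i) v⟫_ℝ := by
    rw [hp, h1, EuclideanSpace.inner_single_left]; simp
  have k := pow_le_pow_left₀ (sq_nonneg _) (e.trans_le (real_inner_le_norm _ _)) 2
  rw [mul_pow] at k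
  have k2 := k.trans (mul_le_mul_of_nonneg_left (h2 (v i)) (sq_nonneg _))
  rcases (sq_nonneg ‖v i‖).eq_or_lt with h0 | h0
  · rw [← h0]; positivity
  · exact le_of_mul_le_mul_right (by nlinarith) h0

theorem norm_hsL_sq (T : En κ) : ‖hsL T‖ ^ 2 = ∑ k, ‖T (EuclideanSpace.single k 1)‖ ^ 2 := by
  rw [← real_inner_self_eq_norm_sq, inner_hsL]
  simp only [real_inner_self_eq_norm_sq]

theorem norm_hsL_mul (ξ η : HS κ) : ‖hsL (opL ξ * opL η)‖ ≤ ‖ξ‖ * ‖η‖ := by
  refine le_of_sq_le_sq ?_ (by positivity)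
  have e := norm_hsL_sq (opL η)
  rw [hsL_opL] at e
  rw [mul_pow, e, norm_hsL_sq, Finset.mul_sum]
  refine Finset.sum_le_sum fun k _ => ?_
  rw [← mul_pow]
  exact pow_le_pow_left₀ (norm_nonneg _) (norm_opL_apply ξ (opL η (EuclideanSpace.single k 1))) 2

theorem norm_adR (ξ : HS κ) : ‖adR κ ξ‖ ≤ 2 * ‖ξ‖ :=
  ContinuousLinearMap.opNorm_le_bound _ (by positivity) fun η => by
    rw [adR_apply, Wz78.adc_apply, map_sub]
    linarith [norm_sub_le (hsL (opL ξ * opL η)) (hsL (opL η * opL ξ)), norm_hsL_mul ξ η,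
      norm_hsL_mul η ξ]

theorem sum_proj (S : Submodule ℝ (Eu κ)) :
    ∑ i, ‖S.starProjection (EuclideanSpace.single i 1)‖ ^ 2 = Module.finrank ℝ S := by
  have h := LinearMap.IsProj.trace (p := S) (f := (S.starProjection : Eu κ →ₗ[ℝ] Eu κ))
    ⟨S.starProjection_apply_mem, fun _ => Submodule.starProjection_eq_self_iff.2⟩
  rw [← h, ← trE_eq, trE_apply]
  refine Finset.sum_congr rfl fun i _ => ?_
  rw [← real_inner_self_eq_norm_sq, Submodule.inner_starProjection_left_eq_right,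
    Submodule.starProjection_eq_self_iff.2 (S.starProjection_apply_mem _),
    EuclideanSpace.inner_single_left]
  simp

end lin

variable {E : Type} [NormedAddCommGroup E] [NormedSpace ℝ E] [FiniteDimensional ℝ E]
  [MeasurableSpace E] [BorelSpace E]
  {HM : Type} [TopologicalSpace HM] {I : ModelWithCorners ℝ E HM} [I.Boundaryless]
  {M : Type} [TopologicalSpace M] [ChartedSpace HM M] [IsManifold I ∞ M]
  [MeasurableSpace M] [T2Space M] [BorelSpace M] [SecondCountableTopology M]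
  {ι : Type} [Fintype ι] {κ : Type} [Fintype κ] [DecidableEq κ]
  {F : Fr I M ι} {A : ι → M → En κ} {p : M → En κ} {f f' ζ ζ' U : M → ℝ} {S N : ℝ} {C : ℕ → ℝ}

variable (F A p) in
/-- a parallel projector of rank at most three for any metric connection -/
structure Pq : Prop where
  tame : ∃ C, F.Tame C
  mc : Mc I A
  sm : Sm I p
  sym : ∀ x v w, ⟪p x v, w⟫_ℝ = ⟪v, p x w⟫_ℝ
  idem : ∀ x, p x * p x = p x
  par : ∀ a x, nabE I F.e A a p x = 0
  rk : ∀ x, ∑ i, ‖p x (EuclideanSpace.single i 1)‖ ^ 2 ≤ 3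

theorem Pq.bmp (h : Pq F A p) : Bumps I F.e F.dv := Mp86.bumps_of_tame F h.tame.choose_spec

theorem Pq.norm_le (h : Pq F A p) (x : M) (v : Eu κ) : ‖p x v‖ ≤ ‖v‖ :=
  (Mp86.proj_le (h.sym x) (h.idem x) v).2.2

theorem Pq.mcA (h : Pq F A p) (K : Type) [NormedAddCommGroup K] [InnerProductSpace ℝ K]
    [CompleteSpace K] : Mc I (aA K A) := ⟨sm_aA h.mc.sm, fun a x => skew_amp (h.mc.sk a x)⟩

theorem sq_toH {V : Type} [NormedAddCommGroup V] [InnerProductSpace ℝ V] (F : Pre I M ι)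
    (u : Sec I (triv M V)) : ‖F.toH 0 _ u‖ ^ 2 = ∫ y, ‖u.1 y‖ ^ 2 ∂F.μ := by
  rw [← real_inner_self_eq_norm_sq, Pre.inner_toH]
  simp only [Pre.ip, real_inner_self_eq_norm_sq]

/-- weighted bound of the base field -/
theorem Pq.bs_le (h : Pq F A p) (hU : Wu F U) (hS : L4 F.toPre S) (hS0 : 0 < S) (hζ : Cu F N ζ)
    (hζ' : Cu F N ζ') (hN : 0 < N) (h1 : ∀ x, |ζ x| ≤ 1) (h1' : ∀ x, |ζ' x| ≤ 1)
    (e1 : ∀ x, ζ x ≠ 0 → f' x = 0) (e2 : ∀ x, ζ' x ≠ 0 → ζ x = 1) (e3 : ∀ x, f x ≠ 0 → ζ' x = 1)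
    (hf' : Continuous f') {m : ℝ} (hm : ∀ x, f' x ^ 2 ≤ m * U x) (z : M) :
    ‖bs F A p f f' z‖ ^ 2 ≤ 3 * (f z ^ 2 * (6 * kL S N * U z * m)) := by
  have m0 : 0 ≤ m := nonneg_of_mul_nonneg_left ((sq_nonneg _).trans (hm z)) (hU.pos z) |> fun h => h
  have k0 := kL_nonneg hS0.le hN.le
  have c0 : 0 ≤ f z ^ 2 * (6 * kL S N * U z * m) := by have := hU.pos z; positivity
  rcases fld_cases F.toPre (fun u z => f z • F.res A (fun y => f' y • p y (u y)) z) with k | k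
  swap
  · rw [bs, k.2]; simpa using c0
  refine (norm_of_ct (h.sym z) (fun g => ?_) (fun g => ?_) c0).trans
    (mul_le_mul_of_nonneg_right (h.rk z) c0)
  · refine H_eq (f := fun g => p z (ct g (bs F A p f f' z))) (g := fun g => ct g (bs F A p f f' z))
      ((p z).continuous.comp (cont_ct _)) (cont_ct _) (fun u => ?_) g
    simp only [bs, k.2 u z, map_smul]
    rw [Mp86.res_fix h.bmp h.mc h.sm ⟨1, fun x => ContinuousLinearMap.opNorm_le_bound _ zero_le_one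
      fun v => by simpa using h.norm_le x v⟩ (fun x a => ?_) fun x => ?_]
    · have := h.par a x
      rw [nabE, ← add_sub_assoc, sub_eq_zero] at this
      exact this
    · rw [map_smul, ← mul_apply_eq_comp, h.idem]
  · refine (F.dense_toH 0 _).induction_on g (isClosed_le ((cont_ct _).norm.pow 2) (by fun_prop))
      fun u => ?_
    simp only [bs, k.2 u z]
    by_cases hz : f z = 0
    · simp [hz]
    have cs : Continuous fun y => f' y • p y (u.1 y) :=
      hf'.smul (h.sm.clm_apply u.2.1).continuous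
    have hc : HasCompactSupport fun y => f' y • p y (u.1 y) :=
      u.2.2.1.mono fun y hy e => hy (by simp [e])
    have k1 := sup_w h.tame.choose_spec h.mc hU hS hS0 hζ hζ' hN h1 h1'
      (fun x hx => by simp [e1 x hx]) e2 cs hc z
    rw [e3 z hz, one_smul] at k1
    rw [norm_smul, mul_pow, Real.norm_eq_abs, sq_abs, mul_assoc, mul_assoc _ m, sq_toH,
      ← integral_const_mul]
    have := hU.pos z
    refine mul_le_mul_of_nonneg_left (k1.trans (mul_le_mul_of_nonneg_left (integral_mono_of_nonneg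
      (.of_forall fun y => mul_nonneg (inv_nonneg.2 (hU.pos y).le) (sq_nonneg _))
      (((u.2.1.continuous.norm.pow 2).integrable_of_hasCompactSupport
        (u.2.2.1.mono fun y hy e => hy (by simp [e]))).const_mul m) (.of_forall fun y => ?_))
      (by positivity))) (sq_nonneg _)
    beta_reduce
    rw [inv_mul_le_iff₀ (hU.pos y), norm_smul, mul_pow, Real.norm_eq_abs, sq_abs, ← mul_assoc,
      mul_comm (U y)]
    exact mul_le_mul (hm y) (pow_le_pow_left₀ (norm_nonneg _) (h.norm_le y _) 2) (sq_nonneg _)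
      ((sq_nonneg _).trans (hm y))

/-- quantitatively separated supports -/
structure SepN (F : Fr I M ι) (N : ℝ) (f f' : M → ℝ) : Prop where
  one : 1 ≤ N
  c : Continuous f
  c' : Continuous f'
  b : ∀ x, |f x| ≤ N
  b' : ∀ x, |f' x| ≤ N
  ex : ∃ φ, Cu F N φ ∧ (∀ x, f x ≠ 0 → 1 ≤ φ x) ∧ ∀ x, f' x ≠ 0 → φ x ≤ 0

theorem Cu.flip {φ : M → ℝ} (h : Cu F N φ) : Cu F N fun x => 1 - φ x :=
  ⟨contMDiff_const.sub h.sm, fun x => by
    rw [sum_cmp (h := fun r => 1 - r) h.sm ((hasDerivAt_id _).const_sub 1)]; simpa using h.gr x,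
    fun x => by
    rw [Mp86.Lop_sub (Mp86.vf F.toPre x) contMDiffAt_const (Mp86.cm2 h.sm x), Mp86.Lop_const,
      zero_sub, abs_neg]; exact h.lop x⟩

theorem SepN.symm (h : SepN F N f f') : SepN F N f' f :=
  let ⟨_, a, b, c⟩ := h.ex
  ⟨h.one, h.c', h.c, h.b', h.b, _, a.flip, fun x hx => by linarith [c x hx],
    fun x hx => by linarith [b x hx]⟩

theorem SepN.mono (h : SepN F N f f') {N' : ℝ} (k : N ≤ N') : SepN F N' f f' :=
  let ⟨_, a, b⟩ := h.ex
  ⟨h.one.trans k, h.c, h.c', fun x => (h.b x).trans k, fun x => (h.b' x).trans k, _, a.mono k, b⟩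

/-- the size is controlled by the constants of the three functions -/
theorem sepN_of_cbs (hF : F.Tame C) {φ : M → ℝ} {D : ℕ → ℝ} (hf : F.CBs f D) (hf' : F.CBs f' D)
    (hφ : F.CBs φ D) (h1 : ∀ x, f x ≠ 0 → 1 ≤ φ x) (h0 : ∀ x, f' x ≠ 0 → φ x ≤ 0) :
    SepN F (1 + |D 0| + Fintype.card ι * (D 2 ^ 2 + (1 + |C 0|) * |D 2|)) f f' := by
  have p : 0 ≤ Fintype.card ι * (D 2 ^ 2 + (1 + |C 0|) * |D 2|) := by positivity
  have q := le_abs_self (D 0)
  have r := abs_nonneg (D 0)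
  exact ⟨by linarith, hf.1.continuous, hf'.1.continuous,
    fun x => (hf.2 0 [] le_rfl x).trans (by linarith),
    fun x => (hf'.2 0 [] le_rfl x).trans (by linarith), φ, (cu_of_cbs hF hφ).mono (by linarith),
    h1, h0⟩

theorem Sep.sepN (hF : F.Tame C) (h : Sep F.toPre f f') : ∃ N, SepN F N f f' := by
  obtain ⟨⟨a, ha⟩, ⟨b, hb⟩, φ, ⟨c, hc⟩, h1, h0⟩ := h
  have m : ∀ {g : M → ℝ} {a}, F.CBs g a → ∀ D : ℕ → ℝ, (∀ k, a k ≤ D k) → F.CBs g D :=
    fun h D e => ⟨h.1, fun k w hw x => (h.2 k w hw x).trans (e k)⟩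
  exact ⟨_, sepN_of_cbs hF (D := fun k => max (a k) (max (b k) (c k))) (m ha _ fun _ => by simp)
    (m hb _ fun _ => by simp) (m hc _ fun _ => by simp) h1 h0⟩

/-- the bound of the base fields and of the letters -/
def kB (S N : ℝ) : ℝ := 2 + N + √(3 * (N ^ 2 * (6 * kL S (2 * (mS * 3) ^ 2 * N) * 1 * N ^ 2)))

theorem le_kB (hN : 0 ≤ N) : 2 ≤ kB S N ∧ N ≤ kB S N := by
  have := Real.sqrt_nonneg (3 * (N ^ 2 * (6 * kL S (2 * (mS * 3) ^ 2 * N) * 1 * N ^ 2)))
  unfold kB; constructor <;> linarith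

theorem Pq.bs_kB (h : Pq F A p) (hS : L4 F.toPre S) (hS0 : 0 < S) (hs : SepN F N f f') (z : M) :
    ‖bs F A p f f' z‖ ≤ kB S N := by
  obtain ⟨φ, a, b, c⟩ := hs.ex
  have N1 := hs.one
  have m1 := one_le_mS
  have k := h.bs_le (f := f) wu_one hS hS0 (a.cf (k := 3) (by norm_num) 0)
    (a.cf (k := 3) (by norm_num) (1 / 3)) (by positivity) (cf_abs _ _) (cf_abs _ _)
    (fun x hx => by_contra fun e => hx (cf_zero (by norm_num) (c x e)))
    (fun x hx => cf_one (by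
      have : ¬φ x ≤ 1 / 3 := fun e => hx (cf_zero (by norm_num) e)
      linarith [not_le.1 this]))
    (fun x hx => cf_one (by linarith [b x hx])) hs.c' (m := N ^ 2)
    (fun x => by rw [mul_one]; exact sq_le_sq' (abs_le.1 (hs.b' x)).1 (abs_le.1 (hs.b' x)).2) z
  have k0 := kL_nonneg (N := 2 * (mS * 3) ^ 2 * N) hS0.le (by positivity)
  refine (Real.le_sqrt_of_sq_le (k.trans ?_)).trans (le_add_of_nonneg_left (by linarith))
  gcongr 3 * (?_ * _)
  exact sq_le_sq' (abs_le.1 (hs.b z)).1 (abs_le.1 (hs.b z)).2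

/-! ### words -/

section words
variable {V U : Type} [NormedAddCommGroup V] [InnerProductSpace ℝ V] [CompleteSpace V]
  [NormedAddCommGroup U] [InnerProductSpace ℝ U] [CompleteSpace U] {A : ι → M → CL V V}
  {r : CL U (CL V V)} {K R ρ : ℝ} {s l : M → V} {w : List (SL M V)} {n : ℕ}

/-- words of length `≤ n` in letters of size `K` -/
def WL (K : ℝ) (n : ℕ) (w : List (SL M V)) : Prop := w.length ≤ n ∧ ∀ t ∈ w, t.Le K

theorem WL.wd (h : WL K n w) (hB : Bumps I F.e F.dv) (hA : Mc I A) (hK : 1 ≤ K)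
    (hs : ∀ x, ‖s x‖ ≤ R) (x : M) : ‖wd (sl F A) s w x‖ ≤ K ^ n * R :=
  (wd_le hB hA hK hs h.2 x).trans (mul_le_mul_of_nonneg_right (pow_le_pow_right₀ hK h.1)
    ((norm_nonneg _).trans (hs x)))

theorem WL.bk (h : WL K n w) (hB : Bumps I F.e F.dv) (hA : Mc I A) (hK : 1 ≤ K)
    (hs : ∀ x, ‖s x‖ ≤ R) (x : M) : ‖bk F A w s x‖ ≤ K ^ n * R :=
  (bk_le hB hA hK h.2 hs x).trans (mul_le_mul_of_nonneg_right (pow_le_pow_right₀ hK h.1)
    ((norm_nonneg _).trans (hs x)))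

theorem le_mul {f : M → ℝ} (h : ∀ x, |f x| ≤ K) : (laV V (.mul f)).Le K := fun x =>
  ContinuousLinearMap.opNorm_le_bound _ ((abs_nonneg _).trans (h x)) fun v =>
    (norm_smul (f x) v).trans_le (mul_le_mul_of_nonneg_right (h x) (norm_nonneg _))

theorem wl_xw (h : ∀ x, |f x| ≤ K) (h' : ∀ x, |f' x| ≤ K) (hn : 3 ≤ n) :
    WL K n ((xw f f').map (laV V)) := ⟨by simpa [xw] using hn, fun t ht => by
  simp only [xw, List.map_cons, List.map_nil, List.mem_cons, List.not_mem_nil, or_false] at ht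
  rcases ht with rfl | rfl | rfl
  exacts [le_mul h, trivial, le_mul h']⟩

theorem wl_sz {m : ℕ} {w : List (La M)} (h : LLSz m w) (hK : (m : ℝ) ≤ K) (hn : m ≤ n) :
    WL K n (w.map (laV V)) := ⟨by simpa using h.1.trans hn, fun t ht => by
  obtain ⟨t, h1, rfl⟩ := List.mem_map.1 ht
  cases t with
  | mul f => exact le_mul fun x => (h.2 _ h1 x).trans hK
  | G => trivial⟩

theorem WL.append {w' : List (SL M V)} {m : ℕ} (h : WL K n w) (k : WL K m w') :
    WL K (n + m) (w ++ w') :=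
  ⟨by simpa using add_le_add h.1 k.1, fun t ht => (List.mem_append.1 ht).elim (h.2 t) (k.2 t)⟩

theorem sq_cur (hr : ‖r‖ ≤ ρ) (v l : M → V) (x : M) : ‖cur F A r v l x‖ ^ 2 ≤
    2 * (ρ * ‖v x‖) ^ 2 * Mp86.gr2 I F.e A l x + 2 * (ρ * ‖l x‖) ^ 2 * Mp86.gr2 I F.e A v x := by
  rw [PiLp.norm_sq_eq_of_L2, Mp86.gr2_eq, Mp86.gr2_eq, Finset.mul_sum, Finset.mul_sum,
    ← Finset.sum_add_distrib]
  refine Finset.sum_le_sum fun a _ => (Mp86.normSq_add_le _ _).trans ?_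
  have k : ∀ v w : V, ‖tp r v w‖ ^ 2 ≤ (ρ * ‖v‖) ^ 2 * ‖w‖ ^ 2 := fun v w => by
    rw [← mul_pow]
    exact pow_le_pow_left₀ (norm_nonneg _) ((norm_tp r v w).trans (by gcongr)) 2
  linarith [k (v x) (nab I F.e A a l x), k (l x) (nab I F.e A a v x)]

/-- the gradient of a word is dominated -/
theorem dom_gc (hB : Bumps I F.e F.dv) (hA : Mc I A) (hK : 1 ≤ K) (hr : ‖r‖ ≤ ρ) {S : ℝ}
    (hs : ∀ x, ‖s x‖ ≤ S) : ∀ {w : List (SL M V)} {l : M → V} {R : ℝ}, (∀ t ∈ w, t.Le K) →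
      (∀ x, ‖l x‖ ≤ R) → Dom F (8 * (4 * K ^ 2) ^ w.length * (ρ * S * R) ^ 2)
        fun x => ‖gc F A r s w l x‖ ^ 2
  | [], _, _, _, _ => (Dom.zero (by positivity)).mono le_rfl fun x => by simp [gc]
  | .op T :: w, l, R, hw, hl => (dom_gc hB hA hK hr hs (fun t ht => hw t (by simp [ht]))
      fun y => (sl_le hB hA hK (hw (.op T) (by simp)) hl y).2).mono (by
        rw [List.length_cons, pow_succ (4 * K ^ 2)]
        nlinarith [show 0 ≤ (4 * K ^ 2) ^ w.length * (K ^ 2 * (ρ * S * R) ^ 2) by positivity])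
      fun _ => le_rfl
  | .G :: w, l, R, hw, hl => by
    have hw' : ∀ t ∈ w, t.Le K := fun t ht => hw t (by simp [ht])
    have sq : ∀ {u : M → V} {c : ℝ}, (∀ x, ‖u x‖ ≤ c) → ∀ x, ‖u x‖ ^ 2 ≤ c ^ 2 := fun h x =>
      pow_le_pow_left₀ (norm_nonneg _) (h x) 2
    obtain ⟨a1, a2⟩ := Dom.res hB hA (sq hl)
    obtain ⟨b1, b2⟩ := Dom.res hB hA (sq (wd_le hB hA hK hs hw'))
    refine ((((dom_gc hB hA hK hr hs hw' (Mp86.norm_res_le hB hA hl)).mul zero_le_two).add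
      (a2.mul (C := 4 * (ρ ^ 2 * (K ^ w.length * S) ^ 2)) (by positivity))).add
      (b2.mul (C := 4 * (ρ ^ 2 * R ^ 2)) (by positivity))).mono ?_ fun x => ?_
    · have k1 : (K ^ w.length) ^ 2 ≤ (4 * K ^ 2) ^ w.length := by
        rw [← pow_mul, mul_comm, pow_mul]
        exact pow_le_pow_left₀ (sq_nonneg _) (by nlinarith) _
      have k2 := mul_le_mul_of_nonneg_right k1 (sq_nonneg (ρ * S * R))
      have k3 : 1 ≤ K ^ 2 := one_le_pow₀ hK
      rw [List.length_cons, pow_succ (4 * K ^ 2)]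
      nlinarith [mul_le_mul_of_nonneg_right k3
        (show 0 ≤ (4 * K ^ 2) ^ w.length * (ρ * S * R) ^ 2 by positivity)]
    · have k1 := sq_cur (F := F) (A := A) hr (F.res A (wd (sl F A) s w)) (F.res A l) x
      have k2 := Mp86.normSq_add_le (gc F A r s w (F.res A l) x)
        (-cur F A r (F.res A (wd (sl F A) s w)) (F.res A l) x)
      rw [← sub_eq_add_neg, norm_neg] at k2
      have k3 := mul_le_mul_of_nonneg_right (mul_le_mul_of_nonneg_left (a1 x) (sq_nonneg ρ))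
        (show 0 ≤ Mp86.gr2 I F.e A (F.res A (wd (sl F A) s w)) x from Mp86.gr2_nonneg)
      have k4 := mul_le_mul_of_nonneg_right (mul_le_mul_of_nonneg_left (b1 x) (sq_nonneg ρ))
        (show 0 ≤ Mp86.gr2 I F.e A (F.res A l) x from Mp86.gr2_nonneg)
      simp only [gc]
      nlinarith

end words

/-! ### configurations -/

variable {lam : Type} [Fintype lam] {r : ℕ} {B : Base M ι lam} {G : Geo I M ι lam}
  {c : Cfg M ι lam r} {d : Cy M} {n : ℕ} {R : ℝ}

/-- the size of a seed -/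
structure Cy.Sz (d : Cy M) (F : Fr I M ι) (n : ℕ) : Prop where
  sep : SepN F n d.f d.f'
  w : LLSz n d.w
  w' : LLSz n d.w'

theorem exists_llsz {F : Fr I M ι} {w : List (La M)} (h : ∀ t ∈ w, La.OK F t) :
    ∀ᶠ n in atTop, LLSz n w := by
  refine (eventually_ge_atTop _).and ((eventually_all_finite w.finite_toSet).2 fun t ht => ?_)
  cases t with
  | mul f =>
    obtain ⟨C, hC⟩ := cb_bdd (h _ ht)
    exact (tendsto_natCast_atTop_atTop.eventually_ge_atTop C).mono fun n hn x => (hC x).trans hn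
  | G => exact .of_forall fun _ => trivial

theorem Cy.OK.sz (hd : d.OK F) (hF : F.Tame C) : ∃ n, d.Sz F n := by
  obtain ⟨N, hN⟩ := hd.sep.sepN hF
  exact (((tendsto_natCast_atTop_atTop.eventually_ge_atTop N).and ((exists_llsz hd.w).and
    (exists_llsz hd.w'))).mono fun n h => ⟨hN.mono h.1, h.2.1, h.2.2⟩).exists

theorem pq_conn (hB : B.OK I) (hT : ∃ C, G.F.Tame C) (H : c.m.OK I B) (h : c.m.IsConn B G c.W) :
    Pq G.F (c.m.adW c.W) c.m.pg where
  tame := hT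
  mc := Eqv71.mc_adW h
  sm := Std94.sm_pg hB H
  sym := inner_pg
  idem x := ContinuousLinearMap.ext (pg_pg x)
  par := pg_par H h (Std94.sm_pg hB H)
  rk x := ((sum_proj (c.m.gS x)).trans (by rw [Std94.finrank_g hB (Std94.pmx H x)]; rfl)).le

theorem CO.pq (h : CO B G c) : Pq G.F (c.m.adW c.W) c.m.pg := pq_conn h.hB h.tame h.ok h.conn

theorem norm_rr (F : Fr I M ι) (c : Cfg M ι lam r) : ‖rr F c‖ ≤ 2 :=
  ContinuousLinearMap.opNorm_le_bound _ zero_le_two fun ξ =>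
    (ContinuousLinearMap.opNorm_le_bound _ (norm_nonneg _) (norm_amp _)).trans (norm_adR ξ)

theorem norm_adl {l : M → c.m.A} {u : M → Vc F c} {T : ℝ} (hl : ∀ x, ‖l x‖ ≤ R)
    (hu : ∀ x, ‖u x‖ ≤ T) (x : M) : ‖adl F c l u x‖ ≤ 2 * R * T :=
  (norm_rep _ _ _).trans (by
    have := (norm_nonneg _).trans (hl x)
    gcongr
    exacts [norm_rr F c, (norm_pg _ _).trans (hl x), hu x])

namespace Cy.Sz
variable (hd : d.Sz F n) (V : Type) [NormedAddCommGroup V] [InnerProductSpace ℝ V] [CompleteSpace V]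
include hd

theorem one : 1 ≤ kB S n := one_le_two.trans (le_kB n.cast_nonneg).1

theorem xw : WL (kB S n) 3 ((xw d.f d.f').map (laV V)) ∧ WL (kB S n) 3 ((xw d.f' d.f).map (laV V)) :=
  have a := fun x => (hd.sep.b x).trans (le_kB (S := S) n.cast_nonneg).2
  have b := fun x => (hd.sep.b' x).trans (le_kB (S := S) n.cast_nonneg).2
  ⟨wl_xw a b le_rfl, wl_xw b a le_rfl⟩

omit hd in
theorem wl {w : List (La M)} (h : LLSz n w) : WL (kB S n) n (w.map (laV V)) :=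
  wl_sz h (le_kB n.cast_nonneg).2 le_rfl

theorem W {w : List (La M)} (h : LLSz n w) :
    WL (kB S n) (n + 3) ((w ++ Cyc79.xw d.f d.f').map (laV V)) := by
  rw [List.map_append]; exact (wl V h).append (hd.xw V).1

variable (h : Pq F (c.m.adW c.W) c.m.pg) (hS : L4 F.toPre S) (hS0 : 0 < S)
include h hS hS0

theorem norm_W {w : List (La M)} (hw : LLSz n w) (x : M) :
    ‖wv F c (bf F c d.f' d.f) (w ++ Cyc79.xw d.f d.f') x‖ ≤ kB S n ^ (n + 3) * kB S n :=
  (hd.W _ hw).wd h.bmp (h.mcA _) hd.one (h.bs_kB hS hS0 hd.sep.symm) x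

/-- **the seed is bounded**, uniformly in the configuration -/
theorem norm_s (x : M) : ‖(d.sed F).s c x‖ ≤ 2 * (kB S n ^ (n + 3) * kB S n) ^ 2 :=
  (norm_pg _ _).trans ((norm_tp _ _ _).trans (by
    have := hd.one (S := S)
    rw [sq, ← mul_assoc]
    gcongr
    exacts [norm_rr F c, hd.norm_W h hS hS0 hd.w x, hd.norm_W h hS hS0 hd.w' x]))

/-- the constant of the gradient -/
def _root_.Crest.Agent.X212.Cyc79.kD (K : ℝ) (n : ℕ) : ℝ :=
  2 * (8 * (4 * K ^ 2) ^ (n + 3) * (2 * K * (2 * (K ^ (n + 3) * K))) ^ 2) +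
    2 * (8 * (4 * K ^ 2) ^ 3 * (2 * K * (K ^ (n + 3) * (2 * (K ^ n * K)))) ^ 2)

theorem dom_gh {w w' : List (La M)} (hw : LLSz n w) (hw' : LLSz n w') {l : M → c.m.A}
    (hl : ∀ x, ‖l x‖ ≤ R) :
    Dom F (kD (kB S n) n * R ^ 2) fun x => ‖gh F c d.f d.f' w w' (adl F c l) x‖ ^ 2 := by
  have k1 := hd.one (S := S)
  have a1 := dom_gc (r := rr F c) h.bmp (h.mcA _) k1 (norm_rr F c) (h.bs_kB hS hS0 hd.sep.symm)
    (hd.W _ hw).2 (norm_adl hl (hd.norm_W h hS hS0 hw'))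
  have a2 := dom_gc (r := rr F c) h.bmp (h.mcA _) k1 (norm_rr F c) (h.bs_kB hS hS0 hd.sep)
    (hd.xw _).2.2 ((hd.W _ hw).bk h.bmp (h.mcA _) k1 (norm_adl hl
      ((wl _ hw').wd h.bmp (h.mcA _) k1 (h.bs_kB hS hS0 hd.sep))))
  refine ((a1.mul zero_le_two).add (a2.mul zero_le_two)).mono ?_ fun x => Mp86.normSq_add_le _ _
  have k2 : 1 ≤ 4 * kB S n ^ 2 := by nlinarith
  have e1 := pow_le_pow_right₀ k2 (hd.W (S := S) (Vc F c) hw).1
  have e2 := pow_le_pow_right₀ k2 (hd.xw (S := S) (Vc F c)).2.1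
  rw [kD, add_mul]
  refine add_le_add ((mul_le_mul_of_nonneg_left (mul_le_mul_of_nonneg_right
    (mul_le_mul_of_nonneg_left e1 (by norm_num)) (sq_nonneg _)) zero_le_two).trans_eq (by ring))
    ((mul_le_mul_of_nonneg_left (mul_le_mul_of_nonneg_right
    (mul_le_mul_of_nonneg_left e2 (by norm_num)) (sq_nonneg _)) zero_le_two).trans_eq (by ring))

/-- **the gradient is dominated**, uniformly in the configuration -/
theorem dom_sA {l : M → c.m.A} (hl : ∀ x, ‖l x‖ ≤ R) :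
    Dom F (4 * kD (kB S n) n * R ^ 2) fun x => ‖(d.sed F).sA c l x‖ ^ 2 :=
  (((hd.dom_gh h hS hS0 hd.w' hd.w hl).mul zero_le_two).add
    ((hd.dom_gh h hS hS0 hd.w hd.w' hl).mul zero_le_two)).mono (le_of_eq (by ring)) fun x => by
    have := Mp86.normSq_add_le (gh F c d.f d.f' d.w' d.w (adl F c l) x)
      (-gh F c d.f d.f' d.w d.w' (adl F c l) x)
    rwa [← sub_eq_add_neg, norm_neg] at this

end Cy.Sz

end Crest.Agent.X212.Cyc79
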