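import Crest.Agent.X212.Cyc79.Blk

/-!
# Row 212, CYC (helper79): the field of a smoothing operator
-/

set_option autoImplicit false
set_option linter.unusedSectionVars false
noncomputable section
open scoped Manifold ContDiff Topology InnerProductSpace
open MeasureTheory Set Function Filter

namespace Crest.Agent.X212.Cyc79
open An Sob92 Wz78 Dgr80
open Wrd81 (wd)
open ContinuousLinearMap (adjoint)

section lin
variable {κ : Type} [Fintype κ] [DecidableEq κ] {K K' : Type} [NormedAddCommGroup K]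
  [InnerProductSpace ℝ K] [NormedAddCommGroup K'] [InnerProductSpace ℝ K']

theorem en_apply (T : En κ) (v : Eu κ) (i : κ) :
    T v i = ∑ j, T (EuclideanSpace.single j 1) i * v j := by
  conv_lhs => rw [← (EuclideanSpace.basisFun κ ℝ).sum_repr v]
  simp [map_sum, mul_comm]

theorem ct_amp (h : K) (T : En κ) (v : Fm κ K) : ct h (amp K T v) = T (ct h v) := by
  ext i
  rw [en_apply, ct_apply, amp_apply, inner_sum]
  simp [inner_smul_right]

theorem ext_ct' {v w : Fm κ K} (h : ∀ k, ct k v = ct k w) : v = w := by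
  ext i
  exact ext_inner_left ℝ fun k => congrArg (fun y : Eu κ => y i) (h k)

theorem amp_one (v : Fm κ K) : amp K (1 : En κ) v = v := ext_ct' fun k => by rw [ct_amp]; rfl

theorem amp_amp (S T : En κ) (v : Fm κ K) : amp K S (amp K T v) = amp K (S * T) v :=
  ext_ct' fun k => by simp only [ct_amp]; rfl

theorem amp_smul_one (t : ℝ) : amp K (t • (1 : En κ)) = t • (1 : CL (Fm κ K) (Fm κ K)) := by
  rw [map_smul]; congr 1; exact ContinuousLinearMap.ext amp_one

theorem fb_amp (R : K →L[ℝ] K') (T : En κ) (v : Fm κ K) : fb R (amp K T v) = amp K' T (fb R v) := by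
  ext i; simp [amp_apply]

theorem inner_amp {S T : En κ} (h : ∀ v w, ⟪S v, w⟫_ℝ = ⟪v, T w⟫_ℝ) (v w : Fm κ K) :
    ⟪amp K S v, w⟫_ℝ = ⟪v, amp K T w⟫_ℝ := by
  have e : ∀ i j, S (EuclideanSpace.single j 1) i = T (EuclideanSpace.single i 1) j := fun i j => by
    simpa [EuclideanSpace.inner_single_left, EuclideanSpace.inner_single_right] using
      h (EuclideanSpace.single j 1) (EuclideanSpace.single i 1)
  simp only [PiLp.inner_apply, amp_apply, sum_inner, inner_sum, inner_smul_left, inner_smul_right, e]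
  rw [Finset.sum_comm]; simp

theorem skew_amp {T : En κ} (h : Skew T) : Skew (amp K T) := fun v w => by
  rw [inner_amp (T := -T) (fun v w => by rw [h v w]; simp), map_neg]; simp

variable [CompleteSpace K] [CompleteSpace K']

theorem adj_amp (T : En κ) : adjoint (amp K T) = amp K (adjoint T) :=
  ((ContinuousLinearMap.eq_adjoint_iff _ _).2
    (inner_amp fun v w => ContinuousLinearMap.adjoint_inner_left T w v)).symm

theorem ct_fb (h : K') (R : K' →L[ℝ] K) (v : Fm κ K) : ct h (fb (adjoint R) v) = ct (R h) v := by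
  ext i; simp [ContinuousLinearMap.adjoint_inner_right]

theorem inner_fb (R : K →L[ℝ] K') (v : Fm κ K) (w : Fm κ K') :
    ⟪fb R v, w⟫_ℝ = ⟪v, fb (adjoint R) w⟫_ℝ := by
  simp [PiLp.inner_apply, ContinuousLinearMap.adjoint_inner_right]

end lin

variable {E : Type} [NormedAddCommGroup E] [NormedSpace ℝ E] [FiniteDimensional ℝ E]
  [MeasurableSpace E] [BorelSpace E]
  {HM : Type} [TopologicalSpace HM] {I : ModelWithCorners ℝ E HM} [I.Boundaryless]
  {M : Type} [TopologicalSpace M] [ChartedSpace HM M] [IsManifold I ∞ M]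
  [MeasurableSpace M] [T2Space M] [BorelSpace M] [SecondCountableTopology M]
  {ι : Type} [Fintype ι] {κ : Type} [Fintype κ] [DecidableEq κ]
  {K K' : Type} [NormedAddCommGroup K] [InnerProductSpace ℝ K] [CompleteSpace K]
  [NormedAddCommGroup K'] [InnerProductSpace ℝ K'] [CompleteSpace K']

variable (K) in
/-- the connection on the Hilbert fibre -/
def aA (A : ι → M → En κ) : ι → M → CL (Fm κ K) (Fm κ K) := fun a x => amp K (A a x)

/-- `α` is the field of the smoothing operator `S` -/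
structure FI (F : Fr I M ι) (S : K →L[ℝ] KK F.toPre κ) (α : M → Fm κ K) : Prop where
  cb : F.Cb α
  lv : ∀ h, Lv F.toPre (S h)
  is : ∀ h, Is F.toPre 0 _ (S h) fun z => ct h (α z)

variable {F : Fr I M ι} {A : ι → M → En κ} {S T : K →L[ℝ] KK F.toPre κ} {α β : M → Fm κ K}

variable (K) in
theorem Ok.amp (h : Ok F A) : Ok F (aA K A) :=
  ⟨h.tame, fun a => Cb_clm _ (h.cb a), fun a x => skew_amp (h.sk a x), fun a x => by
    simp only [aA, ← map_smul, ← map_sum, h.proj]⟩

theorem itw_ct (h : K) (x : M) : Eqv71.Itw I F.e (aA K A) A (fun _ => ct h) x := fun a => by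
  rw [dv_const]; ext1 v; simp [aA, ct_amp]

theorem itw_fb (R : K →L[ℝ] K') (x : M) :
    Eqv71.Itw I F.e (aA K A) (aA K' A) (fun _ => fb R) x := fun a => by
  rw [dv_const]; ext1 v; simp [aA, fb_amp]

theorem ct_nab (hα : Sm I α) (h : K) (a : ι) (x : M) :
    nab I F.e A a (fun z => ct h (α z)) x = ct h (nab I F.e (aA K A) a α x) :=
  (itw_ct h x).nab mdifferentiableAt_const (hα.mdifferentiableAt (by simp)) a

theorem fb_nab (hα : Sm I α) (R : K →L[ℝ] K') (a : ι) (x : M) :
    nab I F.e (aA K' A) a (fun z => fb R (α z)) x = fb R (nab I F.e (aA K A) a α x) :=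
  (itw_fb R x).nab mdifferentiableAt_const (hα.mdifferentiableAt (by simp)) a

theorem sm_aA (hA : ∀ a, Sm I (A a)) (a : ι) : Sm I (aA K A a) :=
  (amp K).contMDiff.comp (hA a)

theorem ct_lap (hA : ∀ a, Sm I (A a)) (hα : Sm I α) (h : K) (x : M) :
    lap I F.e F.dv A (fun z => ct h (α z)) x = ct h (lap I F.e F.dv (aA K A) α x) :=
  Eqv71.itw_lap (frm F) (.of_forall (itw_ct h)) contMDiffAt_const (fun a => sm_aA hA a x) (hα x) _

theorem sm_ct (hα : Sm I α) (h : K) : Sm I fun z => ct h (α z) := (ct h).contMDiff.comp hα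

/-- weak solutions are solutions -/
theorem isRes_of_ct (hA : ∀ a, Sm I (A a)) (hβ : Sm I β) (hb : ∃ C, ∀ x, ‖β x‖ ≤ C)
    (h : ∀ k, F.IsRes A (fun z => ct k (α z)) fun z => ct k (β z)) : F.IsRes (aA K A) α β :=
  ⟨hβ, hb, fun x => ext_ct fun k => by rw [map_add, ← ct_lap hA hβ]; exact (h k).2.2 x⟩

theorem isRes_fb (hA : ∀ a, Sm I (A a)) (R : K →L[ℝ] K') (h : F.IsRes (aA K A) α β) :
    F.IsRes (aA K' A) (fun z => fb R (α z)) fun z => fb R (β z) :=
  Mp86.isRes_map (T := fun _ => fb R) (sm_aA hA) contMDiff_const ⟨_, fun _ => le_rfl⟩ (itw_fb R) h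

theorem exists_FI {C : ℝ} (hC : Sup F.toPre C) (hS : ∀ h, Lv F.toPre (S h)) : ∃ α, FI F S α := by
  obtain ⟨T, hT⟩ := exists_lift hS 4
  let α : M → Fm κ K := fun z => WithLp.toLp 2 fun i =>
    adjoint (F.ev 4 _ z ∘L T) (EuclideanSpace.single i 1)
  have e : ∀ h, (fun z => ct h (α z)) = F.val 4 _ (T h) := fun h => by
    ext z i
    simp [α, ContinuousLinearMap.adjoint_inner_right, EuclideanSpace.inner_single_right, Pre.val]
  have hi : ∀ h, Is F.toPre 0 _ (S h) (F.val 4 _ (T h)) := fun h =>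
    hT h ▸ (Is.val hC le_rfl (T h)).incl (Nat.zero_le 4)
  refine ⟨α, cb_of_ct fun h => ?_, hS, fun h => e h ▸ hi h⟩
  obtain ⟨u, h1, h2⟩ := (hS h).cb hC
  rw [e, is_eq (hi h) h2 (continuous_val hC le_rfl _) (cb_sm h1).continuous]
  exact h1

namespace FI

theorem sm (h : FI F S α) : Sm I α := cb_sm h.cb

theorem eq_ct (h : FI F S α) {k : K} {u : M → Eu κ} (hu : Continuous u)
    (hk : Is F.toPre 0 _ (S k) u) (z : M) : ct k (α z) = u z :=
  congrFun (is_eq (h.is k) hk (sm_ct h.sm k).continuous hu) z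

theorem unique (h : FI F S α) (h' : FI F S β) : α = β := funext fun z => ext_ct fun k =>
  h.eq_ct (sm_ct h'.sm k).continuous (h'.is k) z

theorem op_eq (h : FI F S α) (h' : FI F T α) : S = T :=
  ContinuousLinearMap.ext fun k => (h.is k).unique (h'.is k)

theorem add (h : FI F S α) (h' : FI F T β) : FI F (S + T) fun z => α z + β z :=
  ⟨Cb_add h.cb h'.cb, fun k => (h.lv k).add (h'.lv k), fun k => by
    simp only [map_add]; exact (h.is k).add (h'.is k)⟩

theorem smul (h : FI F S α) (t : ℝ) : FI F (t • S) fun z => t • α z :=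
  ⟨Cb_smul (Cb_const t) h.cb, fun k => (h.lv k).smul t, fun k => by
    simp only [map_smul]; exact (h.is k).smul t⟩

theorem zero : FI F (0 : K →L[ℝ] KK F.toPre κ) fun _ => 0 :=
  ⟨Cb_const _, fun _ => Lv.zero, fun k => by simp only [map_zero]; exact Is.zero⟩

theorem neg (h : FI F S α) : FI F (-S) fun z => -α z := by simpa using h.smul (-1)

theorem sub (h : FI F S α) (h' : FI F T β) : FI F (S - T) fun z => α z - β z := by
  simpa only [sub_eq_add_neg] using h.add h'.neg

theorem sum {J : Type*} (s : Finset J) {S : J → K →L[ℝ] KK F.toPre κ} {α : J → M → Fm κ K}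
    (h : ∀ j ∈ s, FI F (S j) (α j)) : FI F (∑ j ∈ s, S j) fun z => ∑ j ∈ s, α j z := by
  classical
  induction s using Finset.induction_on with
  | empty => simpa using zero
  | insert j s hj ih =>
    simp only [Finset.sum_insert hj]
    exact (h j (by simp)).add (ih fun i hi => h i (by simp [hi]))

theorem op (h : FI F S α) {B : M → En κ} (hB : F.Cb B) :
    FI F (mO F.toPre B ∘L S) fun z => amp K (B z) (α z) :=
  ⟨Cb_app (Cb_clm _ hB) h.cb, fun k => (h.lv k).mul hB, fun k => by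
    simp only [ct_amp]; exact (h.is k).mulH hB (Maps.triv B)⟩

theorem fsmul (h : FI F S α) {f : M → ℝ} (hf : F.Cb f) :
    FI F (smulH F.toPre 0 _ f ∘L S) fun z => f z • α z := by
  have := h.op (B := fun z => f z • ContinuousLinearMap.id ℝ _) (Cb_smul hf (Cb_const _))
  simp only [map_smul, smul_apply, show ∀ v : Fm κ K, amp K (ContinuousLinearMap.id ℝ (Eu κ)) v = v
    from amp_one] at this
  exact this

theorem right (h : FI F S α) (R : K' →L[ℝ] K) : FI F (S ∘L R) fun z => fb (adjoint R) (α z) :=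
  ⟨Cb_clm _ h.cb, fun k => h.lv _, fun k => by simp only [ct_fb]; exact h.is (R k)⟩

theorem res (h : FI F S α) (hA : Ok F A) :
    F.IsRes (aA K A) α (F.res (aA K A) α) ∧ FI F (G0 F A ∘L S) (F.res (aA K A) α) := by
  obtain ⟨β, hβ⟩ := exists_FI (S := G0 F A ∘L S) hA.sup fun k => (h.lv k).G hA
  have : F.IsRes (aA K A) α β := isRes_of_ct hA.mc.sm hβ.sm (cb_bdd hβ.cb) fun k => by
    obtain ⟨h1, h2, h3⟩ := hA.res (h.lv k) (sm_ct h.sm k) (h.is k)
    rwa [funext (hβ.eq_ct (cb_sm h2).continuous h3)]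
  rw [Mp86.res_eq hA.bmp (hA.amp K).mc this]
  exact ⟨this, hβ⟩

/-- first order operators -/
theorem dop (h : FI F S α) {σ : ι → M → En κ} {B : M → En κ} (hσ : ∀ a, F.Cb (σ a)) (hB : F.Cb B)
    {S₁ : K →L[ℝ] F.H 1 (triv M (Eu κ))} (h1 : ∀ k, F.incl 1 0 _ (S₁ k) = S k) :
    FI F (F.opH 0 _ _ σ B ∘L S₁) (F.op (aA K σ) (fun z => amp K (B z)) α) := by
  have R := fun j => rep_opH (F := F.toPre) (k := j) (p := triv M (Eu κ)) (q := triv M (Eu κ))
    hσ hB (fun _ _ _ => rfl) (Maps.triv _)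
  refine ⟨Cb_add (Cb_sum _ fun a _ => Cb_app (Cb_clm _ (hσ a)) (Cb_D h.cb a))
    (Cb_app (Cb_clm _ hB) h.cb), fun k j => ?_, fun k => ?_⟩
  · obtain ⟨y, hy⟩ := h.lv k (j + 1)
    refine ⟨F.opH j _ _ σ B y, ?_⟩
    rw [Rep_incl (R j) (R 0) (by omega) (Nat.zero_le _), ContinuousLinearMap.comp_apply]
    congr 1
    exact incl_injective (Nat.zero_le 1) (by rw [incl_incl (by omega) (Nat.zero_le _), hy, h1])
  · have := (Is.of_incl (Nat.zero_le 1) (h1 k ▸ h.is k)).opH (q := triv M (Eu κ)) hσ hB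
      (fun _ _ _ => rfl) (Maps.triv _) (sm_ct h.sm k)
    refine this.congr (.of_forall fun z => ?_)
    simp only [Pre.op, D_clm F.toPre _ h.sm, map_add, map_sum, aA, ct_amp]

end FI

theorem ext_toH {F : Pre I M ι} {v w : VV F κ}
    (h : ∀ u : Sec I (triv M (Eu κ)), ct (F.toH 0 _ u) v = ct (F.toH 0 _ u) w) : v = w := by
  ext i
  rw [← sub_eq_zero]
  refine (F.dense_toH 0 _).eq_zero_of_inner_right (𝕜 := ℝ) fun u => ?_
  rw [inner_sub_right, sub_eq_zero]
  exact congrArg (fun y : Eu κ => y i) (h u)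

theorem IsFld.eq {F : Pre I M ι} {T : (M → Eu κ) → M → Eu κ} {α : M → VV F κ} (h : IsFld F T α) :
    fld F T = α := by
  have h0 : ∃ α, IsFld F T α := ⟨α, h⟩
  rw [fld, dif_pos h0]
  exact funext fun z => ext_toH fun u => (h0.choose_spec.2 u z).trans (h.2 u z).symm

theorem fld_cases (F : Pre I M ι) (T : (M → Eu κ) → M → Eu κ) :
    IsFld F T (fld F T) ∨ ((¬∃ α, IsFld F T α) ∧ fld F T = 0) := by
  by_cases h : ∃ α, IsFld F T α
  · exact .inl (by rw [fld, dif_pos h]; exact h.choose_spec)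
  · exact .inr ⟨h, by rw [fld, dif_neg h]⟩

theorem sm_fld (F : Pre I M ι) (T : (M → Eu κ) → M → Eu κ) : Sm I (fld F T) := by
  rcases fld_cases F T with h | h
  · exact h.1
  · rw [h.2]; exact contMDiff_const

theorem FI.isFld {S : KK F.toPre κ →L[ℝ] KK F.toPre κ} {α : M → VV F.toPre κ} (h : FI F S α)
    {T : (M → Eu κ) → M → Eu κ} (hT : ∀ u : Sec I (triv M (Eu κ)), Continuous (T u.1) ∧
      Is F.toPre 0 _ (S (F.toH 0 _ u)) (T u.1)) : IsFld F.toPre T α :=
  ⟨h.sm, fun u z => h.eq_ct (hT u).1 (hT u).2 z⟩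

theorem fld_eq {S : KK F.toPre κ →L[ℝ] KK F.toPre κ} {α : M → VV F.toPre κ} (h : FI F S α)
    {T : (M → Eu κ) → M → Eu κ} (hT : ∀ u : Sec I (triv M (Eu κ)), Continuous (T u.1) ∧
      Is F.toPre 0 _ (S (F.toH 0 _ u)) (T u.1)) : fld F.toPre T = α := (h.isFld hT).eq

/-! ### words -/

variable (F A) in
/-- letters as operators on `L²` -/
def laO : La M → KK F.toPre κ →L[ℝ] KK F.toPre κ
  | .mul f => smulH F.toPre 0 _ f
  | .G => G0 F A

variable (F A) in
/-- words as operators on `L²` -/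
def wO : List (La M) → KK F.toPre κ →L[ℝ] KK F.toPre κ
  | [] => ContinuousLinearMap.id ℝ _
  | t :: w => laO F A t ∘L wO w

theorem wO_append (w w' : List (La M)) : wO F A (w ++ w') = wO F A w ∘L wO F A w' := by
  induction w with
  | nil => rfl
  | cons t w ih => rw [List.cons_append, wO, ih]; rfl

theorem smulH_symm {f : M → ℝ} (hf : F.Cb f) (x y : KK F.toPre κ) :
    ⟪smulH F.toPre 0 _ f x, y⟫_ℝ = ⟪x, smulH F.toPre 0 _ f y⟫_ℝ := by
  rw [smulH_eq]
  exact mO_adj (Cb_smul hf (Cb_const _)) (Cb_smul hf (Cb_const _))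
    (fun z v w => by simp [inner_smul_left, inner_smul_right]) x y

theorem laO_symm (hA : Ok F A) {t : La M} (ht : La.OK F t) (x y : KK F.toPre κ) :
    ⟪laO F A t x, y⟫_ℝ = ⟪x, laO F A t y⟫_ℝ := by
  cases t with
  | mul f => exact smulH_symm ht x y
  | G => exact hA.G_symm x y

theorem adj_wO (hA : Ok F A) {w : List (La M)} (hw : ∀ t ∈ w, La.OK F t) :
    adjoint (wO F A w) = wO F A w.reverse := by
  induction w with
  | nil => exact ContinuousLinearMap.adjoint_id
  | cons t w ih =>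
    rw [wO, ContinuousLinearMap.adjoint_comp, ih fun s hs => hw s (by simp [hs]), List.reverse_cons,
      wO_append, ← (ContinuousLinearMap.eq_adjoint_iff _ _).2 (laO_symm hA (hw t (by simp)))]
    rfl

theorem FI.la (h : FI F S α) (hA : Ok F A) {t : La M} (ht : La.OK F t) :
    FI F (laO F A t ∘L S) (sl F (aA K A) (laV _ t) α) := by
  cases t with
  | mul f => exact h.fsmul ht
  | G => exact (h.res hA).2

theorem FI.wd (h : FI F S α) (hA : Ok F A) {w : List (La M)} (hw : ∀ t ∈ w, La.OK F t) :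
    FI F (wO F A w ∘L S) (wd (sl F (aA K A)) α (w.map (laV _))) := by
  induction w with
  | nil => exact h
  | cons t w ih => exact (ih fun s hs => hw s (by simp [hs])).la hA (hw t (by simp))

theorem slT_laV (t : La M) : slT F (aA K A) (laV _ t) = sl F (aA K (κ := κ) A) (laV _ t) := by
  cases t with
  | mul f => funext l x; simp [slT, sl, laV, ContinuousLinearMap.one_def, ContinuousLinearMap.adjoint_id]
  | G => rfl

theorem bk_laV (w : List (La M)) : ∀ l : M → Fm κ K, bk F (aA K A) (w.map (laV _)) l =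
    wd (sl F (aA K A)) l (w.reverse.map (laV _)) := by
  induction w with
  | nil => exact fun _ => rfl
  | cons t w ih =>
    intro l
    rw [List.map_cons, bk, ih, slT_laV, List.reverse_cons, List.map_append, Wrd81.wd_append]; rfl

theorem Sep.symm {F : Pre I M ι} {f f' : M → ℝ} (h : Sep F f f') : Sep F f' f := by
  obtain ⟨h1, h2, φ, h3, h4, h5⟩ := h
  exact ⟨h2, h1, (fun _ => 1) - φ, Cb_sub (Cb_const _) h3, fun x hx => by
    have := h5 x hx; simp only [Pi.sub_apply]; linarith, fun x hx => by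
    have := h4 x hx; simp only [Pi.sub_apply]; linarith⟩

theorem Sep.ok {f f' : M → ℝ} (h : Sep F.toPre f f') : ∀ t ∈ xw f f', La.OK F t := by
  intro t ht
  simp only [xw, List.mem_cons, List.not_mem_nil, or_false] at ht
  rcases ht with rfl | rfl | rfl
  exacts [h.1, trivial, h.2.1]

theorem Sep.lv {f f' : M → ℝ} (h : Sep F.toPre f f') (hA : Ok F A) (x : KK F.toPre κ) :
    Lv F.toPre (wO F A (xw f f') x) := by
  obtain ⟨h1, h2, φ, h3, h4, h5⟩ := h
  exact hA.lv_sep h1 h2 h3 one_pos (fun z hz => by_contra fun e => (h4 z e).not_gt hz) h5 x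

theorem Lv.fmul {x : KK F.toPre κ} (hx : Lv F.toPre x) {f : M → ℝ} (hf : F.Cb f) :
    Lv F.toPre (smulH F.toPre 0 _ f x) := by
  rw [smulH_eq]; exact hx.mul (Cb_smul hf (Cb_const _))

/-- the base field -/
theorem fi_base (hA : Ok F A) {f f' : M → ℝ} (h : Sep F.toPre f f') {p : M → En κ} (hp : F.Cb p) :
    FI F (wO F A (xw f f') ∘L mO F.toPre p)
      (fld F.toPre fun u z => f z • F.res A (fun y => f' y • p y (u y)) z) := by
  obtain ⟨α, hα⟩ := exists_FI (S := wO F A (xw f f') ∘L mO F.toPre p) hA.sup fun k => h.lv hA _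
  rw [fld_eq hα (T := fun u z => f z • F.res A (fun y => f' y • p y (u y)) z) fun u =>
    ⟨(cb_sm h.1).continuous.smul (Mp86.sm_res _ _ _).continuous, ?_⟩]
  · exact hα
  · have h1 := ((Is.toH (F := F.toPre) (k := 0) u).mulH hp (Maps.triv p)).smulH h.2.1
    have h2 : Lv F.toPre (smulH F.toPre 0 _ f' (mO F.toPre p (F.toH 0 _ u))) :=
      ((lv_toH u).mul hp).fmul h.2.1
    exact (hA.res h2 (Wrd81.sm_smul (cb_sm h.2.1) ((cb_sm hp).clm_apply u.2.1)) h1).2.2.smulH h.1

end Crest.Agent.X212.Cyc79
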