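import Crest.Agent.X212.Cyc79.Gr

/-!
# Row 212, CYC (helper79): the weighted Lipschitz bound for the base fields
-/

set_option autoImplicit false
set_option linter.unusedSectionVars false
noncomputable section
open scoped Manifold ContDiff Topology InnerProductSpace
open MeasureTheory Set Function Filter

namespace Crest.Agent.X212.Cyc79
open An Sob92 Wz78 Dgr80
open Ell97 (UB)
open Mp86 (Mc Lop L4)

variable {E : Type} [NormedAddCommGroup E] [NormedSpace ℝ E] [FiniteDimensional ℝ E]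
  [MeasurableSpace E] [BorelSpace E]
  {HM : Type} [TopologicalSpace HM] {I : ModelWithCorners ℝ E HM} [I.Boundaryless]
  {M : Type} [TopologicalSpace M] [ChartedSpace HM M] [IsManifold I ∞ M]
  [MeasurableSpace M] [T2Space M] [BorelSpace M] [SecondCountableTopology M]
  {ι : Type} [Fintype ι] {F : Fr I M ι} {J : Type}

section sq
variable {V N N' : Type} [NormedAddCommGroup V] [InnerProductSpace ℝ V] [NormedAddCommGroup N]
  [NormedAddCommGroup N'] {A : ι → M → CL V V} {ϖ : M → ℝ} {d σ l l' u v : M → V}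
  {g g' : ι → M → V}

variable (F) in
/-- continuous and square integrable -/
def Sq (u : M → N) : Prop := Continuous u ∧ Integrable (fun x => ‖u x‖ ^ 2) F.μ

theorem Sq.dom {u : M → N} {w : M → N'} (h : Sq F u) (hw : Continuous w) {K : ℝ}
    (hK : ∀ x, ‖w x‖ ≤ K * ‖u x‖) : Sq F w :=
  ⟨hw, ((LB.mul ⟨h.2, le_rfl⟩ (sq_nonneg K)).mono (hw.norm.pow 2).aestronglyMeasurable
    (fun _ => sq_nonneg _) fun x => (pow_le_pow_left₀ (norm_nonneg _) (hK x) 2).trans_eq
      (mul_pow _ _ _)).1⟩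

theorem Sq.app {B : M → CL V V} (h : Sq F u) (hB : F.Cb B) : Sq F fun x => B x (u x) :=
  let ⟨_, k⟩ := cb_bdd hB
  h.dom ((cb_sm hB).continuous.clm_apply h.1) fun x => ((B x).le_opNorm _).trans
    (mul_le_mul_of_nonneg_right (k x) (norm_nonneg _))

theorem Sq.inner (h : Sq F u) (k : Sq F v) : Integrable (fun x => ⟪u x, v x⟫_ℝ) F.μ :=
  (h.2.add k.2).mono' (h.1.inner k.1).aestronglyMeasurable (.of_forall fun x =>
    (abs_real_inner_le_norm _ _).trans (by
      simp only [Pi.add_apply]; nlinarith [sq_nonneg (‖u x‖ - ‖v x‖), sq_nonneg ‖u x‖, sq_nonneg ‖v x‖]))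

theorem Sq.sum {T : Type} [Fintype T] {u : T → M → V} (h : ∀ t, Sq F (u t)) :
    Sq F fun x => ∑ t, u t x := by
  have c : Continuous fun x => ∑ t, u t x := continuous_finsetSum _ fun t _ => (h t).1
  refine ⟨c, ((integrable_finsetSum Finset.univ fun t _ => (h t).2).const_mul
    (Fintype.card T)).mono' (c.norm.pow 2).aestronglyMeasurable (.of_forall fun x => ?_)⟩
  rw [Real.norm_of_nonneg (sq_nonneg _)]
  exact (pow_le_pow_left₀ (norm_nonneg _) (norm_sum_le _ _) 2).trans sq_sum_le_card_mul_sum_sq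

theorem sq_hcs (h : Continuous u) (k : HasCompactSupport u) : Sq F u :=
  ⟨h, (h.norm.pow 2).integrable_of_hasCompactSupport (k.mono fun y hy e => hy (by simp [e]))⟩

theorem sq_h1 (hA : Mc I A) (hu : Sm I u) {D : ℝ}
    (h : LB F.μ (fun x => 1 * (‖u x‖ ^ 2 + g2 F A u x)) D) :
    Sq F u ∧ ∀ a, Sq F (nab I F.e A a u) :=
  have c := fun a => (sm_nab (F := F) hA.sm a hu).continuous
  ⟨⟨hu.continuous, (h.mono (hu.continuous.norm.pow 2).aestronglyMeasurable (fun _ => sq_nonneg _)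
    fun x => by
      simp only [Pi.pow_apply]; linarith [g2_nonneg (F := F) (A := A) (u := u) x]).1⟩, fun a =>
    ⟨c a, (h.mono ((c a).norm.pow 2).aestronglyMeasurable (fun _ => sq_nonneg _) fun x => by
      simp only [Pi.pow_apply]
      linarith [le_g2 (F := F) (A := A) (u := u) a x, sq_nonneg ‖u x‖]).1⟩⟩

theorem sq_res (h : Amb F ϖ) (hA : Mc I A) (hl : F.IsRes A l l') (ql : Sq F l) :
    Sq F l' ∧ ∀ a, Sq F (nab I F.e A a l') :=
  sq_h1 hA hl.1 (h.wk_res hA wg_one hl ⟨by simpa using ql.2, le_rfl⟩)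

/-- duality -/
theorem dual_le (h : Amb F ϖ) (hA : Mc I A) (hd : Sm I d) (bd : Bd d) (qσ : Sq F σ)
    (hg : ∀ a, Sm I (g a)) (qg : ∀ a, Sq F (g a))
    (ed : ∀ x, d x + lap I F.e F.dv A d x = σ x - dvn F A g x) (hl : F.IsRes A l l') (ql : Sq F l)
    {b : M → ℝ} (ib : Integrable b F.μ)
    (hb : ∀ x, ⟪σ x, l' x⟫_ℝ + ∑ a, ⟪g a x, nab I F.e A a l' x⟫_ℝ ≤ b x) :
    ∫ x, ⟪d x, l x⟫_ℝ ∂F.μ ≤ ∫ x, b x ∂F.μ := by
  obtain ⟨a1, a2⟩ := sq_res h hA hl ql
  obtain ⟨b1, b2⟩ := sq_h1 hA hd (h.wk hA wg_one hd qσ.1 hg ed (h.int_sq hd.continuous bd)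
    ⟨by simpa using qσ.2.fun_add (integrable_finsetSum _ fun a _ => (qg a).2), le_rfl⟩)
  have i := (qσ.inner a1).fun_add (integrable_finsetSum Finset.univ fun a _ => (qg a).inner (a2 a))
  have e := sa_res h.cut hA hd hl.1 hg ed hl.2.2 (by simpa only [sub_sub] using (b1.inner ql).sub' i)
    fun a => ((b1.inner (a2 a)).sub' ((b2 a).inner a1)).fun_add ((qg a).inner a1)
  simp only [sub_sub] at e
  rw [integral_sub (b1.inner ql) i, sub_eq_zero] at e
  exact e.trans_le (integral_mono i ib hb)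

theorem dvn_sub (hg : ∀ a, Sm I (g a)) (hg' : ∀ a, Sm I (g' a)) (x : M) :
    dvn F A (fun a y => g a y - g' a y) x = dvn F A g x - dvn F A g' x := by
  simp only [dvn, fun a => nab_sub (e := F.e) (A := A) a (hg a x) (hg' a x), smul_sub,
    ← Finset.sum_sub_distrib]
  exact Finset.sum_congr rfl fun a _ => by abel

theorem skew_le {B : CL V V} (h : Skew B) (v w : V) : ⟪B v, w⟫_ℝ ≤ ‖v‖ ^ 2 + ‖B w‖ ^ 2 := by
  rw [h v w]
  nlinarith [abs_le.1 (abs_real_inner_le_norm v (B w)), sq_nonneg (‖v‖ - ‖B w‖), sq_nonneg ‖v‖,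
    sq_nonneg ‖B w‖]

end sq

variable {κ : Type} [Fintype κ] [DecidableEq κ] {K : Type} [NormedAddCommGroup K]
  [InnerProductSpace ℝ K] [CompleteSpace K] {A A' : ι → M → En κ} {p : M → En κ}
  {f f' η U : M → ℝ} {α β : M → Fm κ K} {S N : ℝ}

variable (F) in
/-- fields of smoothing operators -/
def HF (α : M → Fm κ K) : Prop := ∃ S, FI F S α

namespace HF
theorem sm (h : HF F α) : Sm I α := h.choose_spec.sm
theorem add (h : HF F α) (k : HF F β) : HF F fun z => α z + β z :=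
  ⟨_, h.choose_spec.add k.choose_spec⟩
theorem sub (h : HF F α) (k : HF F β) : HF F fun z => α z - β z :=
  ⟨_, h.choose_spec.sub k.choose_spec⟩
theorem op (h : HF F α) {B : M → En κ} (hB : F.Cb B) : HF F fun z => amp K (B z) (α z) :=
  ⟨_, h.choose_spec.op hB⟩
theorem fsmul (h : HF F α) (hf : F.Cb f) : HF F fun z => f z • α z := ⟨_, h.choose_spec.fsmul hf⟩
theorem sum {T : Type} [Fintype T] {α : T → M → Fm κ K} (h : ∀ t, HF F (α t)) :
    HF F fun z => ∑ t, α t z := ⟨_, FI.sum _ fun t _ => (h t).choose_spec⟩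
theorem res (h : HF F α) (hA : Ok F A) :
    F.IsRes (aA K A) α (F.res (aA K A) α) ∧ HF F (F.res (aA K A) α) :=
  ⟨(h.choose_spec.res hA).1, _, (h.choose_spec.res hA).2⟩

theorem nab (h : HF F α) (hA : ∀ a, F.Cb (A a)) (a : ι) : HF F (nab I F.e (aA K A) a α) := by
  classical
  obtain ⟨S, h⟩ := h
  obtain ⟨T, hT⟩ := exists_lift h.lv 1
  have := h.dop (σ := fun b _ => if b = a then 1 else 0) (fun _ => Cb_const _) (hA a) hT
  refine ⟨_, by
    convert this using 1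
    funext z
    simp only [Pre.op]
    rw [Finset.sum_eq_single a (fun b _ hb => by simp [aA, hb]) (by simp)]
    simp only [aA, if_true, amp_one]
    rfl⟩

theorem dvn {g : ι → M → Fm κ K} (h : ∀ a, HF F (g a)) (hA : Ok F A) : HF F (dvn F (aA K A) g) :=
  sum fun a => ((h a).nab hA.cb a).add ((h a).fsmul (hA.cdv a))
end HF

theorem ct_dvn {g : ι → M → Fm κ K} (hg : ∀ a, Sm I (g a)) (h : K) (x : M) :
    ct h (dvn F (aA K A) g x) = dvn F A (fun a y => ct h (g a y)) x := by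
  simp only [dvn, map_sum, map_add, map_smul, fun a => ct_nab (F := F) (A := A) (hg a) h a x]

theorem isRes_ct (hA : ∀ a, Sm I (A a)) (h : F.IsRes (aA K A) α β) (k : K) :
    F.IsRes A (fun z => ct k (α z)) fun z => ct k (β z) :=
  Mp86.isRes_map (T := fun _ => ct k) (sm_aA hA) contMDiff_const ⟨_, fun _ => le_rfl⟩ (itw_ct k) h

theorem int_ct {T : Type} [Fintype T] {Γ : T → M → Fm κ K} (cΓ : ∀ t, Continuous (Γ t)) {D : ℝ}
    (hΓ : LB F.μ (fun z => ∑ t, ‖Γ t z‖ ^ 2) D) (k : K) :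
    Integrable (fun z => ∑ t, ‖ct k (Γ t z)‖ ^ 2) F.μ :=
  ((hΓ.mul (sq_nonneg ‖k‖)).mono (Continuous.aestronglyMeasurable (by fun_prop))
    (fun z => by positivity) fun z => by
      rw [Finset.mul_sum]
      exact Finset.sum_le_sum fun t _ => by
        rw [← mul_pow]; exact pow_le_pow_left₀ (norm_nonneg _) (norm_ct _ _) 2).1

theorem skew_mix {S T : En κ} (h : Skew S) (k : Skew T) (t : ℝ) : Skew (t • (S - T)) := fun v w => by
  simp only [smul_apply, sub_apply, inner_smul_left, inner_smul_right, inner_sub_left,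
    inner_sub_right, h v w, k v w, conj_trivial]
  ring

theorem Pp.mix (h : Pp F A p) (k : Pp F A' p) (hη : F.Cb η) :
    Pp F (fun a x => A a x + η x • (A' a x - A a x)) p where
  tame := h.tame
  cb a := Cb_add (h.cb a) (Cb_smul hη (Cb_sub (k.cb a) (h.cb a)))
  sk a x v w := by
    rw [add_apply, add_apply, inner_add_left, inner_add_right, h.sk a x, skew_mix (k.sk a x) (h.sk a x)]
    ring
  proj a x := by
    simp only [smul_add, smul_sub, fun b (T : En κ) => smul_comm (F.P a b x) (η x) T,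
      Finset.sum_add_distrib, Finset.sum_sub_distrib, ← Finset.smul_sum, h.proj, k.proj]
  cp := h.cp
  sym := h.sym
  idem := h.idem
  par a x := by
    have : nabE I F.e (fun a x => A a x + η x • (A' a x - A a x)) a p x =
        (1 - η x) • nabE I F.e A a p x + η x • nabE I F.e A' a p x := by
      simp only [nabE, add_mul, mul_add, smul_mul_assoc, mul_smul_comm, sub_mul, mul_sub]
      module
    rw [this, h.par, k.par, smul_zero, smul_zero, add_zero]

theorem Pp.pq (h : Pp F A p) (rk : ∀ x, ∑ i, ‖p x (EuclideanSpace.single i 1)‖ ^ 2 ≤ 3) : Pq F A p :=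
  ⟨h.tame, h.mc, h.sm, h.sym, h.idem, h.par, rk⟩

/-- weighted bound of the base field, uniformly in the connection, the weight and `g` -/
theorem exists_bw {C : ℕ → ℝ} (hF : F.Tame C) (hs : Sep F.toPre f f') : ∃ R, 0 ≤ R ∧
    ∀ (A : ι → M → En κ) (U g : M → ℝ), Pq F A p → Wu F U → Continuous g → (∀ x, g x ^ 2 ≤ U x) →
      ∀ z, ‖bs F A p f (fun x => f' x * g x) z‖ ^ 2 ≤ R * U z := by
  obtain ⟨N, hN⟩ := hs.sepN hF
  obtain ⟨φ, a, b, c⟩ := hN.ex
  have N1 := hN.one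
  have m1 := one_le_mS
  have S0 : 0 < |C 0| + 1 := by positivity
  have k0 := kL_nonneg (N := 2 * (mS * 3) ^ 2 * N) S0.le (by positivity)
  have q : ∀ {f : M → ℝ}, (∀ x, |f x| ≤ N) → ∀ x, f x ^ 2 ≤ N ^ 2 := fun h x =>
    sq_le_sq' (abs_le.1 (h x)).1 (abs_le.1 (h x)).2
  refine ⟨3 * (N ^ 2 * (6 * kL (|C 0| + 1) (2 * (mS * 3) ^ 2 * N) * N ^ 2)), by positivity,
    fun A U g h hU hg gU z => (h.bs_le (f := f) hU ((Mp86.l4_of_tame hF).mono
      (by linarith [le_abs_self (C 0)])) S0 (a.cf (k := 3) (by norm_num) 0)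
    (a.cf (k := 3) (by norm_num) (1 / 3)) (by positivity) (cf_abs _ _) (cf_abs _ _)
    (fun x hx => by_contra fun e => hx (cf_zero (by norm_num) (c x (left_ne_zero_of_mul e))))
    (fun x hx => cf_one (by
      have : ¬φ x ≤ 1 / 3 := fun e => hx (cf_zero (by norm_num) e)
      linarith [not_le.1 this]))
    (fun x hx => cf_one (by linarith [b x hx])) (hN.c'.mul hg) (m := N ^ 2)
    (fun x => by
      rw [mul_pow]; exact mul_le_mul (q hN.b' x) (gU x) (sq_nonneg _) (sq_nonneg _)) z).trans ?_⟩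
  have := hU.pos z
  refine le_of_le_of_eq ?_ (show 3 * (N ^ 2 * (6 * kL (|C 0| + 1) (2 * (mS * 3) ^ 2 * N) * U z * N ^ 2))
    = _ by ring)
  gcongr 3 * (?_ * _)
  exact q hN.b z

variable (F A p f) in
/-- the solution with a test section as the source -/
def rv (u : M → Eu κ) : M → Eu κ := F.res A fun y => f y • p y (u y)

theorem Pp.rv (h : Pp F A p) (hf : F.Cb f) (u : Sec I (triv M (Eu κ))) :
    F.IsRes A (fun y => f y • p y (u.1 y)) (rv F A p f u.1) := (is_xO h.toOk hf hf h.cp u).1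

theorem Pp.ct_rv (h : Pp F A p) (hs : Sep F.toPre f f') (u : Sec I (triv M (Eu κ))) :
    (fun z => ct (F.toH 0 _ u) (bs F A p f f' z)) = fun z => f z • Cyc79.rv F A p f' u.1 z :=
  funext (ct_bs h.toOk hs h.cp u)

variable {μ χ χ' ρ o ϖ : M → ℝ}

variable (F f f' η μ χ χ' ρ) in
/-- the cut-off functions -/
structure Cuts : Prop where
  cη : F.Cb η
  cμ : F.Cb μ
  cρ : F.Cb ρ
  ρ0 : ∀ x, 0 ≤ ρ x
  s : Sep F.toPre f f'
  s1 : Sep F.toPre χ f'
  s2 : Sep F.toPre χ' f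
  h1 : ∀ x, η x ≠ 0 → ∀ᶠ y in 𝓝 x, χ y = 1
  h2 : ∀ x, μ x - η x ≠ 0 → χ x = 1
  h3 : ∀ x, 1 - η x ≠ 0 → χ' x = 1
  h4 : ∀ x, 1 - μ x ≠ 0 → ρ x = 1
  h5 : ∀ x, ρ x ≠ 0 → ∀ᶠ y in 𝓝 x, χ' y = 1 ∧ η y = 0

theorem exists_cuts (h : Sep F.toPre f f') : ∃ η μ χ χ' ρ, Cuts F f f' η μ χ χ' ρ := by
  obtain ⟨a1, a2, φ, a3, a4, a5⟩ := id h
  have a6 : F.Cb fun x => 1 - φ x := Cb_sub (Cb_const _) a3
  have c := (cb_sm a3).continuous
  obtain ⟨η, b1, b2, b3, -⟩ := exists_cut a3 (show (6 / 10 : ℝ) < 7 / 10 by norm_num)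
  obtain ⟨μ, c1, c2, c3, -⟩ := exists_cut a3 (show (3 / 10 : ℝ) < 4 / 10 by norm_num)
  obtain ⟨χ, d1, d2, d3, -⟩ := exists_cut a3 (show (1 / 10 : ℝ) < 2 / 10 by norm_num)
  obtain ⟨χ', e1, e2, e3, -⟩ := exists_cut a6 (show (1 / 10 : ℝ) < 2 / 10 by norm_num)
  obtain ⟨ρ, f1, f2, f3, f4⟩ := exists_cut a6 (show (5 / 10 : ℝ) < 6 / 10 by norm_num)
  refine ⟨η, μ, χ, χ', ρ, b1, c1, f1, fun x => (f4 x).1, h,
    sep_cut a2 a3 a5 d1 (s := 1 / 10) (by norm_num) fun z hz => d2 z hz.le,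
    sep_cut a1 a6 (fun x hx => by linarith [a4 x hx]) e1 (s := 1 / 10) (by norm_num)
      fun z hz => e2 z hz.le, fun x hx => ?_, fun x hx => d3 x (not_lt.1 fun e => hx ?_),
    fun x hx => e3 x (not_lt.1 fun e => hx ?_), fun x hx => f3 x (not_lt.1 fun e => hx ?_),
    fun x hx => ?_⟩
  · exact (c.continuousAt.eventually (lt_mem_nhds (not_le.1 fun e => hx (b2 x e)))).mono
      fun y hy => d3 y (by linarith)
  · rw [c2 x (by linarith), b2 x (by linarith), sub_self]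
  · rw [b3 x (by linarith), sub_self]
  · rw [c3 x (by linarith), sub_self]
  · exact (c.continuousAt.eventually (gt_mem_nhds (show φ x < 1 / 2 by
      linarith [not_le.1 fun e => hx (f2 x e)]))).mono
      fun y hy => ⟨e3 y (by linarith), b2 y (by linarith)⟩

section defs
variable (F A A' p f f' η μ χ χ' o)

/-- the intermediate connection -/
abbrev mx : ι → M → En κ := fun a x => A a x + η x • (A' a x - A a x)

/-- the source of the regular part -/
abbrev eS (a : ι) (x : M) : VV F.toPre κ :=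
  amp _ (η x • (A' a x - A a x)) (nab I F.e (aA _ A) a (bs F A p χ f') x)

/-- its divergence part -/
abbrev eG (a : ι) (x : M) : VV F.toPre κ := amp _ (-(η x • (A' a x - A a x))) (bs F A p χ f' x) -
  amp _ ((μ x - η x) • (A' a x - A a x)) (bs F A' p χ f' x)

/-- the regular part -/
abbrev eE : M → VV F.toPre κ := F.res (aA _ (mx A A' η)) fun x => ∑ a, eS F A A' p f' η χ a x -
  dvn F (aA _ (mx A A' η)) (eG F A A' p f' η μ χ) x

/-- the adjoint field -/
abbrev gm : M → VV F.toPre κ := bs F (mx A A' η) p χ' fun x => f x * o x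

/-- the fields which control the remainder -/
def Gm : ι ⊕ ι → M → VV F.toPre κ
  | .inl a, x => amp _ ((1 - η x) • (A' a x - A a x)) (gm F A A' p f η χ' o x)
  | .inr a, x => amp _ ((1 - μ x) • (A' a x - A a x))
      (nab I F.e (aA _ (mx A A' η)) a (gm F A A' p f η χ' o) x)

/-- the remainder -/
abbrev rm (x : M) : VV F.toPre κ :=
  amp _ (p x) (bs F A' p f f' x - bs F A p f f' x - f x • eE F A A' p f' η μ χ x)

end defs

namespace Cuts
variable (c : Cuts F f f' η μ χ χ' ρ) (h : Pp F A p) (h' : Pp F A' p)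
include c h h'

omit c in
theorem cB (a : ι) {τ : M → ℝ} (hτ : F.Cb τ) : F.Cb fun x => τ x • (A' a x - A a x) :=
  Cb_smul hτ (Cb_sub (h'.cb a) (h.cb a))

theorem hG (a : ι) : HF F (eG F A A' p f' η μ χ a) :=
  (HF.op ⟨_, h.fi c.s1⟩ (Cb_neg (cB h h' a c.cη))).sub
    (HF.op ⟨_, h'.fi c.s1⟩ (cB h h' a (Cb_sub c.cμ c.cη)))

theorem hE : F.IsRes (aA _ (mx A A' η)) (fun x => ∑ a, eS F A A' p f' η χ a x -
    dvn F (aA _ (mx A A' η)) (eG F A A' p f' η μ χ) x) (eE F A A' p f' η μ χ) ∧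
    HF F (eE F A A' p f' η μ χ) :=
  ((HF.sum fun a => (HF.nab ⟨_, h.fi c.s1⟩ h.cb a).op (cB h h' a c.cη)).sub
    (HF.dvn (c.hG h h') (h.mix h' c.cη).toOk)).res (h.mix h' c.cη).toOk

omit h h' in
theorem sg (ho : F.Cb o) : Sep F.toPre χ' fun x => f x * o x :=
  let ⟨a, b, φ, d, e, g⟩ := c.s2
  ⟨a, Cb_bil (.mul ℝ ℝ) b ho, φ, d, e, fun x hx => g x (left_ne_zero_of_mul hx)⟩

theorem smg (ho : F.Cb o) : Sm I (gm F A A' p f η χ' o) := ((h.mix h' c.cη).fi (c.sg ho)).sm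

theorem cG (ho : F.Cb o) : ∀ t, Continuous (Gm F A A' p f η μ χ' o t)
  | .inl a => (cb_sm (Cb_clm _ (cB h h' a (Cb_sub (Cb_const _) c.cη)))).continuous.clm_apply
      (c.smg h h' ho).continuous
  | .inr a => (cb_sm (Cb_clm _ (cB h h' a (Cb_sub (Cb_const _) c.cμ)))).continuous.clm_apply
      (sm_nab (sm_aA (h.mix h' c.cη).mc.sm) a (c.smg h h' ho)).continuous

theorem hrm : HF F (rm F A A' p f f' η μ χ) :=
  (((HF.sub ⟨_, h'.fi c.s⟩ ⟨_, h.fi c.s⟩).sub ((c.hE h h').2.fsmul c.s.1))).op h.cp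

variable (u w : Sec I (triv M (Eu κ)))

theorem e2 (a : ι) (y : M) : (-(η y • (A' a y - A a y))) (rv F A p f' u.1 y) -
    ((1 - η y) • (A' a y - A a y)) (rv F A' p f' u.1 y) -
      ct (F.toH 0 _ u) (eG F A A' p f' η μ χ a y) =
    (-((1 - μ y) • (A' a y - A a y))) (rv F A' p f' u.1 y) := by
  rw [map_sub, ct_amp, ct_amp, congrFun (h.ct_rv c.s1 u) y, congrFun (h'.ct_rv c.s1 u) y]
  have k1 : η y * χ y = η y := by
    by_cases e : η y = 0
    · simp [e]
    · rw [(c.h1 y e).self_of_nhds, mul_one]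
  have k2 : (μ y - η y) * χ y = μ y - η y := by
    by_cases e : μ y - η y = 0
    · simp [e]
    · rw [c.h2 y e, mul_one]
  simp only [neg_apply, smul_apply, map_smul, smul_neg, smul_smul, mul_comm (χ y), k1, k2]
  module

/-- the equation of the remainder -/
theorem eqd (y : M) :
    rv F A' p f' u.1 y - rv F A p f' u.1 y - ct (F.toH 0 _ u) (eE F A A' p f' η μ χ y) +
      lap I F.e F.dv (mx A A' η) (fun y => rv F A' p f' u.1 y - rv F A p f' u.1 y -
        ct (F.toH 0 _ u) (eE F A A' p f' η μ χ y)) y =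
      ∑ a, ((1 - η y) • (A' a y - A a y)) (nab I F.e A' a (rv F A' p f' u.1) y) -
        dvn F (mx A A' η) (fun a y => (-((1 - μ y) • (A' a y - A a y))) (rv F A' p f' u.1 y)) y := by
  have m : Mc I (mx A A' η) := (h.mix h' c.cη).mc
  have r := h.rv c.s.2.1 u
  have r' := h'.rv c.s.2.1 u
  have re := isRes_ct m.sm (c.hE h h').1 (F.toH 0 _ u)
  have c1 : ∀ a, Sm I fun y => (1 - η y) • (A' a y - A a y) := fun a =>
    cb_sm (cB h h' a (Cb_sub (Cb_const 1) c.cη))
  have c3 : ∀ a, Sm I fun y => -(η y • (A' a y - A a y)) := fun a => (cb_sm (cB h h' a c.cη)).neg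
  have sG := fun a => (c.hG h h' a).sm
  have k1 := lap_diff (F := F) (A' := A') m c1 (fun a x => by simp only [mx]; module) r'.1 y
  have k2 := lap_diff (F := F) (A' := A) m c3 (fun a x => by simp only [mx]; module) r.1 y
  have k3 := re.2.2 y
  have k4 : ∀ a, ct (F.toH 0 _ u) (eS F A A' p f' η χ a y) =
      (η y • (A' a y - A a y)) (nab I F.e A a (rv F A p f' u.1) y) := fun a => by
    rw [ct_amp, ← ct_nab (h.fi c.s1).sm, h.ct_rv c.s1]
    by_cases e : η y = 0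
    · simp [e]
    · rw [nab_congr a (v := rv F A p f' u.1) ((c.h1 y e).mono fun z hz => by simp only [hz, one_smul])]
  beta_reduce at k3
  rw [map_sub, ct_dvn sG, map_sum] at k3
  simp only [k4] at k3
  simp only [← c.e2 h h' u]
  rw [lap_sub m (r'.1.sub r.1) re.1, lap_sub m r'.1 r.1, dvn_sub (fun a =>
    ((c3 a).clm_apply r.1).sub ((c1 a).clm_apply r'.1)) fun a => sm_ct (sG a) _,
    dvn_sub (fun a => (c3 a).clm_apply r.1) fun a => (c1 a).clm_apply r'.1]
  simp only [neg_apply (η y • _), Finset.sum_neg_distrib] at k2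
  linear_combination (norm := abel) r'.2.2 y - r.2.2 y - k1 + k2 - k3

theorem ptw (ho : F.Cb o) (v : M → Eu κ) (y : M) :
    ⟪∑ a, ((1 - η y) • (A' a y - A a y)) (nab I F.e A' a v y),
      rv F (mx A A' η) p (fun x => f x * o x) w.1 y⟫_ℝ +
    ∑ a, ⟪(-((1 - μ y) • (A' a y - A a y))) (v y),
      nab I F.e (mx A A' η) a (rv F (mx A A' η) p (fun x => f x * o x) w.1) y⟫_ℝ ≤
    (Fintype.card ι + 1) * (1 * (‖v y‖ ^ 2 + g2 F A' v y)) +
      ∑ t, ‖ct (F.toH 0 _ w) (Gm F A A' p f η μ χ' o t y)‖ ^ 2 := by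
  have e1 := (h.mix h' c.cη).ct_rv (c.sg ho) w
  generalize hl : rv F (mx A A' η) p (fun x => f x * o x) w.1 = l at e1 ⊢
  have k1 : ∀ a, ⟪((1 - η y) • (A' a y - A a y)) (nab I F.e A' a v y), l y⟫_ℝ ≤
      ‖nab I F.e A' a v y‖ ^ 2 + ‖ct (F.toH 0 _ w) (Gm F A A' p f η μ χ' o (.inl a) y)‖ ^ 2 :=
    fun a => (skew_le (skew_mix (h'.sk a y) (h.sk a y) _) _ _).trans_eq (by
      rw [Gm, ct_amp, congrFun e1 y]
      by_cases e : 1 - η y = 0
      · simp [e]
      · rw [c.h3 y e, one_smul])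
  have k2 : ∀ a, ⟪(-((1 - μ y) • (A' a y - A a y))) (v y), nab I F.e (mx A A' η) a l y⟫_ℝ ≤
      ‖v y‖ ^ 2 + ‖ct (F.toH 0 _ w) (Gm F A A' p f η μ χ' o (.inr a) y)‖ ^ 2 := fun a => by
    rw [← neg_smul]
    refine (skew_le (skew_mix (h'.sk a y) (h.sk a y) _) _ _).trans_eq ?_
    rw [Gm, ct_amp, ← ct_nab (c.smg h h' ho), e1, neg_smul, neg_apply, norm_neg]
    by_cases e : 1 - μ y = 0
    · simp [e]
    · rw [nab_congr a (u := fun z => χ' z • l z) (v := l) ((c.h5 y (by rw [c.h4 y e]; exact one_ne_zero)).mono fun z hz => by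
        simp only [hz.1, one_smul])]
  have k3 := Finset.sum_le_sum (s := Finset.univ) fun a _ => add_le_add (k1 a) (k2 a)
  simp only [Finset.sum_add_distrib, Finset.sum_const, Finset.card_univ, nsmul_eq_mul] at k3
  rw [sum_inner, Fintype.sum_sum_type]
  have := mul_nonneg (Nat.cast_nonneg (Fintype.card ι)) (g2_nonneg (F := F) (A := A') (u := v) y)
  unfold g2 at this ⊢
  nlinarith [sq_nonneg ‖v y‖]

/-- the remainder is estimated through the adjoint operator -/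
theorem core (am : Amb F ϖ) (ho : Ts I univ o) (hN : ∀ x, |f' x| ≤ N) {D : ℝ}
    (hΓ : LB F.μ (fun z => ∑ t, ‖Gm F A A' p f η μ χ' o t z‖ ^ 2) D) :
    LB F.μ (fun z => ‖o z • rm F A A' p f f' η μ χ z‖ ^ 2)
      (4 * (8 * (Fintype.card ι + 1) * (N ^ 2 + 1)) * D) := by
  have co := Cb_of_hcs (F := F.toPre) ho.sm ho.hc
  have h₁ := h.mix h' c.cη
  refine hs_flip ((c.hrm h h').fsmul co).choose_spec ho.hc.smul_right (c.cG h h' co) hΓ
    (by positivity) fun u w => ?_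
  have r := h.rv c.s.2.1 u
  have r' := h'.rv c.s.2.1 u
  have r₁ := h₁.rv (c.sg co).2.1 w
  have re := isRes_ct h₁.mc.sm (c.hE h h').1 (F.toH 0 _ u)
  have l1 := am.wk_res h'.mc wg_one r' (D := (N ^ 2 + 1) * ‖F.toH 0 _ u‖ ^ 2) (by
    rw [sq_toH]
    refine (LB.mul ⟨(sq_hcs u.2.1.continuous u.2.2.1).2, le_rfl⟩ (by positivity)).mono
      (continuous_const.mul ((Mp86.sm_isRes h.mc.sm r).continuous.norm.pow 2)).aestronglyMeasurable
      (fun x => by positivity) fun x => ?_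
    rw [one_mul, norm_smul, mul_pow, Real.norm_eq_abs]
    exact mul_le_mul (le_add_of_le_of_nonneg (pow_le_pow_left₀ (abs_nonneg _) (hN x) 2) zero_le_one)
      (pow_le_pow_left₀ (norm_nonneg _) (h.norm_le x _) 2) (sq_nonneg _) (by positivity))
  obtain ⟨q1, q2⟩ := sq_h1 h'.mc r'.1 l1
  have c2 : ∀ a, F.Cb fun y => -((1 - μ y) • (A' a y - A a y)) := fun a =>
    Cb_neg (cB h h' a (Cb_sub (Cb_const 1) c.cμ))
  have i2 := int_ct (c.cG h h' co) hΓ (F.toH 0 _ w)
  have l2 := l1.mul (c := Fintype.card ι + 1) (by positivity)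
  have key := dual_le am h₁.mc ((r'.1.sub r.1).sub re.1)
    (by
      obtain ⟨K1, k1⟩ := r'.2.1
      obtain ⟨K2, k2⟩ := r.2.1
      obtain ⟨K3, k3⟩ := re.2.1
      exact ⟨K1 + K2 + K3, fun y => (norm_sub_le _ _).trans
        (add_le_add ((norm_sub_le _ _).trans (add_le_add (k1 y) (k2 y))) (k3 y))⟩)
    (Sq.sum fun a => (q2 a).app (cB h h' a (Cb_sub (Cb_const 1) c.cη)))
    (fun a => (cb_sm (c2 a)).clm_apply r'.1) (fun a => q1.app (c2 a)) (c.eqd h h' u) r₁
    (sq_hcs (Mp86.sm_isRes h₁.mc.sm r₁).continuous (w.2.2.1.mono fun y hy e => hy (by simp [e])))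
    (l2.1.fun_add i2) (c.ptw h h' w co _)
  rw [integral_add l2.1 i2] at key
  refine le_of_eq_of_le (congrArg _ (funext fun z => ?_)) (key.trans (by linarith [l2.2]))
  rw [map_smul, ct_amp, map_sub (ct _), map_sub (ct _), map_smul, congrFun (h.ct_rv c.s u) z,
    congrFun (h'.ct_rv c.s u) z, ← smul_sub, ← smul_sub, inner_smul_right, ← h.sym,
    inner_smul_right, inner_smul_right, real_inner_comm]
  ring

end Cuts

/-! ### families -/

variable {X : Cx F J} {ψ : J → M → ℝ} {c : ℝ} {A' : J → ι → M → En κ}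

variable (X ψ c) in
/-- the weights are comparable with `exp (2 ψ)` -/
structure Ex : Prop where
  sm : ∀ j, Sm I (ψ j)
  ub : ∀ a, UB (fun _ => F.toPre) fun j => F.D a (ψ j)
  gr : ∀ j x, ∑ a, F.D a (ψ j) x ^ 2 ≤ 1 / 256
  lop : ∀ j x, Lop I F.e F.dv (ψ j) x ≤ 1 / 32
  le : ∀ j x, X.W j x ≤ c * Real.exp (ψ j x) ^ 2
  ge : ∀ j x, Real.exp (ψ j x) ^ 2 ≤ c * X.W j x

theorem Ex.wu (h : Ex X ψ c) (j : J) : Wu F fun x => Real.exp (2 * ψ j x) :=
  wu_exp (contMDiff_const.mul (h.sm j)) (fun x => by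
    rw [sum_cmp (h := fun r => 2 * r) (h.sm j) (by simpa using (hasDerivAt_id (ψ j x)).const_mul 2)]
    linarith [h.gr j x]) fun x => by
    rw [Mp86.Lop_mul 2 (Mp86.vf F.toPre x) (Mp86.cm2 (h.sm j) x)]; linarith [h.lop j x]

/-- the setting of the Lipschitz bound -/
structure Lq (X : Cx F J) (A : ι → M → En κ) (A' : J → ι → M → En κ) (p : M → En κ) : Prop where
  pp : Pp F A p
  pp' : ∀ j, Pp F (A' j) p
  rk : ∀ x, ∑ i, ‖p x (EuclideanSpace.single i 1)‖ ^ 2 ≤ 3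
  oB : ∀ a, X.O2 fun j x => A' j a x - A a x
  ex : ∃ ψ c, Ex X ψ c

theorem norm_amp_smul {τ K' : ℝ} (h : ‖τ‖ ≤ K') (B : En κ) (v : Fm κ K) :
    ‖amp K (τ • B) v‖ ≤ K' * ‖B‖ * ‖v‖ :=
  (norm_amp _ _).trans (by rw [norm_smul]; gcongr)

theorem oamp {B : J → M → En κ} (hB : X.O2 B) {τ : M → ℝ} (hτ : F.Cb τ) {v : J → M → Fm κ K}
    (cv : ∀ j, Continuous (v j)) (hv : Ub v) : X.O2 fun j x => amp K (τ x • B j x) (v j x) :=
  let ⟨K', h⟩ := cb_bdd hτ
  hB.ub hv (fun j => ((amp K).continuous.comp ((cb_sm hτ).continuous.smul (hB.1 j))).clm_apply (cv j))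
    (abs_nonneg K') fun _ x => norm_amp_smul ((h x).trans (le_abs_self _)) _ _

namespace Lq
variable (h : Lq X A A' p)
include h

theorem ub_bs (hs : Sep F.toPre f f') : Ub fun j => bs F (A' j) p f f' := by
  obtain ⟨C, hF⟩ := h.pp.tame
  obtain ⟨N, hN⟩ := hs.sepN hF
  exact ⟨_, zero_le_two.trans (le_kB (zero_le_one.trans hN.one)).1, fun j =>
    ((h.pp' j).pq h.rk).bs_kB (S := |C 0| + 1) ((Mp86.l4_of_tame hF).mono
      (by linarith [le_abs_self (C 0)])) (by positivity) hN⟩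

theorem oE (c : Cuts F f f' η μ χ χ' ρ) : X.O2 fun j => eE F A (A' j) p f' η μ χ := by
  have b := (h.pp.fi c.s1).cb
  have n := fun a => cb_nab (h.pp.toOk.amp _).cb b a
  refine (X.wk (fun j => ((h.pp.mix (h.pp' j) c.cη).toOk.amp _).mc)
    (fun j => (c.hE h.pp (h.pp' j)).1.1) (fun a j => (c.hG h.pp (h.pp' j) a).sm)
    (fun j => (c.hE h.pp (h.pp' j)).1.2.2) (fun j => X.amb.int_sq
      (c.hE h.pp (h.pp' j)).1.1.continuous (c.hE h.pp (h.pp' j)).1.2.1)
    (Cx.O2.sum _ fun a _ => oamp (h.oB a) c.cη (fun _ => (cb_sm (n a)).continuous) (cb_bd (n a)).ub)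
    fun a => ((oamp (h.oB a) (Cb_neg c.cη) (fun _ => (cb_sm b).continuous) (cb_bd b).ub).sub
      (oamp (h.oB a) (Cb_sub c.cμ c.cη) (fun j => ((h.pp' j).fi c.s1).sm.continuous)
        (h.ub_bs c.s1))).congr fun j x => ?_).1
  simp only [eG, Pi.neg_apply, Pi.sub_apply, neg_smul]

theorem oR (c : Cuts F f f' η μ χ χ' ρ) : X.O2 fun j => rm F A (A' j) p f f' η μ χ := by
  obtain ⟨ψ, k, e⟩ := h.ex
  obtain ⟨C, hF⟩ := h.pp.tame
  obtain ⟨ξ, D, hξ⟩ := X.amb.cut
  obtain ⟨R, R0, hR⟩ := exists_bw (p := p) hF c.s2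
  obtain ⟨N, hN⟩ := cb_bdd c.s.2.1
  let Y : Cx F (J × ℕ) := ⟨X.ϖ, fun _ _ => 1, fun i => X.D i.1, X.amb, fun _ => wg_one, fun i => X.D0 _⟩
  let o : J × ℕ → M → ℝ := fun i x => ξ i.2 x * Real.exp (ψ i.1 x)
  have se : ∀ j, Sm I fun x => Real.exp (ψ j x) := fun j => Real.contDiff_exp.contMDiff.comp (e.sm j)
  have o1 : ∀ i, Ts I univ (o i) := fun i => (hξ.ts i.2).mul (se i.1)
  have o2 := fun i => Cb_of_hcs (F := F.toPre) (o1 i).sm (o1 i).hc
  have m := fun j => h.pp.mix (h.pp' j) c.cη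
  have g1 : ∀ i x, ‖gm F A (A' i.1) p f η χ' (o i) x‖ ≤ √R * Real.exp (ψ i.1 x) := fun i x => by
    have q : ∀ x, Real.exp (2 * ψ i.1 x) = Real.exp (ψ i.1 x) ^ 2 := fun x => by
      rw [← Real.exp_nat_mul]; rfl
    refine le_of_sq_le_sq ((hR _ _ _ ((m i.1).pq h.rk) (e.wu i.1) (o1 i).sm.continuous (fun x => ?_)
      x).trans_eq (by rw [mul_pow, Real.sq_sqrt R0, q])) (by positivity)
    rw [q, mul_pow]
    exact mul_le_of_le_one_left (sq_nonneg _) ((sq_le_one_iff_abs_le_one _).2 (hξ.le _ _))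
  obtain ⟨T, g2⟩ := grad_w (ψ := fun i : J × ℕ => ψ i.1) hF (h.pp.toOk.amp _).cb c.cρ c.ρ0
    (fun i => e.sm _) (fun a => ub_re (e.ub a) _) (fun i => c.smg h.pp (h.pp' i.1) (o2 i)) g1
    fun i x hx => by
      rw [← bs_hom (m i.1).toOk h.pp.cp (c.sg (o2 i)) ((c.h5 x hx).mono fun y hy => hy.1)]
      exact congrArg _ (Eqv71.lap_congrA _ ((c.h5 x hx).mono fun y hy a => by simp [aA, hy.2]))
  have b : ∀ a, Y.O2 fun i x => Real.exp (ψ i.1 x) • (A' i.1 a x - A a x) := fun a =>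
    let ⟨c1, D, D0, hD⟩ := h.oB a
    ⟨fun i => (se i.1).continuous.smul (c1 i.1), |k| * D, by positivity, fun i =>
      (((hD i.1).mul (abs_nonneg k)).mono (continuous_const.mul
        (((se i.1).continuous.smul (c1 i.1)).norm.pow 2)).aestronglyMeasurable
        (fun x => mul_nonneg zero_le_one (sq_nonneg _)) fun x => by
          refine (one_mul _).trans_le ?_
          simp only [Pi.pow_apply, Pi.smul_apply', norm_smul, mul_pow, Real.norm_eq_abs, sq_abs,
            ← mul_assoc]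
          exact (mul_le_mul_of_nonneg_right ((e.ge _ x).trans
            (mul_le_mul_of_nonneg_right (le_abs_self k) ((X.wg _).pos x).le)) (sq_nonneg _))).le
        (mul_assoc _ _ _).ge⟩
  obtain ⟨K1, k1⟩ := cb_bdd (Cb_sub (Cb_const 1) c.cη)
  obtain ⟨K2, k2⟩ := cb_bdd (Cb_sub (Cb_const 1) c.cμ)
  obtain ⟨-, D', D0, hD⟩ := Cx.O2.toLp (X := Y)
    (f := fun t i => Gm F A (A' i.1) p f η μ χ' (o i) t) fun t => by
      cases t with
      | inl a =>
        refine (b a).dom (fun i => c.cG h.pp (h.pp' i.1) (o2 i) _) (K := K1 * √R) fun i x =>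
          (norm_amp_smul (k1 x) _ _).trans ((mul_le_mul_of_nonneg_left (g1 i x) (mul_nonneg
            ((norm_nonneg _).trans (k1 x)) (norm_nonneg _))).trans_eq ?_)
        rw [norm_smul, Real.norm_of_nonneg (Real.exp_pos _).le]; ring
      | inr a =>
        refine (b a).dom (fun i => c.cG h.pp (h.pp' i.1) (o2 i) _) (K := K2 * |T|) fun i x => ?_
        have p0 := (norm_nonneg _).trans (k2 x)
        by_cases hx : 1 - μ x = 0
        · simp only [Gm, hx, zero_smul, map_zero, zero_apply, norm_zero]; positivity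
        have e1 := g2 i x a (c.h4 x hx)
        have e2 := (c.h5 x (by rw [c.h4 x hx]; exact one_ne_zero)).self_of_nhds.2
        refine (norm_amp_smul (k2 x) _ _).trans ((mul_le_mul_of_nonneg_left (le_of_eq_of_le ?_
          (e1.trans (mul_le_mul_of_nonneg_right (le_abs_self T) (Real.exp_pos _).le)))
          (mul_nonneg p0 (norm_nonneg _))).trans_eq ?_)
        · simp only [nab, aA, mx, e2, zero_smul, add_zero]
        · rw [norm_smul, Real.norm_of_nonneg (Real.exp_pos _).le]; ring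
  have cr := fun j => (c.hrm h.pp (h.pp' j)).sm.continuous
  refine ⟨cr, |k| * (4 * (8 * (Fintype.card ι + 1) * (N ^ 2 + 1)) * D'), by positivity, fun j => ?_⟩
  have key := fun n => c.core h.pp (h.pp' j) X.amb (o1 (j, n)) hN (D := D' * X.D j)
    (by simpa only [Y, one_mul, PiLp.norm_sq_eq_of_L2 (fun _ : ι ⊕ ι => VV F.toPre κ)] using hD (j, n))
  have c2 := (((se j).continuous.smul (cr j)).norm.pow 2).measurable
  refine (((LB.lim c2 (fun x => sq_nonneg _) (fun n => (((o1 (j, n)).sm.continuous.smul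
    (cr j)).norm.pow 2).measurable) (fun n x => sq_nonneg _) key tendsto_const_nhds fun x =>
      tendsto_const_nhds.congr' ((hξ.ev x).mono fun n hn => by simp [o, hn.1])).mul
    (abs_nonneg k)).mono ((X.cW j).mul ((cr j).norm.pow 2)).aestronglyMeasurable
    (fun x => mul_nonneg ((X.wg j).pos x).le (sq_nonneg _)) fun x => ?_).le (le_of_eq (by ring))
  simp only [Pi.pow_apply, Pi.smul_apply', norm_smul, mul_pow, Real.norm_eq_abs, sq_abs, ← mul_assoc]
  exact mul_le_mul_of_nonneg_right ((e.le j x).trans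
    (mul_le_mul_of_nonneg_right (le_abs_self k) (sq_nonneg _))) (sq_nonneg _)

/-- **the base fields depend Lipschitz continuously on the connection** -/
theorem p0 (hs : Sep F.toPre f f') :
    P0 X (QI F p) (fun _ => QI F p) (bs F A p f f') fun j => bs F (A' j) p f f' := by
  obtain ⟨η, μ, χ, χ', ρ, c⟩ := exists_cuts hs
  obtain ⟨N, hN⟩ := cb_bdd hs.1
  refine ⟨h.pp.qi_bs hs, fun j => (h.pp' j).qi_bs hs, cb_bd (h.pp.fi hs).cb, h.ub_bs hs,
    ((h.oR c).add ((h.oE c).dom (w := fun j x => amp _ (p x) (f x • eE F A (A' j) p f' η μ χ x))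
      (fun j => (((c.hE h.pp (h.pp' j)).2.fsmul hs.1).op h.pp.cp).sm.continuous) (K := N)
      fun j x => (h.pp.norm_amp_le x _).trans ((norm_smul _ _).trans_le
        (mul_le_mul_of_nonneg_right (hN x) (norm_nonneg _))))).congr fun j x => ?_⟩
  rw [rm, ← map_add, sub_add_cancel, map_sub, (h.pp.qi_bs hs).2, ((h.pp' j).qi_bs hs).2]

end Lq

end Crest.Agent.X212.Cyc79
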