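import Crest.Agent.X212.Cyc79.Va
import Crest.Agent.X212.Cht98.Cov
import Crest.Agent.X212.Neck67.Bd

/-!
# Row 212, CYC (helper79): from the cylinder to the cross-section
-/

set_option autoImplicit false
set_option linter.unusedSectionVars false
noncomputable section
open scoped Manifold ContDiff Topology InnerProductSpace
open MeasureTheory Set Function Filter

namespace Crest.Agent.X212.Cyc79
open An Sob92 Wz78 Dgr80 Cyf70 Real
open Mp86 (Lop)

/-! ### functions of time -/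

def th (t : ℝ) : ℝ := sinh (t / 8) / cosh (t / 8)

/-- `exp (2 lc t) = 2 cosh (t / 8)` -/
def lc (t : ℝ) : ℝ := log (2 * cosh (t / 8)) / 2

theorem abs_th (t : ℝ) : |th t| ≤ 1 := by
  rw [th, abs_div, abs_of_pos (cosh_pos _), div_le_one (cosh_pos _), abs_sinh, ← cosh_abs]
  exact (sinh_lt_cosh _).le

theorem d8 (t : ℝ) : HasDerivAt (fun t : ℝ => t / 8) (1 / 8) t := (hasDerivAt_id t).div_const 8

theorem der_th (t : ℝ) : HasDerivAt th ((1 - th t * th t) / 8) t := by
  refine (((d8 t).sinh).div (d8 t).cosh (cosh_pos _).ne').congr_deriv ?_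
  have := cosh_pos (t / 8)
  simp only [th]; field_simp

theorem der_lc (t : ℝ) : HasDerivAt lc (th t / 16) t := by
  have := cosh_pos (t / 8)
  refine ((((d8 t).cosh.const_mul 2).log (by positivity)).div_const 2).congr_deriv ?_
  simp only [th]; field_simp; ring

theorem cd_th : ContDiff ℝ ∞ th :=
  (contDiff_sinh.comp (contDiff_id.div_const 8)).div (contDiff_cosh.comp (contDiff_id.div_const 8))
    fun _ => (cosh_pos _).ne'

theorem cd_lc : ContDiff ℝ ∞ lc :=
  ((contDiff_const.mul (contDiff_cosh.comp (contDiff_id.div_const 8))).log fun _ =>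
    (mul_pos two_pos (cosh_pos _)).ne').div_const 2

theorem sm_th : Neck67.Sm th := by
  refine ⟨cd_th, fun k => ?_⟩
  induction k with
  | zero => exact ⟨1, abs_th⟩
  | succ k ih =>
    obtain ⟨M, hM⟩ := ih
    have b := ((Neck67.Bd.const (a := 1) (k := k) le_rfl).sub contDiff_const (cd_th.mul cd_th)
      (hM.mul cd_th cd_th hM)).smul (1 / 8)
    rw [show _ • _ = deriv th from funext fun t => Eq.trans (by simp; ring) (der_th t).deriv.symm] at b
    exact ⟨max 1 _, fun t => (abs_th t).trans (le_max_left _ _), b.mono (le_max_right _ _)⟩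

theorem exp_lc (t c : ℝ) : exp (1 * lc t + c) ^ 2 = exp (t / 8 + 2 * c) + exp (-(t / 8) + 2 * c) := by
  rw [← exp_nat_mul, show ((2 : ℕ) : ℝ) * (1 * lc t + c) = log (2 * cosh (t / 8)) + 2 * c by
    rw [lc]; push_cast; ring, exp_add, exp_log (mul_pos two_pos (cosh_pos _)), cosh_eq, exp_add,
    exp_add]
  ring

theorem exp_lc' (t c : ℝ) :
    exp (-1 * lc t + -c) ^ 2 = (exp (t / 8 + 2 * c) + exp (-(t / 8) + 2 * c))⁻¹ := by
  rw [← exp_lc, ← inv_pow, ← exp_neg]; congr 2; ring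

/-- the decaying exponential -/
def kk (t : ℝ) : ℝ := exp (-(|t| / 8))

theorem int_kk : Integrable kk := by
  refine (integrable_inv_one_add_sq.const_mul 128).mono'
    (Continuous.aestronglyMeasurable (by unfold kk; fun_prop)) (.of_forall fun t => ?_)
  have := quadratic_le_exp_of_nonneg (show 0 ≤ |t| / 8 by positivity)
  rw [kk, norm_of_nonneg (exp_pos _).le, exp_neg, ← div_eq_mul_inv, ← one_div,
    div_le_div_iff₀ (exp_pos _) (by positivity), ← sq_abs t]
  nlinarith [abs_nonneg t]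

theorem lb_kk (n : ℝ) :
    LB volume (fun t => 3 * (kk (t - n) + kk (t + n))) (3 * ((∫ t, kk t) + ∫ t, kk t)) :=
  (LB.add ⟨int_kk.comp_sub_right n, (integral_sub_right_eq_self kk n).le⟩
    ⟨int_kk.comp_add_right n, (integral_add_right_eq_self kk n).le⟩).mul zero_le_three

/-- `1` on `[-n, n]`, `0` off `[-n - 1, n + 1]` -/
def cz (n : ℝ) : ℝ → ℝ := Neck67.up (-n - 1) 1 * Neck67.dn (n + 1) 1

theorem sm_cz (n : ℝ) : Neck67.Sm (cz n) := (Neck67.sm_up le_rfl _).mul (Neck67.sm_dn le_rfl _)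

theorem cz_one {n t : ℝ} (h : |t| ≤ n) : cz n t = 1 := by
  have := abs_le.1 h
  simp [cz, Neck67.up_one (p := -n - 1) (t := t) one_pos (by linarith),
    Neck67.dn_one (q := n + 1) (t := t) one_pos (by linarith)]

theorem cz_zero {n t : ℝ} (h : n + 1 ≤ |t|) : cz n t = 0 := by
  rcases le_abs.1 h with h | h
  · simp [cz, Neck67.dn_zero one_pos h]
  · simp [cz, Neck67.up_zero (p := -n - 1) (t := t) one_pos (by linarith)]

theorem cz_mem (n t : ℝ) : 0 ≤ cz n t ∧ cz n t ≤ 1 :=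
  have h1 := Neck67.up_mem (-n - 1) 1 t
  have h2 := Neck67.dn_mem (n + 1) 1 t
  ⟨mul_nonneg h1.1 h2.1, mul_le_one₀ h1.2 h2.1 h2.2⟩

theorem int_cz (n : ℝ) : Integrable (cz n) := (sm_cz n).cd.continuous.integrable_of_hasCompactSupport
  (HasCompactSupport.intro (isCompact_closedBall (0 : ℝ) (n + 1)) fun _ ht =>
    cz_zero (le_of_lt (by simpa using ht)))

theorem le_int_cz {n : ℝ} (h : 0 ≤ n) : n ≤ ∫ t, cz n t := by
  refine le_trans ?_ (setIntegral_le_integral (s := Icc 0 n) (int_cz n) (.of_forall fun t => (cz_mem n t).1))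
  rw [setIntegral_congr_fun (g := fun _ => 1) measurableSet_Icc fun t ht =>
    cz_one ((abs_of_nonneg ht.1).trans_le ht.2)]
  simp [h]

theorem exp_le_kk {s : ℝ} (h : s ≤ 1) : exp (s / 8) ≤ 3 * kk s := by
  refine le_trans ?_ (mul_le_mul_of_nonneg_right exp_one_lt_three.le (exp_pos _).le)
  rw [kk, ← exp_add]
  exact exp_le_exp.2 (by cases abs_cases s <;> linarith)

theorem cz_in (n t : ℝ) :
    exp (1 * lc t + -n / 16) ^ 2 * cz n t ^ 2 ≤ 3 * (kk (t - n) + kk (t + n)) := by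
  rcases le_total (n + 1) |t| with h | h
  · rw [cz_zero h]; unfold kk; simp only [ne_eq, OfNat.ofNat_ne_zero, not_false_eq_true, zero_pow,
      mul_zero]; positivity
  have := abs_le.1 h
  refine (mul_le_of_le_one_right (sq_nonneg _) (pow_le_one₀ (cz_mem n t).1 (cz_mem n t).2)).trans ?_
  have a := exp_le_kk (s := t - n) (by linarith)
  have b := exp_le_kk (s := -(t + n)) (by linarith)
  rw [kk, abs_neg] at b
  rw [exp_lc, show t / 8 + 2 * (-n / 16) = (t - n) / 8 by ring,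
    show -(t / 8) + 2 * (-n / 16) = -(t + n) / 8 by ring, mul_add]
  exact add_le_add a b

theorem cz_out (n t : ℝ) :
    exp (-1 * lc t + -(-n / 16)) ^ 2 * (1 - cz n t) ^ 2 ≤ 3 * (kk (t - n) + kk (t + n)) := by
  have p : ∀ s, 0 < kk s := fun _ => exp_pos _
  have p1 := p (t - n)
  have p2 := p (t + n)
  rcases le_total |t| n with h | h
  · rw [cz_one h, sub_self, sq (0 : ℝ), mul_zero, mul_zero]; positivity
  refine (mul_le_of_le_one_right (sq_nonneg _) (pow_le_one₀ (by linarith [(cz_mem n t).2])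
    (by linarith [(cz_mem n t).1]))).trans ?_
  rw [exp_lc']
  rcases le_abs.1 h with h | h
  · refine (inv_anti₀ (exp_pos _) (le_add_of_nonneg_right (exp_pos _).le)).trans ?_
    rw [← exp_neg, show -(t / 8 + 2 * (-n / 16)) = -(|t - n| / 8) by
      rw [abs_of_nonneg (by linarith)]; ring]
    exact le_trans (show kk _ ≤ _ from le_rfl) (by linarith)
  · refine (inv_anti₀ (exp_pos _) (le_add_of_nonneg_left (exp_pos _).le)).trans ?_
    rw [← exp_neg, show -(-(t / 8) + 2 * (-n / 16)) = -(|t + n| / 8) by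
      rw [abs_of_nonpos (by linarith)]; ring]
    exact le_trans (show kk _ ≤ _ from le_rfl) (by linarith)

/-! ### the cylinder -/

variable {E : Type} [NormedAddCommGroup E] [NormedSpace ℝ E] [FiniteDimensional ℝ E]
  [MeasurableSpace E] [BorelSpace E]
  {HM : Type} [TopologicalSpace HM] {I : ModelWithCorners ℝ E HM} [I.Boundaryless]
  {Y : Type} [TopologicalSpace Y] [ChartedSpace HM Y] [IsManifold I ∞ Y] [T2Space Y]
  [MeasurableSpace Y] [BorelSpace Y] [SecondCountableTopology Y] [CompactSpace Y]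
  {ι : Type} [Fintype ι] {F : Fr I Y ι} {N : Type} [NormedAddCommGroup N] [InnerProductSpace ℝ N]

theorem CB_t (k : ℕ) : ∀ {f : ℝ → ℝ} {A : ℝ}, ContDiff ℝ ∞ f → Neck67.Bd k f A →
    (cyl F).CB k (fun x => f x.2) A := by
  induction k with
  | zero => exact fun _ hb => CB_zero.2 fun x => hb x.2
  | succ k ih =>
    refine fun {f A} hf hb => CB_succ.2 ⟨fun x => hb.1 x.2, fun a => ?_⟩
    cases a with
    | none =>
      rw [show (cyl F).D none _ = _ from D_none_snd F.toPre hf]; exact ih (Neck67.cd_deriv hf) hb.2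
    | some a =>
      rw [show (cyl F).D (some a) _ = _ from D_some_snd F.toPre hf a]
      exact CB_mono (CB_const k (0 : ℝ)) (by simpa using hb.nonneg)

theorem cb_t {f : ℝ → ℝ} (h : Neck67.Sm f) : (cyl F).Cb fun x => f x.2 :=
  let ⟨A, hA⟩ := Classical.skolem.1 h.bd
  ⟨A, sm_snd h.cd, fun k => CB_t k h.cd (hA k)⟩

theorem gr_t {f : ℝ → ℝ} (h : ContDiff ℝ ∞ f) (x : Y × ℝ) :
    ∑ a, (cyl F).D a (fun x => f x.2) x ^ 2 = deriv f x.2 ^ 2 := by
  rw [Fintype.sum_option, show (cyl F).D none _ = _ from D_none_snd F.toPre h]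
  simp [fun a => show (cyl F).D (some a) _ = _ from D_some_snd F.toPre h a]

theorem lop_t {f : ℝ → ℝ} (h : ContDiff ℝ ∞ f) (x : Y × ℝ) :
    Lop (IC I) (cyl F).e (cyl F).dv (fun x => f x.2) x = deriv (deriv f) x.2 := by
  change ∑ a, ((cyl F).D a ((cyl F).D a _) x + cd F.dv a x • (cyl F).D a _ x) = _
  rw [Fintype.sum_option, show (cyl F).D none _ = _ from D_none_snd F.toPre h,
    show (cyl F).D none _ = _ from D_none_snd F.toPre (Neck67.cd_deriv h)]
  simp only [fun a => show (cyl F).D (some a) _ = _ from D_some_snd F.toPre h a]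
  simp [cd, Pre.D, Sob92.dv_zero]

theorem lb_t {b : ℝ → ℝ} {a : ℝ} (h : LB volume b a) :
    LB (cyl F).μ (fun x => b x.2) (F.μ.real univ * a) :=
  ⟨h.1.comp_snd F.μ, (integral_fun_snd b).trans_le (mul_le_mul_of_nonneg_left h.2 measureReal_nonneg)⟩

theorem ipm (f : Y → ℝ) (g : ℝ → ℝ) :
    ∫ x, f x.1 * g x.2 ∂(cyl F).μ = (∫ y, f y ∂F.μ) * ∫ t, g t := integral_prod_mul f g

theorem int_Y {N : Type} [NormedAddCommGroup N] {u : Y → N} (h : Continuous u) :
    Integrable u F.μ := h.integrable_of_hasCompactSupport (.of_compactSpace _)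

theorem int_lc : Integrable fun t => exp (-1 * lc t + 0) ^ 2 :=
  int_kk.mono' ((((continuous_const.mul cd_lc.continuous).add continuous_const).rexp.pow
    2).aestronglyMeasurable) (.of_forall fun t => by
      rw [norm_of_nonneg (sq_nonneg _), ← neg_zero, exp_lc', mul_zero, add_zero, add_zero, kk,
        exp_neg (|t| / 8)]
      refine inv_anti₀ (exp_pos _) ?_
      cases abs_cases t <;> simp only [*, neg_div] <;> linarith [exp_pos (t / 8), exp_pos (-(t / 8))])

theorem xw_cyl (hT : ∃ C, (cyl F).Tame C) : Xw (cyl F) fun x => lc x.2 := by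
  have e : deriv lc = (1 / 16 : ℝ) • th := funext fun t => (der_lc t).deriv.trans (by simp; ring)
  refine ⟨hT, sm_snd cd_lc, fun a => ?_, fun x => ?_, fun x => ?_, int_lc.comp_snd F.μ, fun x =>
    div_nonneg (log_nonneg (by linarith [one_le_cosh (x.2 / 8)])) zero_le_two⟩
  · cases a with
    | none =>
      rw [show (cyl F).D none _ = _ from D_none_snd F.toPre cd_lc, e]; exact cb_t (sm_th.smul _)
    | some a => rw [show (cyl F).D (some a) _ = _ from D_some_snd F.toPre cd_lc a]; exact Cb_const 0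
  · rw [gr_t cd_lc, (der_lc _).deriv]
    nlinarith [(sq_le_one_iff_abs_le_one _).2 (abs_th x.2)]
  · rw [lop_t cd_lc, e, ((der_th x.2).const_smul (1 / 16 : ℝ)).deriv, smul_eq_mul, abs_le]
    constructor <;> nlinarith [(sq_le_one_iff_abs_le_one _).2 (abs_th x.2), sq_nonneg (th x.2)]

namespace Var
variable {S : Submodule ℝ (Y × ℝ → N)} {f : (Y × ℝ → N) → Y × ℝ → ℝ}
  {g : (Y × ℝ → N) → Y × ℝ → N} (H : Var (cyl F) S f g) (hT : ∃ C, (cyl F).Tame C)
include H hT

/-- the Lipschitz bound on the cross-section -/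
theorem lipY : ∃ C, 0 ≤ C ∧ ∀ a : Y → N, (fun x => a x.1) ∈ S → ∀ r : Y → ℝ, Continuous r →
    (∀ y, 0 ≤ r y) → (∀ x, r x.1 ≤ ‖g (fun x => a x.1) x - g 0 x‖ ^ 2) →
    LB F.μ r (C * ∫ y, ‖a y‖ ^ 2 ∂F.μ) := by
  have h := xw_cyl hT
  let J := {a : Y → N // (fun x : Y × ℝ => a x.1) ∈ S}
  have p : 0 < ∫ t, exp (-1 * lc t + 0) ^ 2 := integral_pos_of_integrable_nonneg_nonzero (x := 0)
    (((continuous_const.mul cd_lc.continuous).add continuous_const).rexp.pow 2) int_lc
    (fun _ => sq_nonneg _) (pow_pos (exp_pos _) _).ne'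
  have D0 : ∀ j : J, 0 ≤ (∫ y, ‖j.1 y‖ ^ 2 ∂F.μ) * ∫ t, exp (-1 * lc t + 0) ^ 2 := fun _ =>
    mul_nonneg (integral_nonneg fun _ => sq_nonneg _) p.le
  have c : ∀ j : J, Continuous j.1 := fun j => (H.ct _ j.2).comp (Continuous.prodMk_left (0 : ℝ))
  obtain ⟨-, C, C0, hC⟩ := (H.lg _ (h.ex (σ := -1) (by simp) (fun _ => 0) _ D0) _ S.zero_mem
    (fun (j : J) x => j.1 x.1) (fun j => j.2) (o2_of (fun j => H.ct _ j.2) fun j => by
      simp only [Xw.cx, ww, mul_comm (exp _ ^ 2)]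
      exact ⟨(int_Y ((c j).norm.pow 2)).mul_prod int_lc,
        (ipm (fun y => ‖j.1 y‖ ^ 2) fun t => exp (-1 * lc t + 0) ^ 2).le⟩)).2.1
  refine ⟨C, C0, fun a ha r hr r0 k => ⟨int_Y hr, le_of_mul_le_mul_right ?_ p⟩⟩
  have := hC ⟨a, ha⟩
  simp only [Xw.cx, ww, zero_add, mul_comm (exp _ ^ 2)] at this
  rw [← ipm, mul_assoc]
  exact (this.mono ((int_Y hr).mul_prod int_lc).1 (fun x => mul_nonneg (r0 _) (sq_nonneg _))
    fun x => mul_le_mul_of_nonneg_right (k x) (sq_nonneg _)).2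

/-- the second order expansion on the cross-section -/
theorem taylorY (hS : ∀ u ∈ S, ∀ θ : Y × ℝ → ℝ, (cyl F).Cb θ → (fun x => θ x • u x) ∈ S) :
    ∃ C, 0 ≤ C ∧ ∀ a : Y → N, (fun x => a x.1) ∈ S → ∀ p q : Y → ℝ,
      (∀ x, f (fun x => a x.1) x - f 0 x = p x.1) → (∀ x, ⟪a x.1, g 0 x⟫_ℝ = q x.1) →
      |∫ y, p y ∂F.μ - ∫ y, q y ∂F.μ| ≤ C * ∫ y, ‖a y‖ ^ 2 ∂F.μ := by
  have h := xw_cyl hT
  obtain ⟨C, C0, hC⟩ := H.taylor h
  refine ⟨C, C0, fun a ha p q hp hq => ?_⟩
  have ca : Continuous a := (H.ct _ ha).comp (Continuous.prodMk_left (0 : ℝ))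
  have cp : Continuous p := (((H.cont h ha).1.sub (H.cont h S.zero_mem).1).comp
    (Continuous.prodMk_left (0 : ℝ))).congr fun y => hp (y, 0)
  obtain ⟨R, hR⟩ := isCompact_univ.exists_bound_of_continuousOn ca.continuousOn
  have cθ : ∀ n : ℝ, Continuous fun x : Y × ℝ => cz n x.2 := fun n =>
    (sm_cz n).cd.continuous.comp continuous_snd
  have m := fun n : ℝ => hS _ ha _ (cb_t (F := F) (sm_cz n))
  have cw := fun {σ} (hσ : |σ| ≤ 1) c => (h.wg hσ c).sm.continuous
  have l1 : ∀ n : ℝ, LB (cyl F).μ (fun x => ww (fun x => lc x.2) 1 (-n / 16) x * cz n x.2 ^ 2) _ :=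
    fun n => (lb_t (lb_kk n)).mono ((cw abs_one.le _).mul ((cθ n).pow 2)).aestronglyMeasurable
      (fun x => mul_nonneg (ww_pos _ _).le (sq_nonneg _)) fun x => cz_in n x.2
  obtain ⟨K, hK⟩ := H.cutoff h ha ⟨R, fun x => hR _ trivial⟩ cθ m l1 (fun n => (lb_t (lb_kk n)).mono
    ((cw (by simp) _).mul ((continuous_const.sub (cθ n)).pow 2)).aestronglyMeasurable
    (fun x => mul_nonneg (ww_pos _ _).le (sq_nonneg _)) fun x => cz_out n x.2) fun n => by
      simp only [hp, mul_comm (cz _ _)]; exact (int_Y cp).mul_prod (int_cz n)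
  have z0 : 0 ≤ ∫ y, ‖a y‖ ^ 2 ∂F.μ := integral_nonneg fun _ => sq_nonneg _
  have key : ∀ n : ℝ, |∫ y, p y ∂F.μ - ∫ y, q y ∂F.μ| * ∫ t, cz n t ≤
      K + C * (∫ y, ‖a y‖ ^ 2 ∂F.μ) * ∫ t, cz n t := fun n => by
    have i : Fw (cyl F) (fun x => lc x.2) fun x => cz n x.2 • a x.1 := by
      have := (((l1 n).bdd (fun x => mul_nonneg (ww_pos _ _).le (sq_nonneg _))
        ((H.ct _ ha).norm.fun_pow 2) (fun _ => sq_nonneg _) (sq_nonneg R) fun x =>
        pow_le_pow_left₀ (norm_nonneg _) (hR _ trivial) 2).1).const_mul (exp (n / 16) ^ 2)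
      refine this.congr (.of_forall fun x => ?_)
      simp only [ww, norm_smul, mul_pow, Real.norm_eq_abs, sq_abs, ← mul_assoc]
      rw [← mul_pow, ← exp_add]; congr 4; ring
    have a1 := hC _ (m n) i
    have a2 := hK n
    simp only [real_inner_smul_left, hq, mul_comm (cz _ _)] at a1
    simp only [hp, mul_comm (cz _ _)] at a2
    have a3 : ∫ x, ‖cz n x.2 • a x.1‖ ^ 2 ∂(cyl F).μ ≤ (∫ y, ‖a y‖ ^ 2 ∂F.μ) * ∫ t, cz n t := by
      rw [← ipm]
      refine integral_mono_of_nonneg (.of_forall fun _ => sq_nonneg _)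
        ((int_Y (ca.norm.pow 2)).mul_prod (int_cz n)) (.of_forall fun x => ?_)
      simp only [norm_smul, mul_pow, Real.norm_eq_abs, sq_abs]
      nlinarith [mul_nonneg (mul_nonneg (cz_mem n x.2).1 (sub_nonneg.2 (cz_mem n x.2).2))
        (sq_nonneg ‖a x.1‖)]
    rw [ipm] at a1 a2
    rw [← abs_of_nonneg (integral_nonneg fun t => (cz_mem n t).1 : 0 ≤ ∫ t, cz n t), ← abs_mul,
      abs_of_nonneg (integral_nonneg fun t => (cz_mem n t).1 : 0 ≤ ∫ t, cz n t), abs_le]
    rw [abs_le] at a1 a2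
    constructor <;> nlinarith [mul_le_mul_of_nonneg_left a3 C0]
  refine le_of_forall_pos_le_add fun ε hε => le_of_not_gt fun hlt => ?_
  have k1 := key (|K| / ε + 1)
  have k2 := mul_le_mul_of_nonneg_left (le_int_cz (show 0 ≤ |K| / ε + 1 by positivity)) hε.le
  rw [mul_add, mul_div_cancel₀ _ hε.ne'] at k2
  nlinarith [le_abs_self K, abs_nonneg K]

end Var

end Crest.Agent.X212.Cyc79
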