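import Crest.Agent.X212.Cyc79.Dl
import Crest.Agent.X212.Cyc79.Vz
import Crest.Agent.X212.Cyl58.SmC
import Crest.Agent.X212.Eqv71.Cyl
import Crest.Agent.X212.Nka63.A
import Crest.Agent.X212.Spn45.Eqs

/-!
# Row 212, CYC-LIP (helper79): the Lipschitz bound for the cyclic invariants on the cross-section
-/

set_option autoImplicit false
set_option linter.unusedSectionVars false
noncomputable section
open scoped Manifold ContDiff Topology InnerProductSpace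
open MeasureTheory Set Function Filter

namespace Crest.Agent.X212.Cyc79
open An Sob92 Wz78 Dgr80

section gen
variable {E : Type} [NormedAddCommGroup E] [NormedSpace ℝ E] [FiniteDimensional ℝ E]
  [MeasurableSpace E] [BorelSpace E]
  {HM : Type} [TopologicalSpace HM] {I : ModelWithCorners ℝ E HM} [I.Boundaryless]
  {M : Type} [TopologicalSpace M] [ChartedSpace HM M] [IsManifold I ∞ M]
  [MeasurableSpace M] [T2Space M] [BorelSpace M] [SecondCountableTopology M]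
  {ι : Type} [Fintype ι] {lam : Type} [Fintype lam] {m : ℕ} {B : Base M ι lam} {G : Geo I M ι lam}
  {c : Cfg M ι lam m} {d d' : Cy M} {w w' : List (La M)} {χ : M → ℝ}

variable (G χ d w d' w') in
/-- cyclic densities -/
abbrev dc : Den M ι lam m :=
  Nd18.dcut χ (Den.sed ((d.sed G.F).wd G.F w) ((d'.sed G.F).wd G.F w'))

theorem addC_add (u v : M → Fm ι c.m.A) : c.m.addC (c.m.addC c.W u) v = c.m.addC c.W (u + v) :=
  funext₂ fun a x => by simp [Md.addC, add_assoc]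

theorem addC_zero : c.m.addC c.W 0 = c.W := funext₂ fun a x => by simp [Md.addC]

variable (c) in
/-- a density as a function of the connection -/
def fW (e : Den M ι lam m) (W : c.m.Cn) : RD M ι c.m.A c.m.V := e.rd ⟨c.m, W, c.Φ, c.z⟩

theorem fW_cut (e : Den M ι lam m) (W : c.m.Cn) :
    fW c (Nd18.dcut χ e) W = (e.rd ⟨c.m, W, c.Φ, c.z⟩).cut χ := rfl

theorem var_of {P : Type} [NormedAddCommGroup P] [InnerProductSpace ℝ P]
    {R : c.m.Cn → RD M ι c.m.A P} (h : ∀ {J : Type} (X : Cx G.F J), (∃ ψ k, Ex X ψ k) →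
      ∀ u ∈ VA B G c, ∀ v : J → M → Fm ι c.m.A, (∀ j, v j ∈ VA B G c) → X.O2 v →
        RD.Lg X v (fun _ _ => 0) (R (c.m.addC c.W u)) fun j => R (c.m.addC (c.m.addC c.W u) (v j))) :
    Var G.F (VA B G c) (fun u => (R (c.m.addC c.W u)).h)
      fun u => (R (c.m.addC c.W u)).gA fun _ => 1 := by
  refine ⟨fun u hu => (cb_sm hu.1).continuous, fun X hX u hu v hv o => ?_⟩
  have L := h X hX u hu v hv o
  simp only [addC_add] at L
  exact ⟨L.h, L.A _ _ (pf_const (Cb_const 1)), L.wA _ (Cb_const 1),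
    fun b => (L.o1 b _ (Cb_const 1)).congr fun j => by simp, L.c0⟩

theorem var_dc (h : CO B G c) (hd : d.OK G.F) (hd' : d'.OK G.F) (hw : ∀ t ∈ w, La.OK G.F t)
    (hw' : ∀ t ∈ w', La.OK G.F t) (hχ : G.F.Cb χ) :
    Var G.F (VA B G c) (fun u => (fW c (dc G d d' w w' χ) (c.m.addC c.W u)).h)
      fun u => (fW c (dc G d d' w w' χ) (c.m.addC c.W u)).gA fun _ => 1 := by
  refine var_of fun X hX u hu v hv o => ?_
  have k := h.sh hu c.Φ c.z
  have H : Lc (c := sh c u c.Φ c.z) B d X v (fun _ => c.Φ) fun _ => c.z :=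
    ⟨k, fun j => k.sh (hv j) c.Φ c.z, hd, fun j => cb_sm (hv j).1, o, hX⟩
  have L := lg_cut (H.den (φ := fun _ _ => 0) Cx.o2_zero hd' hw hw') hχ
  simp only [fW_cut]
  exact L

theorem rs_eq (c : Cfg M ι lam m) : (d.sed G.F).rs c = ⟨fun x => c.m.pg x (tp (amp _ ∘L adR _)
    (fa G.F (c.m.adW c.W) c.m.pg d.f d.f' d.w x) (fa G.F (c.m.adW c.W) c.m.pg d.f d.f' d.w' x)),
    fun l x => gg G.F (c.m.adW c.W) c.m.pg (fun x => adR _ (c.m.pg x (l x))) d.f d.f' d.w' d.w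
      (amp _ ∘L adR _) x - gg G.F (c.m.adW c.W) c.m.pg (fun x => adR _ (c.m.pg x (l x))) d.f d.f'
        d.w d.w' (amp _ ∘L adR _) x, fun _ => 0⟩ := rfl

theorem rs_Φ (W : c.m.Cn) (Φ : M → c.m.V) :
    (d.sed G.F).rs ⟨c.m, W, Φ, c.z⟩ = (d.sed G.F).rs ⟨c.m, W, c.Φ, c.z⟩ :=
  (rs_eq _).trans (rs_eq (⟨c.m, W, c.Φ, c.z⟩ : Cfg M ι lam m)).symm

theorem laS_Φ (W : c.m.Cn) (Φ : M → c.m.V) : laS ⟨c.m, W, Φ, c.z⟩ = laS c :=
  funext fun t => by cases t <;> rfl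

theorem dc_rd (W : c.m.Cn) (Φ : M → c.m.V) :
    (dc G d d' w w' χ).rd ⟨c.m, W, Φ, c.z⟩ = fW c (dc G d d' w w' χ) W := by
  have e : ∀ Φ, (dc G d d' w w' χ).rd ⟨c.m, W, Φ, c.z⟩ = (RS.pair (fun _ => 1)
      (((d.sed G.F).rs ⟨c.m, W, c.Φ, c.z⟩).wd G.F (c.m.adW W) (adR _) (w.map (laS c)))
      (((d'.sed G.F).rs ⟨c.m, W, c.Φ, c.z⟩).wd G.F (c.m.adW W) (adR _) (w'.map (laS c)))).cut χ :=
    fun Φ => congrArg (RD.cut χ) ((rd_sed _ _).trans (by rw [rs_wd, rs_wd, laS_Φ, rs_Φ, rs_Φ W Φ]))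
  exact (e Φ).trans (e c.Φ).symm

theorem dc_gP (f : M → ℝ) (x : M) : (dc G d d' w w' χ).gP c f x = 0 := add_zero _

end gen

open Cyf70 Nd18
open Crt72 hiding cf
open Lin97 (Hy)

variable {E3 : Type} [NormedAddCommGroup E3] [NormedSpace ℝ E3] [FiniteDimensional ℝ E3]
  [MeasurableSpace E3] [BorelSpace E3]
  {H3 : Type} [TopologicalSpace H3] {I3 : ModelWithCorners ℝ E3 H3} [I3.Boundaryless]
  {Y : Type} [TopologicalSpace Y] [ChartedSpace H3 Y] [IsManifold I3 ∞ Y] [T2Space Y]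
  [MeasurableSpace Y] [BorelSpace Y] [SecondCountableTopology Y] [CompactSpace Y]
  {κ : Type} [Fintype κ] {lam : Type} [Fintype lam] {D : YD I3 Y κ lam} {β : YC Y κ lam}

section lin
variable {A : Type} [NormedAddCommGroup A] [InnerProductSpace ℝ A]

theorem norm_up (α : Fm κ A) : ‖up κ A α‖ ^ 2 = ‖α‖ ^ 2 := by
  simp [PiLp.norm_sq_eq_of_L2, Fintype.sum_option]

theorem norm_dw (α : Fm (Option κ) A) : ‖dw κ A α‖ ^ 2 ≤ ‖α‖ ^ 2 := by
  simp [PiLp.norm_sq_eq_of_L2, Fintype.sum_option]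

theorem inner_up (α : Fm κ A) (γ : Fm (Option κ) A) : ⟪up κ A α, γ⟫_ℝ = ⟪dw κ A γ, α⟫_ℝ := by
  simp [PiLp.inner_apply, Fintype.sum_option, real_inner_comm]

end lin

theorem co_cy (h : Hy D β) : CO D.B D.G (cy β) :=
  ⟨h.hB, h.ok.G, h.hm, h.hC, Cht98.tame_cyl D.F h.dim.le, fun a => Cht98.Cb_fst _
    (Cb_of_compact (u := β.W a) (sm_slice_fst (h.hC.cc.sm a) 0)), Cht98.Cb_fst _ h.cb_pg⟩

/-- the densities of `t`-invariant configurations do not depend on the time -/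
theorem den_h (h : Hy D β) {e : YDen Y} (he : e.OK D.F) (x : Y × ℝ) :
    (D.nk.den e).h (cy β) x = (D.nk.den e).h (cy β) (x.1, 0) := by
  have z := Eqv71.okZ h.ok h.dim.le
  have := ((Eqv71.nkR_shift D x.2).den (z.kc_sh x.2) (z.cr_sh (Eqv71.ad0 h.adm) x.2) he).h
    (mem_univ (x.1, 0))
  simp only [comp_apply, zero_add] at this
  exact this

theorem lip_z (H : Hy D β) {e : ZD Y κ lam} {R : (cy β).m.Cn → RD (Y × ℝ) (Option κ) β.m.A β.m.V}
    (V : Var D.Z (VA D.B D.G (cy β)) (fun u => (R ((cy β).m.addC (cy β).W u)).h)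
      fun u => (R ((cy β).m.addC (cy β).W u)).gA fun _ => 1)
    (eh : ∀ W Φ, e.h ⟨(cy β).m, W, Φ, (cy β).z⟩ = (R W).h)
    (eA : ∀ W Φ, e.gA ⟨(cy β).m, W, Φ, (cy β).z⟩ = (R W).gA) (p0 : ∀ β x, (YF.z D e).gP β x = 0)
    (th : ∀ β, Hy D β → ∀ x, e.h (cy β) x = e.h (cy β) (x.1, 0))
    (tA : ∀ β, Hy D β → ∀ x, dw κ _ (e.gA (cy β) (fun _ => 1) x) = (YF.z D e).gA β x.1) :
    Cyl58.Lip D β (YF.z D e) := by
  have co := co_cy H
  obtain ⟨C1, c1, h1⟩ := V.lipY co.tame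
  obtain ⟨C2, c2, h2⟩ := V.taylorY co.tame fun _ hu _ hθ => VA.smul hu hθ
  have ct := fun {u} hu => V.cont (xw_cyl co.tame) (u := u) hu
  have c0 := ct (VA D.B D.G (cy β)).zero_mem
  simp only [addC_zero] at h1 h2 c0
  refine ⟨C1 + C2, by positivity, fun y _ => ?_⟩
  have m : (fun x : Y × ℝ => up κ _ (y.1.1 x.1)) ∈ VA D.B D.G (cy β) :=
    ⟨Cht98.Cb_fst _ (Cb_clm (up κ _) (Cb_of_compact y.1.2.1)),
      fun x => Spn45.p1_up (y.1.2.2.2 x.1) x.2⟩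
  have s : ∫ x, ‖up κ _ (y.1.1 x)‖ ^ 2 ∂D.F.μ ≤ Cyl58.sz y := by
    simp only [norm_up]
    exact integral_mono (int_Y (y.1.2.1.continuous.norm.pow 2)) (int_Y
      ((y.1.2.1.continuous.norm.pow 2).add (y.2.2.1.continuous.norm.pow 2))) fun x =>
        le_add_of_nonneg_right (sq_nonneg _)
  have s0 : 0 ≤ Cyl58.sz y := (integral_nonneg fun _ => sq_nonneg _).trans s
  have g0 : ∀ x, dw κ _ ((R (cy β).W).gA (fun _ => 1) x) = (YF.z D e).gA β x.1 := fun x =>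
    eA (cy β).W (cy β).Φ ▸ tA β H x
  have g1 : ∀ x, dw κ _ ((R ((cy β).m.addC (cy β).W fun x => up κ _ (y.1.1 x.1))).gA
      (fun _ => 1) x) = (YF.z D e).gA (Crt72.cf y) x.1 := fun x => eA _ (cy (Crt72.cf y)).Φ ▸ tA _ (H.cf y) x
  have f0 : (R (cy β).W).h = e.h (cy β) := (eh _ _).symm
  have f1 : (R ((cy β).m.addC (cy β).W fun x => up κ _ (y.1.1 x.1))).h = e.h (cy (Crt72.cf y)) :=
    (eh _ (cy (Crt72.cf y)).Φ).symm
  have sl := Continuous.prodMk_left (X := Y) (0 : ℝ)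
  have s1 := mul_le_mul_of_nonneg_left s c1
  have s2 := mul_le_mul_of_nonneg_left s c2
  refine ⟨(h1 (fun x => up κ _ (y.1.1 x)) m _ ?_ (fun _ => sq_nonneg _) fun x => ?_).le
    (s1.trans (by nlinarith)), ?_, ?_⟩
  · exact ((((dw κ _).continuous.comp ((ct m).2.sub c0.2)).comp sl).congr fun x =>
      (map_sub _ _ _).trans (congrArg₂ (· - ·) (g1 (x, 0)) (g0 (x, 0)))).norm.pow 2
  · rw [← g1 x, ← g0 x, ← map_sub]; exact norm_dw _
  · have : ∀ x, (show β.m.V from (YF.z D e).gP (Crt72.cf y) x) - (YF.z D e).gP β x = 0 :=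
      fun x => sub_eq_zero.2 ((p0 (Crt72.cf y) x).trans (p0 β x).symm)
    simp only [this]
    exact ⟨by simp, by simpa using mul_nonneg (add_nonneg c1 c2) s0⟩
  · have := h2 (fun x => up κ _ (y.1.1 x)) m (fun x => e.h (cy (Crt72.cf y)) (x, 0) - e.h (cy β) (x, 0))
      (fun x => ⟪(YF.z D e).gA β x, y.1.1 x⟫_ℝ) (fun x => by rw [f0, f1, th _ H, th _ (H.cf y)])
      fun x => (inner_up _ _).trans (congrArg (⟪·, y.1.1 x.1⟫_ℝ) (g0 x))
    rw [integral_sub (f := fun x => e.h (cy (Crt72.cf y)) (x, 0)) (g := fun x => e.h (cy β) (x, 0))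
      (int_Y ((f1 ▸ (ct m).1 :).comp sl)) (int_Y ((f0 ▸ c0.1 :).comp sl))] at this
    simp only [ipg, p0, inner_zero_left, add_zero]
    exact this.trans (s2.trans (by nlinarith))

/-- **CYC-LIP** -/
theorem lip_cy (h : HY D) {j : Bc D} (hL : Lift D (.cy j)) (hβ : D.Adm β) :
    Cyl58.Lip D β (yf D (.cy j)) :=
  lip_z ⟨h, hβ⟩ (var_dc (co_cy ⟨h, hβ⟩) (Nka63.ok_cyc D.nk j.2.1) (Nka63.ok_cyc D.nk j.2.2.2.1)
    (D.nk.ok_las j.2.2.1) (D.nk.ok_las j.2.2.2.2) D.nk.cb_χ)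
    (fun W Φ => congrArg RD.h (dc_rd W Φ)) (fun W Φ => congrArg RD.gA (dc_rd W Φ))
    (fun _ _ => dc_gP _ _)
    (fun _ H => den_h H j.2) fun β H x => (((hL β H.toAdm).2 1 x).1).trans (one_smul _ _)

end Crest.Agent.X212.Cyc79
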