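import Crest.Agent.X212.Cyc79.Ub

/-!
# Row 212, CYC (helper79): the translation estimate for the cyclic seeds
-/

set_option autoImplicit false
set_option linter.unusedSectionVars false
noncomputable section
open scoped Manifold ContDiff Topology InnerProductSpace
open MeasureTheory Set Function Filter

namespace Crest.Agent.X212.Cyc79
open An Sob92 Wz78 Dgr80
open Mp86 (Mc Bumps L4 Dom LaSz LLSz)
open Wrd81 (wd)
open ContinuousLinearMap (adjoint)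

variable {E : Type} [NormedAddCommGroup E] [NormedSpace ℝ E] [FiniteDimensional ℝ E]
  [MeasurableSpace E] [BorelSpace E]
  {HM : Type} [TopologicalSpace HM] {I : ModelWithCorners ℝ E HM} [I.Boundaryless]
  {M : Type} [TopologicalSpace M] [ChartedSpace HM M] [IsManifold I ∞ M]
  [MeasurableSpace M] [T2Space M] [BorelSpace M] [SecondCountableTopology M]
  {ι : Type} [Fintype ι] {κ : Type} [Fintype κ] [DecidableEq κ]
  {K K' : Type} [NormedAddCommGroup K] [InnerProductSpace ℝ K] [CompleteSpace K]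
  [NormedAddCommGroup K'] [InnerProductSpace ℝ K'] [CompleteSpace K']
  {U : Type} [NormedAddCommGroup U] [InnerProductSpace ℝ U] [CompleteSpace U]

section defs
variable (F : Fr I M ι) (A : ι → M → En κ) (p L : M → En κ) (f f' : M → ℝ) (w w' : List (La M))

/-- words on the Hilbert fibre -/
abbrev wg (s : M → Fm κ K) (w : List (La M)) : M → Fm κ K := wd (sl F (aA K A)) s (w.map (laV _))

/-- transposed words -/
abbrev bg (w : List (La M)) (l : M → Fm κ K) : M → Fm κ K := bk F (aA K A) (w.map (laV _)) l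

/-- the letter `L` -/
abbrev LL (u : M → Fm κ K) : M → Fm κ K := fun x => amp K (L x) (u x)

/-- the field of `w x x*` -/
abbrev fa : M → VV F.toPre κ := wg F A (bs F A p f' f) (w ++ xw f f')

/-- the field of `x* w* L w' x` -/
abbrev m2 : M → VV F.toPre κ := bg F A (w ++ xw f f') (LL L (wg F A (bs F A p f f') w'))

/-- its operator -/
def tO : KK F.toPre κ →L[ℝ] KK F.toPre κ :=
  adjoint (xO F A p f f') ∘L adjoint (wO F A w) ∘L mO F.toPre L ∘L wO F A w' ∘L xO F A p f f'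

/-- one half of the gradient -/
def gg (r : CL U (CL (VV F.toPre κ) (VV F.toPre κ))) (x : M) : Fm ι U :=
  gc F (aA _ A) r (bs F A p f' f) ((w ++ xw f f').map (laV _)) (LL L (fa F A p f f' w')) x +
    gc F (aA _ A) r (bs F A p f f') ((xw f' f).map (laV _)) (m2 F A p L f f' w w') x

/-- the data of a cyclic pairing -/
structure Hs : Prop extends Pp F A p where
  sep : Sep F.toPre f f'
  ow : ∀ t ∈ w, La.OK F t
  ow' : ∀ t ∈ w', La.OK F t
  cL : F.Cb L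
  Lp : ∀ z, p z * (L z * p z) = L z * p z
  skL : ∀ z, Skew (L z)

end defs

variable {F : Fr I M ι} {A : ι → M → En κ} {p L : M → En κ} {f f' : M → ℝ} {w w' : List (La M)}
  {α : M → Fm κ K} {S : K →L[ℝ] KK F.toPre κ}

theorem ok_app (hw : ∀ t ∈ w, La.OK F t) (hw' : ∀ t ∈ w', La.OK F t) :
    ∀ t ∈ w ++ w', La.OK F t := fun t ht => (List.mem_append.1 ht).elim (hw t) (hw' t)

theorem ok_rev (hw : ∀ t ∈ w, La.OK F t) : ∀ t ∈ w.reverse, La.OK F t :=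
  fun t ht => hw t (List.mem_reverse.1 ht)

theorem wg_append (s : M → Fm κ K) : wg F A s (w ++ w') = wg F A (wg F A s w') w := by
  rw [wg, List.map_append, Wrd81.wd_append]

theorem bg_eq (l : M → Fm κ K) : bg F A w l = wg F A l w.reverse := bk_laV w l

theorem Pp.mO_fi (h : Pp F A p) (k : FI F S α) (e : ∀ z, amp K (p z) (α z) = α z) :
    mO F.toPre p ∘L S = S := (k.op h.cp).op_eq (by simpa only [e] using k)

/-- on the class the word `f G f'` is the operator `x` -/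
theorem Pp.fi_x (h : Pp F A p) (hs : Sep F.toPre f f') (k : FI F S α)
    (e : ∀ z, amp K (p z) (α z) = α z) : FI F (xO F A p f f' ∘L S) (wg F A α (xw f f')) := by
  rw [xO, ContinuousLinearMap.comp_assoc, h.mO_fi k e]; exact k.wd h.toOk hs.ok

theorem QI.wg_fb (h : QI F p α) (hA : Ok F A) (hw : ∀ t ∈ w, La.OK F t) (R : K →L[ℝ] K') :
    wg F A (fun z => Cyc79.fb R (α z)) w = fun z => Cyc79.fb R (wg F A α w z) :=
  h.1.choose_spec.wd_fb hA hw R

namespace Hs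
variable (h : Hs F A p L f f' w w')
include h

theorem swap : Hs F A p L f f' w' w := ⟨h.toPp, h.sep, h.ow', h.ow, h.cL, h.Lp, h.skL⟩

theorem qa : QI F p (bs F A p f' f) := h.qi_bs h.sep.symm
theorem qb : QI F p (bs F A p f f') := h.qi_bs h.sep
theorem W : ∀ t ∈ w ++ xw f f', La.OK F t := ok_app h.ow h.sep.ok
theorem qfa : QI F p (fa F A p f f' w) := h.cls.wd h.qa (ok_map h.W)
theorem qL (k : QI F p α) : QI F p (LL L α) := k.op h.cL h.Lp
theorem ql : QI F p (LL L (wg F A (bs F A p f f') w')) := h.qL (h.cls.wd h.qb (ok_map h.ow'))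
theorem qm : QI F p (m2 F A p L f f' w w') := h.cls.bk (ok_map h.W) h.ql

/-- cyclicity -/
theorem fb_m (z : M) : fb (xO F A p f f') (m2 F A p L f f' w w' z) =
    bg F A (w ++ xw f f') (LL L (fa F A p f f' w')) z := by
  have e : (fun z => fb (xO F A p f f') (LL L (wg F A (bs F A p f f') w') z)) =
      LL L (fa F A p f f' w') := funext fun z => by
    rw [fb_amp, fa, wg_append, show wg F A _ (xw f f') = _ from h.wd_bs h.sep.symm]
    exact congrArg _ (congrFun (h.qb.wg_fb h.toOk h.ow' _) z).symm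
  rw [m2, bg_eq, bg_eq, ← e, h.ql.wg_fb h.toOk (ok_rev h.W)]

theorem fi_m : FI F (tO F A p L f f' w w') (m2 F A p L f f' w w') := by
  have k := (((h.fi h.sep).wd h.toOk h.ow').op h.cL).wd h.toOk (ok_rev h.ow)
  have := h.fi_x h.sep.symm k (h.cls.wd h.ql (ok_map (ok_rev h.ow))).2
  rw [m2, bg_eq, List.reverse_append, wg_append, tO, h.adj_xO h.sep, adj_wO h.toOk h.ow]
  exact this

theorem adj_tO : adjoint (tO F A p L f f' w w') = -tO F A p L f f' w' w := by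
  have e : adjoint (mO F.toPre L) = -mO F.toPre L := by
    rw [← neg_one_smul ℝ (mO F.toPre L), ← mulH_smul _ h.cL (Maps.triv _)]
    exact ((ContinuousLinearMap.eq_adjoint_iff _ _).2 (mO_adj (Cb_smul (Cb_const _) h.cL) h.cL
      fun z v w => by simp [inner_neg_left, h.skL z v w])).symm
  simp only [tO, ContinuousLinearMap.adjoint_comp, ContinuousLinearMap.adjoint_adjoint, e,
    ContinuousLinearMap.comp_neg, ContinuousLinearMap.neg_comp, ContinuousLinearMap.comp_assoc]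

theorem bg_m : bg F A (xw f' f) (m2 F A p L f f' w w') =
    fun z => fb (adjoint (tO F A p L f f' w w')) (bs F A p f f' z) := by
  rw [bg_eq]
  exact (h.fi_x h.sep h.fi_m h.qm.2).unique ((h.fi h.sep).right _)

theorem mcA : Mc I (aA K A) := (h.toOk.amp _).mc

theorem sm_gg {r : CL U (CL (VV F.toPre κ) (VV F.toPre κ))} : Sm I (gg F A p L f f' w w' r) :=
  (h.cls.sm_gc h.mcA.sm (ok_map h.W) (h.qL h.swap.qfa)).add
    (h.cls.sm_gc h.mcA.sm (ok_map h.sep.symm.ok) h.qm)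

theorem cyc (a : ι) (x : M) :
    ⟪nab I F.e (aA _ A) a (wg F A (bs F A p f f') (xw f' f)) x, m2 F A p L f f' w w' x⟫_ℝ =
      ⟪nab I F.e (aA _ A) a (bs F A p f' f) x,
        bg F A (w ++ xw f f') (LL L (fa F A p f f' w')) x⟫_ℝ := by
  rw [wg, h.wd_bs h.sep, fb_nab (cb_sm h.qa.cb), inner_fb, h.adj_xO h.sep.symm, h.fb_m]

/-- the remainder is a derivative -/
theorem rem (a : ι) (x : M) : F.D a (fun y => ⟪bs F A p f f' y,
    bg F A (xw f' f) (m2 F A p L f f' w w') y⟫_ℝ) x =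
    ⟪nab I F.e (aA _ A) a (bs F A p f f') x, bg F A (xw f' f) (m2 F A p L f f' w w') x⟫_ℝ -
    ⟪nab I F.e (aA _ A) a (bs F A p f f') x, bg F A (xw f' f) (m2 F A p L f f' w' w) x⟫_ℝ := by
  have s := cb_sm h.qb.cb
  have s' : Sm I fun z => fb (adjoint (tO F A p L f f' w w')) (bs F A p f f' z) :=
    (fb _).contMDiff.comp s
  have e : ∀ (T : KK F.toPre κ →L[ℝ] KK F.toPre κ) (v w : VV F.toPre κ),
      ⟪v, fb (adjoint T) w⟫_ℝ = -⟪w, fb (-T) v⟫_ℝ := fun T v w => by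
    rw [← inner_fb, real_inner_comm, ← inner_neg_right]; congr 1; ext i; simp
  rw [h.bg_m, h.swap.bg_m, Pre.D_def, dv_inner a (h.mcA.sk a x) (s x) (s' x), fb_nab s,
    h.swap.adj_tO, e _ (bs F A p f f' x), sub_eq_add_neg]

end Hs

variable {a₀ : ι} {O : Set M} {θ ζ : M → ℝ} {r : CL U (CL (VV F.toPre κ) (VV F.toPre κ))}
  {β : M → Fm ι U} {k ρ : ℝ} {n : ℕ}

variable (F a₀ O) in
/-- letters which do not depend on time -/
def Pr : La M → Prop
  | .mul f => ∀ x ∈ O, F.D a₀ f x = 0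
  | .G => True

theorem par_map {V : Type} [NormedAddCommGroup V] [InnerProductSpace ℝ V] [CompleteSpace V]
    {A : ι → M → CL V V} (hw : ∀ t ∈ w, La.OK F t) (hp : ∀ t ∈ w, Pr F a₀ O t) :
    ∀ t ∈ w.map (laV V), t.Par F A a₀ O := fun t ht => by
  obtain ⟨t, h1, rfl⟩ := List.mem_map.1 ht
  cases t with
  | mul f =>
    have s : Sm I f := cb_sm (hw _ h1)
    refine ⟨s.smul contMDiff_const, fun x hx => ?_⟩
    have e : F.D a₀ f x = 0 := hp _ h1 x hx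
    rw [nabE, Mp86.dv_smul (md1 s x) (md1 contMDiff_const x), ← Pre.D_def, e]
    simp [Sob92.dv_const]
  | G => trivial

theorem pr_xw (h : Pr F a₀ O (.mul f)) (h' : Pr F a₀ O (.mul f')) : ∀ t ∈ xw f f', Pr F a₀ O t :=
  fun t ht => by
    simp only [xw, List.mem_cons, List.not_mem_nil, or_false] at ht
    rcases ht with rfl | rfl | rfl
    exacts [h, trivial, h']

/-- the setting of the translation estimate -/
structure Ht (F : Fr I M ι) (A : ι → M → En κ) (p L : M → En κ) (f f' : M → ℝ)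
    (w w' : List (La M)) (r : CL U (CL (VV F.toPre κ) (VV F.toPre κ))) (a₀ : ι) (O : Set M)
    (β : M → Fm ι U) (k ρ : ℝ) (n : ℕ) : Prop extends Hs F A p L f f' w w' where
  dv : ∀ x ∈ O, F.dv a₀ x = 0
  c : ∀ x ∈ O, ∀ a l, F.c a₀ a l x = 0
  sβ : Sm I β
  cv : ∀ u, QI F p u → ∀ x ∈ O, ∀ a, curv I F.e F.c (aA _ A) a₀ a x (u x) = r (β x a) (u x)
  pf : Pr F a₀ O (.mul f)
  pf' : Pr F a₀ O (.mul f')
  pw : ∀ t ∈ w, Pr F a₀ O t
  pw' : ∀ t ∈ w', Pr F a₀ O t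
  one : 1 ≤ k
  ρ0 : 0 ≤ ρ
  na : ∀ x, ‖bs F A p f' f x‖ ≤ k
  nb : ∀ x, ‖bs F A p f f' x‖ ≤ k
  nL : ∀ x, ‖L x‖ ≤ ρ
  l1 : WL k n (w.map (laV (VV F.toPre κ)))
  l2 : WL k n (w'.map (laV (VV F.toPre κ)))
  l3 : WL k n ((w ++ xw f f').map (laV (VV F.toPre κ)))
  l4 : WL k n ((w' ++ xw f f').map (laV (VV F.toPre κ)))
  l5 : WL k n ((xw f' f).map (laV (VV F.toPre κ)))

theorem norm_LL {T : ℝ} (hL : ∀ x, ‖L x‖ ≤ ρ) (hα : ∀ x, ‖α x‖ ≤ T) (x : M) :
    ‖LL L α x‖ ≤ ρ * T :=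
  (norm_amp _ _).trans (mul_le_mul (hL x) (hα x) (norm_nonneg _) ((norm_nonneg _).trans (hL x)))

namespace Ht
variable (h : Ht F A p L f f' w w' r a₀ O β k ρ n)
include h

theorem swap : Ht F A p L f f' w' w r a₀ O β k ρ n :=
  ⟨h.toHs.swap, h.dv, h.c, h.sβ, h.cv, h.pf, h.pf', h.pw', h.pw, h.one, h.ρ0, h.na, h.nb, h.nL, h.l2,
    h.l1, h.l4, h.l3, h.l5⟩

theorem n_m (x : M) : ‖m2 F A p L f f' w w' x‖ ≤ k ^ n * (ρ * (k ^ n * k)) :=
  h.l3.bk h.bmp h.mcA h.one (norm_LL h.nL (h.l2.wd h.bmp h.mcA h.one h.nb)) x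

theorem er {w : List (La M)} (hθ : Tf F a₀ O θ ζ) (hw : ∀ t ∈ w, La.OK F t)
    (hl : WL k n (w.map (laV (VV F.toPre κ)))) {s l : M → VV F.toPre κ} (qs : QI F p s)
    (ql : QI F p l) (ns : ∀ x, ‖s x‖ ≤ k) (nl : ∀ x, ‖l x‖ ≤ k ^ n * (ρ * (k ^ n * k))) :
    |∫ x, er F (aA _ A) a₀ θ s (w.map (laV _)) l x ∂F.μ| ≤
      70 * n * k ^ (2 * n) * (((k ^ n * (ρ * (k ^ n * k))) ^ 2 + k ^ 2) * nz F ζ) := by
  refine (er_le h.bmp h.mcA h.cls h.one hθ qs ns (ok_map hw) hl.2 ql nl).trans ?_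
  have := h.one
  have := nz_nonneg (F := F) (ζ := ζ)
  gcongr
  exacts [hl.1, hl.1]

theorem half (hθ : Tf F a₀ O θ ζ) : |∫ x, θ x * ⟪β x, gg F A p L f f' w w' r x⟫_ℝ ∂F.μ -
    ∫ x, θ x * ⟪nab I F.e (aA _ A) a₀ (fa F A p f f' w) x, LL L (fa F A p f f' w') x⟫_ℝ ∂F.μ +
    ∫ x, θ x * ⟪nab I F.e (aA _ A) a₀ (bs F A p f f') x,
      bg F A (xw f' f) (m2 F A p L f f' w w') x⟫_ℝ ∂F.μ| ≤
      140 * n * k ^ (2 * n) * (((k ^ n * (ρ * (k ^ n * k))) ^ 2 + k ^ 2) * nz F ζ) := by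
  have q1 := h.qL h.toHs.swap.qfa
  have e1 := tr_wd (r := r) h.cls h.mcA h.dv h.c hθ.ts hθ.d0 h.sβ h.cv h.qa (ok_map h.W)
    (par_map h.W fun t ht => (List.mem_append.1 ht).elim (h.pw t) (pr_xw h.pf h.pf' t)) q1
  have e2 := tr_wd (r := r) h.cls h.mcA h.dv h.c hθ.ts hθ.d0 h.sβ h.cv h.qb (ok_map h.sep.symm.ok)
    (par_map h.sep.symm.ok (pr_xw h.pf' h.pf)) h.qm
  have e3 := h.er hθ h.W h.l3 h.qa q1 h.na fun x =>
    (norm_LL h.nL (h.l4.wd h.bmp h.mcA h.one h.na) x).trans (le_mul_of_one_le_left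
      ((norm_nonneg _).trans (norm_LL h.nL (h.l4.wd h.bmp h.mcA h.one h.na) x)) (one_le_pow₀ h.one))
  have e4 := h.er hθ h.sep.symm.ok h.l5 h.qb h.qm h.nb h.n_m
  simp only [h.cyc] at e2
  simp only [gg, inner_add_right, mul_add (θ _)]
  rw [integral_add ((hθ.ts.mul (sm_inner h.sβ (h.cls.sm_gc h.mcA.sm (ok_map h.W) q1))).int F)
    ((hθ.ts.mul (sm_inner h.sβ (h.cls.sm_gc h.mcA.sm (ok_map h.sep.symm.ok) h.qm))).int F)]
  rw [abs_le] at e3 e4 ⊢
  constructor <;> linarith [e3.1, e3.2, e4.1, e4.2]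

theorem rem_le (hθ : Tf F a₀ O θ ζ) : |∫ x, θ x * ⟪nab I F.e (aA _ A) a₀ (bs F A p f f') x,
      bg F A (xw f' f) (m2 F A p L f f' w w') x⟫_ℝ ∂F.μ -
    ∫ x, θ x * ⟪nab I F.e (aA _ A) a₀ (bs F A p f f') x,
      bg F A (xw f' f) (m2 F A p L f f' w' w) x⟫_ℝ ∂F.μ| ≤
      k * (k ^ n * (k ^ n * (ρ * (k ^ n * k)))) * nz F ζ := by
  have sb := cb_sm h.qb.cb
  have sn := fun {w w'} (h : Hs F A p L f f' w w') =>
    cb_sm (h.cls.bk (ok_map h.sep.symm.ok) h.qm).cb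
  have sh := sm_inner sb (sn h.toHs)
  have i := fun {w w'} (k : Hs F A p L f f' w w') =>
    (hθ.ts.mul (sm_inner (sm_nab (F := F) h.mcA.sm a₀ sb) (sn k))).int F
  have e := ibp0_fun (a₀ := a₀) h.dv (hθ.ts.mul sh)
  simp only [Pre.D_def, fun x => Mp86.dv_mul (v := F.e a₀) (md1 hθ.ts.sm x) (md1 sh x)] at e
  simp only [← Pre.D_def] at e
  rw [integral_add (((hθ.ts.D a₀).mul sh).int F) ((hθ.ts.mul (F.sm_D sh a₀)).int F)] at e
  rw [← integral_sub (i h.toHs) (i h.toHs.swap)]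
  simp only [← mul_sub, ← h.rem]
  rw [eq_neg_of_add_eq_zero_right e, abs_neg]
  have b := fun x => (abs_real_inner_le_norm _ _).trans (mul_le_mul (h.nb x)
    (h.l5.bk h.bmp h.mcA h.one h.n_m x) (norm_nonneg _) (zero_le_one.trans h.one))
  have l := (lb_sq (F := F) hθ.tz).mul (c := k * (k ^ n * (k ^ n * (ρ * (k ^ n * k)))))
    (by have := h.one; have := h.ρ0; positivity)
  refine (abs_integral_le_integral_abs.trans (integral_mono_of_nonneg
    (.of_forall fun x => abs_nonneg _) l.1 (.of_forall fun x => ?_))).trans l.2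
  beta_reduce
  rw [abs_mul, mul_comm]
  exact mul_le_mul (b x) (hθ.d1 x) (abs_nonneg _) ((abs_nonneg _).trans (b x))

/-- the translation estimate on the Hilbert fibre -/
theorem tr (hθ : Tf F a₀ O θ ζ) :
    |∫ x, θ x * ⟪β x, gg F A p L f f' w' w r x - gg F A p L f f' w w' r x⟫_ℝ ∂F.μ -
      ∫ x, θ x * (⟪nab I F.e (aA _ A) a₀ (fa F A p f f' w') x, LL L (fa F A p f f' w) x⟫_ℝ -
        ⟪nab I F.e (aA _ A) a₀ (fa F A p f f' w) x, LL L (fa F A p f f' w') x⟫_ℝ) ∂F.μ| ≤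
      (280 * n * k ^ (2 * n) * ((k ^ n * (ρ * (k ^ n * k))) ^ 2 + k ^ 2) +
        k * (k ^ n * (k ^ n * (ρ * (k ^ n * k))))) * nz F ζ := by
  have i := fun {w w'} (k : Hs F A p L f f' w w') =>
    (hθ.ts.mul (sm_inner h.sβ (k.sm_gg (r := r)))).int F
  have i' := fun {w w'} (k : Hs F A p L f f' w w') => (hθ.ts.mul (sm_inner
    (sm_nab (F := F) h.mcA.sm a₀ (cb_sm k.qfa.cb)) (cb_sm (k.qL k.swap.qfa).cb))).int F
  simp only [inner_sub_right, mul_sub (θ _)]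
  rw [integral_sub (i h.toHs.swap) (i h.toHs), integral_sub (i' h.toHs.swap) (i' h.toHs)]
  have e1 := h.half hθ
  have e2 := h.swap.half hθ
  have e3 := h.rem_le hθ
  rw [abs_le] at e1 e2 e3 ⊢
  constructor <;> linarith [e1.1, e1.2, e2.1, e2.2, e3.1, e3.2]

end Ht

/-! ### configurations -/

variable {lam : Type} [Fintype lam] {m : ℕ} {B : Base M ι lam} {G : Geo I M ι lam}
  {c : Cfg M ι lam m} {d : Cy M} {S R : ℝ} {l : M → c.m.A}

theorem CO.hs (h : CO B G c) (hs : Sep G.F.toPre f f') (hw : ∀ t ∈ w, La.OK G.F t)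
    (hw' : ∀ t ∈ w', La.OK G.F t) (hl : G.F.Cb l) :
    Hs G.F (c.m.adW c.W) c.m.pg (fun x => adR _ (c.m.pg x (l x))) f f' w w' :=
  ⟨h.pp, hs, hw, hw', h.cb_ad hl, fun z => pg_adR z _, fun z => adR_skw (pg_mem z _)⟩

theorem gh_eq (F : Fr I M ι) (c : Cfg M ι lam m) (l : M → c.m.A) :
    gh F c f f' w w' (adl F c l) =
      gg F (c.m.adW c.W) c.m.pg (fun x => adR _ (c.m.pg x (l x))) f f' w w' (rr F c) := rfl

theorem Cy.sm_sA (h : CO B G c) (hd : d.OK G.F) (hl : G.F.Cb l) : Sm I ((d.sed G.F).sA c l) :=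
  (h.hs hd.sep hd.w' hd.w hl).sm_gg.sub (h.hs hd.sep hd.w hd.w' hl).sm_gg

/-- the adjoint action is parallel -/
theorem nabE_rr (F : Fr I M ι) {ξ : M → c.m.A} (hξ : Sm I ξ) (a : ι) (x : M) :
    nabE I F.e (AA F c) a (fun y => rr F c (ξ y)) x = rr F c (nab I F.e (c.m.adW c.W) a ξ x) := by
  rw [nabE, nab, map_add, ← Pre.D_def, D_clm F.toPre _ hξ]
  congr 1
  rw [AA_eq, aA, rr_apply, rr_apply, ← amp_mul, ← amp_mul, ← map_sub, adR_apply, adR_apply,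
    Md.adW, opL_adc, adc_lie]

theorem Cy.nab_s (h : CO B G c) (hd : d.OK G.F) (hl : Sm I l) (a : ι) (x : M) :
    ⟪nab I G.F.e (c.m.adW c.W) a ((d.sed G.F).s c) x, l x⟫_ℝ =
      ⟪nab I G.F.e (AA G.F c) a (d.be G.F c) x, adl G.F c l (d.al G.F c) x⟫_ℝ -
      ⟪nab I G.F.e (AA G.F c) a (d.al G.F c) x, adl G.F c l (d.be G.F c) x⟫_ℝ := by
  have s1 := cb_sm (Cy.qi_al h hd).cb
  have s2 := cb_sm (Cy.qi_be h hd).cb
  have s3 : Sm I fun y => c.m.pg y (l y) := (cb_sm h.pg).clm_apply hl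
  have s4 : Sm I fun y => rr G.F c (c.m.pg y (l y)) := (rr G.F c).contMDiff.comp s3
  have e1 := dv_inner (e := G.F.e) a (h.pp.sk a x) (cb_sm (Cy.cb_s h hd) x) (hl x)
  have e2 := dv_inner (e := G.F.e) a (h.mc.sk a x) (s2 x) (s4.clm_apply s1 x)
  simp only [Cy.inner_s] at e1
  rw [nab_app' a (s4 x) (s1 x), nabE_rr G.F s3, pg_nab h.ok h.conn (cb_sm h.pg) a (hl x),
    inner_add_right, real_inner_comm (rr G.F c _ (nab _ _ _ _ _ _)), skew_adl] at e2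
  have e3 := Cy.inner_s d G.F c (nab I G.F.e (c.m.adW c.W) a l) x
  simp only [adl] at e1 e3 ⊢
  linarith

/-- the constant of the translation estimate -/
def kT (k : ℝ) (n : ℕ) : ℝ := 280 * n * k ^ (2 * n) * ((k ^ n * (2 * (k ^ n * k))) ^ 2 + k ^ 2) +
  k * (k ^ n * (k ^ n * (k ^ n * k))) + 2 * (k ^ n * k) ^ 2

/-- time independent data -/
structure Cy.Par (d : Cy M) (F : Fr I M ι) (a₀ : ι) (O : Set M) : Prop where
  f : ∀ x ∈ O, F.D a₀ d.f x = 0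
  f' : ∀ x ∈ O, F.D a₀ d.f' x = 0
  w : ∀ t ∈ d.w, Pr F a₀ O t
  w' : ∀ t ∈ d.w', Pr F a₀ O t

/-- the seed at one configuration -/
def Cy.rs (d : Cy M) (F : Fr I M ι) (c : Cfg M ι lam m) : RS M ι c.m.A c.m.A c.m.V :=
  ⟨(d.sed F).s c, (d.sed F).sA c, (d.sed F).sP c⟩

/-- **TR** -/
theorem Cy.tr (h : CO B G c) (hd : d.OK G.F) (hn : d.Sz G.F n) (hS : L4 G.F.toPre S) (hS0 : 0 < S)
    (hp : d.Par G.F a₀ O) (hdv : ∀ x ∈ O, G.F.dv a₀ x = 0)
    (hc : ∀ x ∈ O, ∀ a l, G.F.c a₀ a l x = 0) {α : M → Fm ι c.m.A} (φ : M → c.m.V) (sα : Sm I α)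
    (hα : ∀ x ∈ O, ∀ a, α x a = c.m.Fg G.F c.W x (a₀, a)) {Q : (M → c.m.A) → Prop}
    (hQ : ∀ u, Q u → G.F.Cb u) (hq : Q ((d.sed G.F).s c)) :
    RS.Tr G.F (c.m.adW c.W) Q a₀ O α φ (kT (kB S n) (n + 3)) (d.rs G.F c) := by
  have k1 := hn.one (S := S)
  refine ⟨hq, fun x => (hn.norm_s h.pq hS hS0 x).trans (le_add_of_nonneg_left (by positivity)),
    fun l hl => Cy.sm_sA h hd (hQ l hl), fun _ _ => contMDiff_const, fun l R θ ζ hl hR hθ => ?_⟩
  have m : ∀ {w : List (SL M (Vc G.F c))} {j}, WL (kB S n) j w → j ≤ n + 3 →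
    WL (kB S n) (n + 3) w := fun h e => ⟨h.1.trans e, h.2⟩
  have H : Ht G.F (c.m.adW c.W) c.m.pg (fun x => adR _ (c.m.pg x (l x))) d.f d.f' d.w d.w'
      (rr G.F c) a₀ O α (kB S n) (2 * |R|) (n + 3) :=
    ⟨h.hs hd.sep hd.w hd.w' (hQ l hl), hdv, hc, sα,
      fun u hu x hx a => by rw [hα x hx]; exact h.curv_qi hu a₀ a x, hp.f, hp.f', hp.w, hp.w', k1,
      by positivity, h.pq.bs_kB hS hS0 hn.sep.symm, h.pq.bs_kB hS hS0 hn.sep,
      fun x => (norm_adR _).trans (by linarith [norm_pg x (l x), hR x, le_abs_self R]),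
      m (Cy.Sz.wl _ hn.w) (by omega), m (Cy.Sz.wl _ hn.w') (by omega), hn.W _ hn.w, hn.W _ hn.w',
      m (hn.xw _).2 (by omega)⟩
  have e := H.tr hθ
  simp only [Cy.rs, Cy.nab_s h hd (cb_sm (hQ l hl))]
  simp only [Cy.sed, Pi.zero_apply, inner_zero_right, add_zero, gh_eq]
  refine e.trans ?_
  rw [← mul_assoc (kT _ _)]
  refine mul_le_mul_of_nonneg_right ?_ (nz_nonneg (F := G.F))
  rw [kT, ← sq_abs R]
  set k := kB S n
  set y := k ^ (n + 3)
  have a1 : (y * (2 * |R| * (y * k))) ^ 2 + k ^ 2 ≤ ((y * (2 * (y * k))) ^ 2 + k ^ 2) * (|R| ^ 2 + 1) := by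
    nlinarith [sq_nonneg (y * (2 * (y * k))), sq_nonneg (k * |R|)]
  have a2 := mul_le_mul_of_nonneg_left a1
    (show 0 ≤ 280 * ((n + 3 : ℕ) : ℝ) * k ^ (2 * (n + 3)) by positivity)
  have a3 := mul_le_mul_of_nonneg_left (show 2 * |R| ≤ |R| ^ 2 + 1 by nlinarith [sq_nonneg (|R| - 1)])
    (show 0 ≤ k * (y * (y * (y * k))) by positivity)
  nlinarith [show 0 ≤ 2 * (y * k) ^ 2 * (|R| ^ 2 + 1) by positivity]

end Crest.Agent.X212.Cyc79
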