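import Crest.Agent.X212.Cyc79.Lp
import Crest.Agent.X212.Cyc79.Tr

/-!
# Row 212, CYC (helper79): Lipschitz bound and gradient identity for the cyclic seeds
-/

set_option autoImplicit false
set_option linter.unusedSectionVars false
noncomputable section
open scoped Manifold ContDiff Topology InnerProductSpace
open MeasureTheory Set Function Filter

namespace Crest.Agent.X212.Cyc79
open An Sob92 Wz78 Dgr80
open Wrd81 (wd)

variable {E : Type} [NormedAddCommGroup E] [NormedSpace ℝ E] [FiniteDimensional ℝ E]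
  [MeasurableSpace E] [BorelSpace E]
  {HM : Type} [TopologicalSpace HM] {I : ModelWithCorners ℝ E HM} [I.Boundaryless]
  {M : Type} [TopologicalSpace M] [ChartedSpace HM M] [IsManifold I ∞ M]
  [MeasurableSpace M] [T2Space M] [BorelSpace M] [SecondCountableTopology M]
  {ι : Type} [Fintype ι] {F : Fr I M ι} {J : Type} {κ : Type} [Fintype κ] [DecidableEq κ]
  {U : Type} [NormedAddCommGroup U] [InnerProductSpace ℝ U] [CompleteSpace U]
  {X : Cx F J} {A : ι → M → En κ} {A' : J → ι → M → En κ} {p L : M → En κ} {L' : J → M → En κ}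
  {f f' : M → ℝ} {w w' : List (La M)} {r : CL U (CL (VV F.toPre κ) (VV F.toPre κ))}
  {α : J → M → Fm ι U}

/-- the setting on the Hilbert fibre -/
structure Lh (X : Cx F J) (A : ι → M → En κ) (A' : J → ι → M → En κ) (p : M → En κ)
    (r : CL U (CL (VV F.toPre κ) (VV F.toPre κ))) (α : J → M → Fm ι U) : Prop
    extends Lq X A A' p where
  eq : ∀ j a x, aA _ (A' j) a x = aA _ A a x + r (α j x a)
  sα : ∀ j, Sm I (α j)
  oα : X.O2 α

variable (X p) in
/-- close fields -/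
abbrev PP (u : M → VV F.toPre κ) (u' : J → M → VV F.toPre κ) : Prop :=
  P0 X (QI F p) (fun _ => QI F p) u u'

theorem ad_map (hw : ∀ t ∈ w, La.OK F t) :
    ∀ t ∈ w.map (laV (VV F.toPre κ)), t.Ad (QI F p) fun _ : J => QI F p := fun t ht => by
  refine ⟨ok_map hw t ht, fun _ => ok_map hw t ht, ?_⟩
  obtain ⟨t, h1, rfl⟩ := List.mem_map.1 ht
  cases t with
  | mul f => exact let ⟨K, h⟩ := cb_bdd (hw _ h1); ⟨K, le_mul h⟩
  | G => trivial

theorem PP.const {u : M → VV F.toPre κ} (h : QI F p u) : PP X p u fun _ => u :=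
  ⟨h, fun _ => h, cb_bd h.cb, (cb_bd h.cb).ub, by simpa using Cx.o2_zero⟩

theorem PP.LL {u : M → VV F.toPre κ} {u' : J → M → VV F.toPre κ} (h : PP X p u u')
    (k : Hs F A p L f f' w w') (k' : ∀ j, Hs F (A' j) p (L' j) f f' w w') (hu : Ub L')
    (hd : X.O2 fun j x => L' j x - L x) : PP X p (LL L u) fun j => LL (L' j) (u' j) := by
  obtain ⟨K, K0, hK⟩ := hu
  obtain ⟨K', K0', hK'⟩ := h.ub
  have c := fun j => (cb_sm (h.q' j).cb).continuous
  refine ⟨k.qL h.q, fun j => (k' j).qL (h.q' j), cb_bd (k.qL h.q).cb, ⟨K * K', by positivity,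
    fun j => norm_LL (hK j) (hK' j)⟩, ((hd.ub h.ub (w := fun j x => amp _ (L' j x - L x) (u' j x))
      (fun j => ((amp _).continuous.comp (hd.1 j)).clm_apply (c j)) zero_le_one fun j x =>
        (norm_amp _ _).trans_eq (by rw [one_mul])).add (h.d.ub (cb_bd k.cL).ub
      (w := fun j x => amp _ (L x) (u' j x - u x)) (fun j => ((amp _).continuous.comp
        (cb_sm k.cL).continuous).clm_apply (h.d.1 j)) zero_le_one fun j x =>
        (norm_amp _ _).trans_eq (by rw [one_mul, mul_comm]))).congr fun j x => ?_⟩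
  simp only [map_sub, sub_apply, sub_add_sub_cancel]

namespace Lh
variable (h : Lh X A A' p r α)
include h

theorem bn (u : M → VV F.toPre κ) (hu : QI F p u) (a : ι) :
    Bd (nab I F.e (aA _ A) a (F.res (aA _ A) u)) :=
  cb_bd (cb_nab (h.pp.toOk.amp _).cb (h.pp.cls.G u hu).cb a)

theorem eng : Eng X r α (aA _ A) (fun j => aA _ (A' j)) (QI F p) fun _ => QI F p :=
  ⟨(h.pp.toOk.amp _).mc, fun j => ((h.pp' j).toOk.amp _).mc, h.eq, h.sα, h.oα, h.pp.cls,
    fun j => (h.pp' j).cls, fun u hu => by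
      choose K hK using h.bn u hu
      exact ⟨∑ a, |K a|, fun _ x a _ => ((hK a x).trans (le_abs_self _)).trans
        (Finset.single_le_sum (f := fun a => |K a|) (fun _ _ => abs_nonneg _) (Finset.mem_univ a))⟩⟩

variable (k : Hs F A p L f f' w w')
include k

theorem pfa : PP X p (fa F A p f f' w) fun j => fa F (A' j) p f f' w :=
  h.eng.wd0 (h.p0 k.sep.symm) (ad_map k.W)

theorem ogg (k' : ∀ j, Hs F (A' j) p (L' j) f f' w w') (hu : Ub L')
    (hd : X.O2 fun j x => L' j x - L x) :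
    X.O2 fun j x => gg F (A' j) p (L' j) f f' w w' r x - gg F A p L f f' w w' r x :=
  ((h.eng.gc0 h.bn (h.p0 k.sep.symm) (ad_map k.W) ((h.pfa k.swap).LL k k' hu hd)).add
    (h.eng.gc0 h.bn (h.p0 k.sep) (ad_map k.sep.symm.ok) (h.eng.bk0 (ad_map k.W)
      (PP.LL (h.eng.wd0 (h.p0 k.sep) (ad_map k.ow')) k k' hu hd)))).congr fun j x => by
    simp only [gg]; abel

theorem lw1 : X.Lw (gc F (aA _ A) r (bs F A p f' f) ((w ++ xw f f').map (laV _))
    (LL L (fa F A p f f' w'))) :=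
  h.eng.lw_gc (h.p0 k.sep.symm) (ad_map k.W) (k.qL k.swap.qfa) (cb_bd (k.qL k.swap.qfa).cb)

theorem lw2 : X.Lw (gc F (aA _ A) r (bs F A p f f') ((xw f' f).map (laV _))
    (m2 F A p L f f' w w')) :=
  h.eng.lw_gc (h.p0 k.sep) (ad_map k.sep.symm.ok) k.qm (cb_bd k.qm.cb)

theorem lw : X.Lw (gg F A p L f f' w w' r) := (h.lw1 k).add (h.lw2 k)

theorem cyc (j : J) (x : M) : ⟪bs F (A' j) p f' f x - bs F A p f' f x,
    bg F A (w ++ xw f f') (LL L (fa F A p f f' w')) x⟫_ℝ =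
    ⟪wg F (A' j) (bs F A p f f') (xw f' f) x - wg F A (bs F A p f f') (xw f' f) x,
      m2 F A p L f f' w w' x⟫_ℝ := by
  have e := ((h.pp' j).fi_x k.sep.symm (k.fi k.sep) k.qb.2).unique
    (((h.pp' j).fi k.sep.symm).right (xO F A p f f'))
  rw [← k.fb_m, real_inner_comm, inner_fb, real_inner_comm, map_sub, e, wg, k.wd_bs k.sep,
    k.adj_xO k.sep]

theorem half (hX : X.Big) : X.O1 fun j =>
    ∫ x, ⟪fa F (A' j) p f f' w x - fa F A p f f' w x, LL L (fa F A p f f' w') x⟫_ℝ ∂F.μ -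
      ∫ x, ⟪α j x, gg F A p L f f' w w' r x⟫_ℝ ∂F.μ := by
  refine ((h.eng.grad hX (h.p0 k.sep.symm) (ad_map k.W) (k.qL k.swap.qfa)
    (cb_bd (k.qL k.swap.qfa).cb)).add (h.eng.grad hX (PP.const k.qb) (ad_map k.sep.symm.ok) k.qm
    (cb_bd k.qm.cb))).congr fun j => ?_
  simp only [h.cyc k j, gg, inner_add_right, sub_self, inner_zero_left, integral_zero]
  rw [integral_add (h.oα.inner hX j (h.lw1 k)) (h.oα.inner hX j (h.lw2 k))]
  ring

/-- the gradient identity on the Hilbert fibre -/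
theorem o1 (hX : X.Big) : X.O1 fun j =>
    ∫ x, (⟪fa F (A' j) p f f' w' x, LL L (fa F (A' j) p f f' w) x⟫_ℝ -
      ⟪fa F A p f f' w' x, LL L (fa F A p f f' w) x⟫_ℝ) ∂F.μ -
      ∫ x, ⟪α j x, gg F A p L f f' w' w r x - gg F A p L f f' w w' r x⟫_ℝ ∂F.μ := by
  have p1 := h.pfa k
  have p2 := h.pfa k.swap
  obtain ⟨K, hK⟩ := cb_bdd k.cL
  have p3 : X.O2 fun j x => amp _ (L x) (fa F (A' j) p f f' w x - fa F A p f f' w x) :=
    p1.d.dom (fun j => ((amp _).continuous.comp (cb_sm k.cL).continuous).clm_apply (p1.d.1 j))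
      (K := K) fun j x => (norm_amp _ _).trans (mul_le_mul_of_nonneg_right (hK x) (norm_nonneg _))
  have l := fun {w w'} (k : Hs F A p L f f' w w') => Cx.lw_bd (X := X)
    (cb_sm (k.qL k.qfa).cb).continuous (cb_bd (k.qL k.qfa).cb)
  refine (((h.half k.swap hX).add (h.half k hX).neg).add (p2.d.o1 hX p3 zero_le_one
    (f := fun j x => ⟪fa F (A' j) p f f' w' x - fa F A p f f' w' x,
      amp _ (L x) (fa F (A' j) p f f' w x - fa F A p f f' w x)⟫_ℝ)
    fun j x => by rw [one_mul]; exact abs_real_inner_le_norm _ _)).congr fun j => ?_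
  have i1 := p2.d.inner hX j (l k)
  have i2 := p1.d.inner hX j (l k.swap)
  have i3 := p2.d.inner hX j (p3.lw hX j)
  have e := integral_add (i1.sub' i2) i3
  rw [integral_sub i1 i2] at e
  simp only [inner_sub_right (α j _)]
  rw [integral_sub (h.oα.inner hX j (h.lw k.swap)) (h.oα.inner hX j (h.lw k))]
  refine Eq.trans (congrArg (· - _) (Eq.trans (congrArg _ (funext fun x => ?_)) e)) (by ring)
  have s := skew_amp (K := KK F.toPre κ) (k.skL x)
  simp only [LL, map_sub, inner_sub_left, inner_sub_right,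
    real_inner_comm (amp _ (L x) (fa F A p f f' w' x)), s (fa F A p f f' w' x)]
  ring

end Lh

/-! ### configurations -/

variable {lam : Type} [Fintype lam] {m : ℕ} {B : Base M ι lam} {G : Geo I M ι lam}
  {c : Cfg M ι lam m} {d : Cy M}

/-- the configuration with the connection `W + α` -/
abbrev sh (c : Cfg M ι lam m) (α : M → Fm ι c.m.A) (Φ : M → c.m.V) (z : EuclideanSpace ℂ (Fin m)) :
    Cfg M ι lam m := ⟨c.m, c.m.addC c.W α, Φ, z⟩

theorem sA_eq (c : Cfg M ι lam m) (l : M → c.m.A) (x : M) : (d.sed F).sA c l x =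
    gg F (c.m.adW c.W) c.m.pg (fun x => adR _ (c.m.pg x (l x))) d.f d.f' d.w' d.w (rr F c) x -
    gg F (c.m.adW c.W) c.m.pg (fun x => adR _ (c.m.pg x (l x))) d.f d.f' d.w d.w' (rr F c) x := rfl

variable {X : Cx G.F J} {α : J → M → Fm ι c.m.A} {Φ : J → M → c.m.V}
  {z : J → EuclideanSpace ℂ (Fin m)} {l : M → c.m.A} {l' : J → M → c.m.A}

variable (B d X α Φ z) in
/-- the hypotheses of **LG** -/
structure Lc : Prop where
  co : CO B G c
  co' : ∀ j, CO B G (sh c (α j) (Φ j) (z j))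
  ok : d.OK G.F
  sα : ∀ j, Sm I (α j)
  oα : X.O2 α
  ex : ∃ ψ k, Ex X ψ k

namespace Lc
variable (h : Lc B d X α Φ z)
include h

theorem lh : Lh X (c.m.adW c.W) (fun j => c.m.adW (c.m.addC c.W (α j))) c.m.pg (rr G.F c) α :=
  have e : ∀ j a x, c.m.adW (c.m.addC c.W (α j)) a x = c.m.adW c.W a x + adR _ (α j x a) :=
    fun _ _ _ => map_add adcL _ _
  ⟨⟨h.co.pp, fun j => (h.co' j).pp, h.co.pq.rk, fun a => ((h.oα.app a).dom
    (w := fun j x => adR _ (α j x a)) (fun j => (adR _).continuous.comp ((h.oα.app a).1 j))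
      fun _ _ => norm_adR _).congr fun j x => by rw [e, add_sub_cancel_left], h.ex⟩,
    fun j a x => by rw [aA, e, map_add]; rfl, h.sα, h.oα⟩

theorem hs (hl : G.F.Cb l) :
    Hs G.F (c.m.adW c.W) c.m.pg (fun x => adR _ (c.m.pg x (l x))) d.f d.f' d.w d.w' :=
  h.co.hs h.ok.sep h.ok.w h.ok.w' hl

theorem hs' (j : J) (hl : G.F.Cb l) : Hs G.F (c.m.adW (c.m.addC c.W (α j))) c.m.pg
    (fun x => adR _ (c.m.pg x (l x))) d.f d.f' d.w d.w' :=
  (h.co' j).hs h.ok.sep h.ok.w h.ok.w' hl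

theorem al : PP X c.m.pg (d.al G.F c) fun j => d.al G.F (sh c (α j) (Φ j) (z j)) :=
  h.lh.pfa (h.hs (Cb_const 0))

theorem be : PP X c.m.pg (d.be G.F c) fun j => d.be G.F (sh c (α j) (Φ j) (z j)) :=
  h.lh.pfa (h.hs (Cb_const 0)).swap

theorem ub : Ub (N := c.m.A) fun j => (d.sed G.F).s (sh c (α j) (Φ j) (z j)) :=
  let ⟨K, K0, hK⟩ := h.al.ub
  let ⟨K', K0', hK'⟩ := h.be.ub
  ⟨‖rr G.F c‖ * K * K', by positivity, fun j x => (norm_pg _ _).trans ((norm_tp _ _ _).trans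
    (mul_le_mul (mul_le_mul_of_nonneg_left (hK j x) (norm_nonneg _)) (hK' j x) (norm_nonneg _)
      (by positivity)))⟩

theorem os : X.O2 (N := c.m.A) fun j x =>
    (d.sed G.F).s (sh c (α j) (Φ j) (z j)) x - (d.sed G.F).s c x := by
  have s1 := fun j => cb_sm (h.al.q' j).cb
  have s2 := fun j => cb_sm (h.be.q' j).cb
  have s3 := cb_sm h.al.q.cb
  have s4 := cb_sm h.be.q.cb
  refine ((h.be.d.ub h.al.ub (fun j => (sm_tp (r := rr G.F c) (s1 j) ((s2 j).sub s4)).continuous)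
    (norm_nonneg (rr G.F c)) fun j x => (norm_tp _ _ _).trans_eq (mul_right_comm _ _ _)).add
    (h.al.d.ub h.be.bd.ub (fun j => (sm_tp (r := rr G.F c) ((s1 j).sub s3) s4).continuous)
    (norm_nonneg (rr G.F c)) fun j x => norm_tp _ _ _)).dom (fun j =>
      (cb_sm (Cy.cb_s (h.co' j) h.ok)).continuous.sub (cb_sm (Cy.cb_s h.co h.ok)).continuous)
    (K := 1) fun j x => ?_
  rw [one_mul, ← tp_sub]
  exact (congrArg _ (map_sub (c.m.pg x) _ _).symm).trans_le (norm_pg _ _)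

theorem oA (hl : G.F.Cb l) (hl' : ∀ j, G.F.Cb (l' j)) (ul : Ub l')
    (ol : X.O2 fun j x => l' j x - l x) : X.O2 (N := Fm ι c.m.A) fun j x =>
      (d.sed G.F).sA (sh c (α j) (Φ j) (z j)) (l' j) x - (d.sed G.F).sA c l x := by
  have u : Ub fun j x => adR _ (c.m.pg x (l' j x)) :=
    let ⟨K, K0, hK⟩ := ul
    ⟨2 * K, by positivity, fun j x => (norm_adR _).trans (mul_le_mul_of_nonneg_left
      ((norm_pg _ _).trans (hK j x)) zero_le_two)⟩
  have o : X.O2 fun j x => adR _ (c.m.pg x (l' j x)) - adR _ (c.m.pg x (l x)) :=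
    ol.dom (fun j => (cb_sm (h.hs (hl' j)).cL).continuous.sub (cb_sm (h.hs hl).cL).continuous)
      (K := 2) fun j x => by
      rw [← map_sub, ← map_sub]
      exact (norm_adR _).trans (mul_le_mul_of_nonneg_left (norm_pg _ _) zero_le_two)
  have a1 := h.lh.ogg (h.hs hl).swap (fun j => (h.hs' j (hl' j)).swap) u o
  have a2 := h.lh.ogg (h.hs hl) (fun j => h.hs' j (hl' j)) u o
  refine (a1.sub a2).congr fun j x => ?_
  rw [sub_sub_sub_comm]
  exact congrArg₂ (· - ·) (sA_eq (sh c (α j) (Φ j) (z j)) (l' j) x) (sA_eq c l x)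

theorem wA (hl : G.F.Cb l) : X.Lw ((d.sed G.F).sA c l) :=
  have := (h.lh.lw (h.hs hl).swap).add (h.lh.lw (h.hs hl)).neg
  (funext fun _ => (sub_eq_add_neg _ _).symm : _ = (d.sed G.F).sA c l) ▸ this

theorem o1 (hX : X.Big) (hl : G.F.Cb l) : X.O1 fun j =>
    ∫ x, ⟪((d.sed G.F).s (sh c (α j) (Φ j) (z j)) x : c.m.A) - (d.sed G.F).s c x, l x⟫_ℝ ∂G.F.μ -
      ∫ x, ⟪α j x, (d.sed G.F).sA c l x⟫_ℝ ∂G.F.μ :=
  (h.lh.o1 (h.hs hl) hX).congr fun j => congrArg (· - _) (congrArg _ (funext fun x =>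
    (inner_sub_left _ _ _).trans (congrArg₂ (· - ·)
      (Cy.inner_s d G.F (sh c (α j) (Φ j) (z j)) l x) (Cy.inner_s d G.F c l x))))

/-- **LG** -/
theorem lg (φ : J → M → c.m.V) {Q : (M → c.m.A) → Prop} {Q' : J → (M → c.m.A) → Prop}
    (hQ : ∀ u, Q u → G.F.Cb u) (hQ' : ∀ j u, Q' j u → G.F.Cb u) (hq : Q ((d.sed G.F).s c))
    (hq' : ∀ j, Q' j ((d.sed G.F).s (sh c (α j) (Φ j) (z j)))) :
    RS.Lg Q X Q' α φ (d.rs G.F c) fun j => d.rs G.F (sh c (α j) (Φ j) (z j)) :=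
  ⟨⟨hq, hq', cb_bd (Cy.cb_s h.co h.ok), h.ub, h.os⟩,
    fun _ _ hl => h.oA (hQ _ hl.q) (fun j => hQ' j _ (hl.q' j)) hl.ub hl.d,
    fun _ _ _ => Cx.o2_zero.congr fun _ _ => sub_self _, fun l hl _ => h.wA (hQ l hl),
    fun _ _ _ => Cx.lw_bd continuous_const ⟨0, fun _ => norm_zero.le⟩,
    fun hX l hl _ => (h.o1 hX (hQ l hl)).congr fun j => sub_eq_self.2 (by simp [Cy.rs, Cy.sed])⟩

end Lc

end Crest.Agent.X212.Cyc79
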