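import Crest.Agent.X212.Bern84.Bd
import Crest.Agent.X212.Pat85.CB

/-!
# X212 / CYC (helper79): the systems of `Bern84` with an infinite dimensional fibre

`BB O f`: smooth on `O × V`, all derivatives bounded on `T × ball R` for compact `T ⊆ O`.
`Bd S`: the coefficients of `S` are `BB`.  Automatic in finite dimension, inherited by `S.pro`,
and it gives the pointwise bounds `lap_bd`.
-/

set_option autoImplicit false
set_option linter.unusedSectionVars false
set_option linter.deprecated false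
open scoped ContDiff Topology RealInnerProductSpace
open Set Filter

namespace Crest.Agent.X212.Cyc79
open Bern84 Pat85

noncomputable section

section bb
variable {Z V V' G G' G'' : Type} [NormedAddCommGroup Z] [NormedSpace ℝ Z]
  [NormedAddCommGroup V] [NormedSpace ℝ V] [NormedAddCommGroup V'] [NormedSpace ℝ V']
  [NormedAddCommGroup G] [NormedSpace ℝ G] [NormedAddCommGroup G'] [NormedSpace ℝ G']
  [NormedAddCommGroup G''] [NormedSpace ℝ G'']

variable (V) in
/-- the filter of the set `T × ball R` -/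
def bx (T : Set Z) (R : ℝ) : Filter (Unit × (Z × V)) := 𝓟 {q | q.2.1 ∈ T ∧ ‖q.2.2‖ ≤ R}

/-- all derivatives are bounded on `T × ball R`, `T ⊆ O` compact -/
def BB (O : Set Z) (f : Z × V → G) : Prop :=
  ∀ (k : ℕ) (T : Set Z) (R : ℝ), IsCompact T → T ⊆ O → CB (bx V T R) k fun _ => f

variable {O : Set Z} {f g : Z × V → G}

theorem BB.sm (h : BB O f) : ContDiffOn ℝ ∞ f (O ×ˢ univ) := fun q hq =>
  (eventually_principal.1 (h 0 {q.1} ‖q.2‖ isCompact_singleton (by simpa using hq.1)).smooth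
    ((), q) ⟨rfl, le_rfl⟩).contDiffWithinAt

theorem BB.bdd (h : BB O f) {T : Set Z} (hT : IsCompact T) (hO : T ⊆ O) (R : ℝ) :
    ∃ C, ∀ z ∈ T, ∀ v, ‖v‖ ≤ R → ‖f (z, v)‖ ≤ C := by
  obtain ⟨C, hC⟩ := (h 0 T R hT hO).bdd
  exact ⟨C, fun z hz v hv => eventually_principal.1 hC ((), (z, v)) ⟨hz, hv⟩⟩

theorem bb_fd [FiniteDimensional ℝ V] (hO : IsOpen O) (hf : ContDiffOn ℝ ∞ f (O ×ˢ univ)) :
    BB O f := fun k T R hT hTO => by
  have := FiniteDimensional.proper_real V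
  refine (cb_compact (ι := Unit) (opn_prod hO) (hT.prod (isCompact_closedBall (0 : V) R))
    (prod_mono hTO (subset_univ _)) hf k).mono (principal_mono.2 fun q hq => ?_)
  exact ⟨mem_univ _, hq.1, by simpa using hq.2⟩

theorem BB.congr (hO : IsOpen O) (h : BB O f) (e : ∀ q : Z × V, q.1 ∈ O → g q = f q) : BB O g :=
  fun k T R hT hTO => (h k T R hT hTO).congr (eventually_principal.2 fun q hq =>
    eventuallyEq_of_mem ((opn_prod (V := V) hO).mem_nhds ⟨hTO hq.1, mem_univ _⟩)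
      fun y hy => e y hy.1)

theorem bb_const (c : G) : BB O fun _ : Z × V => c := fun _ _ _ _ _ => CB.const c

theorem BB.add (hf : BB O f) (hg : BB O g) : BB O fun q => f q + g q :=
  fun k T R a b => (hf k T R a b).add (hg k T R a b)

theorem BB.sub (hf : BB O f) (hg : BB O g) : BB O fun q => f q - g q :=
  fun k T R a b => (hf k T R a b).sub (hg k T R a b)

theorem BB.neg (hf : BB O f) : BB O fun q => -f q := fun k T R a b => (hf k T R a b).neg

theorem BB.fsum {α : Type*} (s : Finset α) {w : α → Z × V → G} (h : ∀ a ∈ s, BB O (w a)) :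
    BB O fun q => ∑ a ∈ s, w a q :=
  fun k T R a b => CB.fsum s (w := fun i _ => w i) fun i hi => h i hi k T R a b

theorem BB.sum {α : Type*} [Fintype α] {w : α → Z × V → G} (h : ∀ a, BB O (w a)) :
    BB O fun q => ∑ a, w a q := BB.fsum _ fun a _ => h a

theorem BB.clm (L : G →L[ℝ] G') (hf : BB O f) : BB O fun q => L (f q) :=
  fun k T R a b => (hf k T R a b).clm L

theorem BB.const_smul (c : ℝ) (hf : BB O f) : BB O fun q => c • f q :=
  fun k T R a b => (hf k T R a b).const_smul c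

theorem BB.bil (B : G →L[ℝ] G' →L[ℝ] G'') {w : Z × V → G'} (hf : BB O f) (hw : BB O w) :
    BB O fun q => B (f q) (w q) := fun k T R a b => (hf k T R a b).bil B (hw k T R a b)

theorem BB.prod {w : Z × V → G'} (hf : BB O f) (hw : BB O w) : BB O fun q => (f q, w q) :=
  fun k T R a b => (hf k T R a b).prodMk (hw k T R a b)

theorem BB.app {A : Z × V → G →L[ℝ] G'} (hA : BB O A) (hf : BB O f) : BB O fun q => A q (f q) :=
  fun k T R a b => (hA k T R a b).app (hf k T R a b)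

theorem BB.comp {A : Z × V → G' →L[ℝ] G''} {B : Z × V → G →L[ℝ] G'} (hA : BB O A) (hB : BB O B) :
    BB O fun q => A q ∘L B q := fun k T R a b => (hA k T R a b).clm_comp (hB k T R a b)

theorem BB.mul {A B : Z × V → G →L[ℝ] G} (hA : BB O A) (hB : BB O B) :
    BB O fun q => A q * B q := hA.comp hB

theorem BB.smul {u : Z × V → ℝ} (hu : BB O u) (hf : BB O f) : BB O fun q => u q • f q :=
  fun k T R a b => (hu k T R a b).smul (hf k T R a b)

theorem BB.fd (hf : BB O f) : BB O (fderiv ℝ f) := fun k T R a b => (hf (k + 1) T R a b).fd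

theorem cb_clm {ι : Type*} {𝓕 : Filter (ι × Z)} (L : Z →L[ℝ] G) {C : ℝ}
    (h : ∀ᶠ q in 𝓕, ‖L q.2‖ ≤ C) (k : ℕ) : CB 𝓕 k fun _ => L := by
  have h0 : CB 𝓕 0 fun _ => (L : Z → G) :=
    CB.zero_iff.2 ⟨Eventually.of_forall fun _ => L.contDiff.contDiffAt, C, h⟩
  cases k with
  | zero => exact h0
  | succ k =>
    exact h0.succ_of_eq (CB.const L) (Eventually.of_forall fun _ =>
      Eventually.of_forall fun _ => L.fderiv)

theorem bb_snd (L : V →L[ℝ] G) : BB O fun q : Z × V => L q.2 := fun k T R _ _ =>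
  cb_clm (L ∘L ContinuousLinearMap.snd ℝ Z V) (C := ‖L‖ * R) (eventually_principal.2 fun _ hq =>
    (L.le_opNorm _).trans (mul_le_mul_of_nonneg_left hq.2 (norm_nonneg _))) k

theorem cb_fd_clm {ι : Type*} {𝓕 : Filter (ι × Z)} (L : Z →L[ℝ] G) (j : ℕ) :
    CB 𝓕 j fun _ => fderiv ℝ (L : Z → G) := by
  have : fderiv ℝ (L : Z → G) = fun _ => L := funext fun _ => L.fderiv
  rw [this]; exact CB.const L

theorem BB.lift (hf : BB O f) (L : V' →L[ℝ] V) : BB O fun q : Z × V' => f (q.1, L q.2) :=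
  fun k T R a b => cb_comp _ (bx V T (‖L‖ * R)) id k (g := fun _ => f)
    (ψ := fun _ => (ContinuousLinearMap.id ℝ Z).prodMap L) (hf k T _ a b)
    (Eventually.of_forall fun _ => (ContinuousLinearMap.contDiff _).contDiffAt)
    (fun j _ => cb_fd_clm _ j)
    (tendsto_principal_principal.2 fun _ hq => ⟨hq.1,
      (L.le_opNorm _).trans (mul_le_mul_of_nonneg_left hq.2 (norm_nonneg _))⟩)

theorem bb_fst {u : Z → G} (hO : IsOpen O) (hu : ContDiffOn ℝ ∞ u O) :
    BB O fun q : Z × V => u q.1 :=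
  (bb_fd (V := ℝ) (f := fun q => u q.1) hO (sm_fst hu)).lift (0 : V →L[ℝ] ℝ)

/-- smooth functions of finitely many linear functionals -/
theorem bb_fin [FiniteDimensional ℝ V] (hO : IsOpen O) (hf : ContDiffOn ℝ ∞ f (O ×ˢ univ))
    (L : V' →L[ℝ] V) : BB O fun q : Z × V' => f (q.1, L q.2) := (bb_fd hO hf).lift L

/-- substitution of a `BB` map into the fibre variable -/
theorem BB.subst {w : Z × V' → V} (hO : IsOpen O) (hf : BB O f) (hw : BB O w) :
    BB O fun q : Z × V' => f (q.1, w q) := fun k T R a b => by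
  obtain ⟨C, hC⟩ := hw.bdd a b R
  have h1 : BB O fun q : Z × V' => (q.1, w q) := (bb_fst hO contDiffOn_id).prod hw
  exact cb_comp _ (bx V T C) id k (g := fun _ => f) (ψ := fun _ q => (q.1, w q)) (hf k T _ a b)
    (h1 0 T R a b).smooth (fun j _ => h1.fd j T R a b)
    (tendsto_principal_principal.2 fun q hq => ⟨hq.1, hC _ hq.1 _ hq.2⟩)

variable {ι : Type} [Fintype ι] {T : Set Z} {R : ℝ}

theorem bb_pr (o : Option ι) : BB O fun q : Z × V1 ι V => pr o q.2 := bb_snd (V := V1 ι V) (pr o)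

theorem BB.l0 (hf : BB O f) : BB O fun q : Z × V1 ι V => f (q.1, pr none q.2) :=
  hf.lift (V' := V1 ι V) (pr none)

theorem gr_l0 (hT : IsCompact T) (hO : T ⊆ O) (hf : BB O f) :
    Gr (box (ι := ι) (V := V) T R) (fun q => ‖q.2‖) 0 fun q => f (q.1, pr none q.2) := by
  obtain ⟨C, hC⟩ := hf.bdd hT hO R
  exact Gr.bdd fun q hq => hC _ hq.1 _ hq.2

theorem gr_fst (hT : IsCompact T) (hO : T ⊆ O) {u : Z → G} (hu : ContDiffOn ℝ ∞ u O) :
    Gr (box (ι := ι) (V := V) T R) (fun q => ‖q.2‖) 0 fun q => u q.1 := by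
  obtain ⟨C, hC⟩ := hT.exists_bound_of_continuousOn (hu.continuousOn.mono hO)
  exact Gr.bdd fun q hq => hC _ hq.1

theorem gr_pr (o : Option ι) :
    Gr (box (ι := ι) (V := V) T R) (fun q => ‖q.2‖) 1 fun q => pr o q.2 :=
  Gr.one fun q _ => by rw [abs_norm]; exact norm_pr_le o q.2

theorem gr_pr0 : Gr (box (ι := ι) (V := V) T R) (fun q => ‖q.2‖) 0 fun q => pr none q.2 :=
  Gr.bdd fun _ hq => hq.2

end bb

variable {P E ι : Type} [NormedAddCommGroup P] [NormedSpace ℝ P] [NormedAddCommGroup E]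
  [NormedSpace ℝ E] [Fintype ι] {F : Fm P E ι}

section sys
variable {V : Type} [NormedAddCommGroup V] [NormedSpace ℝ V]

/-- the coefficients of the system are bounded on bounded sets, with all derivatives -/
structure Bd (S : Sys F V) : Prop where
  L : ∀ a, BB F.O (S.L a)
  Q : BB F.O S.Q
  Φ : ∀ a b, BB F.O (S.Φ a b)

theorem bd_fd [FiniteDimensional ℝ V] (S : Sys F V) : Bd S :=
  ⟨fun a => bb_fd F.opn (S.smL a), bb_fd F.opn S.smQ, fun a b => bb_fd F.opn (S.smΦ a b)⟩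

variable {S : Sys F V} {T : Set (P × E)} {R : ℝ}

theorem bb_raw {G : Type} [NormedAddCommGroup G] [NormedSpace ℝ G] {f : (P × E) × V → G}
    (hf : BB F.O f) (a : ι) (o : Option ι) :
    BB F.O fun q : (P × E) × V1 ι V => S.raw f a q.1 (pr none q.2) (pr o q.2) :=
  hf.fd.l0.app (((bb_const (0 : P)).prod (bb_fst F.opn (F.sme a))).prod
    ((bb_pr o).sub ((bb_fst F.opn (S.smW a)).app (bb_pr none))))

theorem bb_nT {f : (P × E) × V → V →L[ℝ] V} (hf : BB F.O f) (a : ι) (o : Option ι) :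
    BB F.O fun q : (P × E) × V1 ι V => S.nT f a q.1 (pr none q.2) (pr o q.2) :=
  ((bb_raw hf a o).add ((bb_fst F.opn (S.smW a)).mul hf.l0)).sub
    (hf.l0.mul (bb_fst F.opn (S.smW a)))

theorem Bd.L1 (h : Bd S) (m : ι) : BB F.O (S.L1 m) := by
  refine BB.add (BB.sum fun a => ?_) (BB.sum fun c => BB.sum fun a => ?_)
  · exact (bb_const _).comp ((h.L a).l0.comp (bb_const _))
  · exact ((bb_fst F.opn (F.smc a c m)).add (bb_fst F.opn (F.smc m c a))).smul (bb_const _)

theorem Bd.Qc (h : Bd S) (c : ι) : BB F.O (S.Qc c) := by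
  unfold Sys.Qc
  refine BB.add (BB.add (BB.sum fun a => ?_) ?_)
    (BB.sum fun a => BB.add (BB.add ?_ ?_) (BB.sum fun d => ?_))
  · exact (bb_nT (h.L a) c (some c)).app (bb_pr _)
  · exact (bb_raw h.Q c (some c)).add ((bb_fst F.opn (S.smW c)).app h.Q.l0)
  · exact ((h.Φ a c).l0.app (bb_pr _)).const_smul _
  · exact (bb_nT (h.Φ a c) a (some a)).app (bb_pr _)
  · exact ((bb_fst F.opn (fd_smOn F.opn (F.smc a c d))).app
      ((bb_const (0 : P)).prod (bb_fst F.opn (F.sme a)))).smul (bb_pr _)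

theorem Bd.pro (h : Bd S) : Bd S.pro where
  L := h.L1
  Q := by
    have h0 : BB F.O S.Q0 := (BB.sum fun a => (h.L a).l0.app (bb_pr _)).add h.Q.l0
    exact (h0.clm _).add (BB.sum fun c => (h.Qc c).clm _)
  Φ a b := (h.Φ a b).l0.clm _

theorem gr_raw (hT : IsCompact T) (hO : T ⊆ F.O) {G : Type} [NormedAddCommGroup G]
    [NormedSpace ℝ G] {f : (P × E) × V → G} (hf : BB F.O f) (a : ι) (o : Option ι) :
    Gr (box (ι := ι) (V := V) T R) (fun q => ‖q.2‖) 1
      fun q => S.raw f a q.1 (pr none q.2) (pr o q.2) :=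
  (gr_l0 hT hO hf.fd).app
    ((((Gr.const (0 : P)).prod (gr_fst hT hO (F.sme a))).mono zero_le_one).prod
      ((gr_pr o).sub (((gr_fst hT hO (S.smW a)).app gr_pr0).mono zero_le_one)))

theorem gr_nT (hT : IsCompact T) (hO : T ⊆ F.O) {f : (P × E) × V → V →L[ℝ] V} (hf : BB F.O f)
    (a : ι) (o : Option ι) : Gr (box (ι := ι) (V := V) T R) (fun q => ‖q.2‖) 1
      fun q => S.nT f a q.1 (pr none q.2) (pr o q.2) :=
  ((gr_raw hT hO hf a o).add
    (((gr_fst hT hO (S.smW a)).mul (gr_l0 hT hO hf)).mono zero_le_one)).sub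
    (((gr_l0 hT hO hf).mul (gr_fst hT hO (S.smW a))).mono zero_le_one)

theorem Bd.gr_Q0 (h : Bd S) (hT : IsCompact T) (hO : T ⊆ F.O) :
    Gr (box (ι := ι) (V := V) T R) (fun q => ‖q.2‖) 1 S.Q0 :=
  (Gr.sum _ fun a _ => (gr_l0 hT hO (h.L a)).app (gr_pr _)).add
    ((gr_l0 hT hO h.Q).mono zero_le_one)

theorem Bd.gr_Qc (h : Bd S) (hT : IsCompact T) (hO : T ⊆ F.O) (c : ι) :
    Gr (box (ι := ι) (V := V) T R) (fun q => ‖q.2‖) 2 (S.Qc c) := by
  unfold Sys.Qc
  refine Gr.add (Gr.add (Gr.sum _ fun a _ => ?_) (Gr.mono (k := 1) ?_ one_le_two))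
    (Gr.sum _ fun a _ => Gr.add (Gr.add ?_ ?_) (Gr.sum _ fun d _ => ?_))
  · exact (gr_nT hT hO (h.L a) c _).app (gr_pr _)
  · exact (gr_raw hT hO h.Q c _).add
      (((gr_fst hT hO (S.smW c)).app (gr_l0 hT hO h.Q)).mono zero_le_one)
  · exact ((Gr.const (2 : ℝ)).smul ((gr_l0 hT hO (h.Φ a c)).app (gr_pr _))).mono (by norm_num)
  · exact (gr_nT hT hO (h.Φ a c) a _).app (gr_pr _)
  · exact (((gr_fst hT hO (fd_smOn F.opn (F.smc a c d))).app
      ((Gr.const (0 : P)).prod (gr_fst hT hO (F.sme a)))).smul (gr_pr _)).mono (by norm_num)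

theorem Bd.gr_Q1 (h : Bd S) (hT : IsCompact T) (hO : T ⊆ F.O) :
    Gr (box (ι := ι) (V := V) T R) (fun q => ‖q.2‖) 2 S.Q1 := by
  unfold Sys.Q1
  exact (((h.gr_Q0 hT hO).mono one_le_two).clm _).add
    (Gr.sum _ fun c _ => (h.gr_Qc hT hO c).clm _)

theorem Bd.gr_L1 (h : Bd S) (hT : IsCompact T) (hO : T ⊆ F.O) (m : ι) :
    Gr (box (ι := ι) (V := V) T R) (fun q => ‖q.2‖) 0 (S.L1 m) := by
  have := gr_l0 (ι := ι) (R := R) hT hO ((h.L1 m).lift (V' := V) (inj none))
  unfold Sys.L1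
  simpa only [Sys.L1, pr_inj] using this

end sys

/-- **pointwise bounds** (`Bern84.Sys.lap_bd` for any inner product space) -/
theorem Bd.lap_bd {V : Type} [NormedAddCommGroup V] [InnerProductSpace ℝ V] {S : Sys F V}
    (hS : Bd S) {T : Set (P × E)} (hT : IsCompact T) (hO : T ⊆ F.O) (R : ℝ) :
    ∃ C, 0 ≤ C ∧ ∀ p Ω A U, Sol S p Ω A U → ∀ x ∈ Ω, (p, x) ∈ T →
      ‖U x‖ ≤ R → ‖F.Lap p A U x‖ ≤ C * (1 + ‖F.up p A U x‖) ∧
        ‖F.Lap p (fun a x => dg (A a x)) (F.up p A U) x‖ ≤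
          C * (1 + ‖F.up p A U x‖ ^ 2 +
            ∑ a, ‖F.D p (fun a x => dg (A a x)) a (F.up p A U) x‖) := by
  obtain ⟨C0, h0, H0⟩ := hS.gr_Q0 (R := R) hT hO
  obtain ⟨C1, h1, H1⟩ := hS.gr_Q1 (R := R) hT hO
  choose C2 h2 H2 using fun m => hS.gr_L1 (R := R) hT hO m
  have hs : 0 ≤ ∑ m, C2 m := Finset.sum_nonneg fun m _ => h2 m
  refine ⟨C0 + 2 * C1 + ∑ m, C2 m, by positivity, fun p Ω A U h x hx hxT hR => ?_⟩
  have hq : ((p, x), F.up p A U x) ∈ box (ι := ι) (V := V) T R := ⟨hxT, hR⟩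
  have n0 := norm_nonneg (F.up p A U x)
  constructor
  · have := H0 _ hq
    simp only [Sys.Q0, pr_up_none, pr_up_some, abs_norm, pow_one] at this
    rw [h.eqn x hx]
    refine this.trans (mul_le_mul_of_nonneg_right (by linarith) (by linarith))
  · rw [h.pro.eqn x hx]
    have a1 := H1 _ hq
    simp only [abs_norm] at a1
    have a2 : ‖∑ a, S.pro.L a ((p, x), F.up p A U x)
        (F.D p (fun a x => dg (A a x)) a (F.up p A U) x)‖ ≤
        (∑ m, C2 m) * ∑ a, ‖F.D p (fun a x => dg (A a x)) a (F.up p A U) x‖ := by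
      rw [Finset.mul_sum]
      refine (norm_sum_le _ _).trans (Finset.sum_le_sum fun a _ => ?_)
      refine (ContinuousLinearMap.le_opNorm _ _).trans
        (mul_le_mul_of_nonneg_right ?_ (norm_nonneg _))
      have := H2 a _ hq
      simp only [pow_zero, mul_one] at this
      exact this.trans (Finset.single_le_sum (fun m _ => h2 m) (Finset.mem_univ a))
    have s0 : 0 ≤ ∑ a, ‖F.D p (fun a x => dg (A a x)) a (F.up p A U) x‖ :=
      Finset.sum_nonneg fun _ _ => norm_nonneg _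
    refine (norm_add_le _ _).trans ?_
    change _ + ‖S.Q1 _‖ ≤ _
    set t := ‖F.up p A U x‖
    set σ := ∑ a, ‖F.D p (fun a x => dg (A a x)) a (F.up p A U) x‖
    set c2 := ∑ m, C2 m
    have : C1 * (1 + t) ^ 2 ≤ 2 * C1 * (1 + t ^ 2) := by
      nlinarith [mul_nonneg h1 (sq_nonneg (1 - t))]
    nlinarith [mul_nonneg h0 s0, mul_nonneg h1 s0, mul_nonneg h0 (sq_nonneg t),
      mul_nonneg hs (sq_nonneg t)]

end

end Crest.Agent.X212.Cyc79
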