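import Crest.Agent.X212.Cyc79.WS
import Crest.Agent.X212.Wrd81.Ap
import Crest.Agent.X212.Sob92.Fun
import Crest.Agent.X212.Mon62.Nem0
import Crest.Agent.X212.Dgr80.Tr

/-!
# Row 212, CYC (helper79): smoothing operators and their fields
-/

set_option autoImplicit false
set_option linter.unusedSectionVars false
noncomputable section
open scoped Manifold ContDiff Topology InnerProductSpace
open MeasureTheory Set Function Filter

namespace Crest.Agent.X212.Cyc79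
open An Sob92 Wz78 Dgr80
open Wrd81 (wd RH QH GH lap1)

variable {E : Type} [NormedAddCommGroup E] [NormedSpace ℝ E] [FiniteDimensional ℝ E]
  [MeasurableSpace E] [BorelSpace E]
  {HM : Type} [TopologicalSpace HM] {I : ModelWithCorners ℝ E HM} [I.Boundaryless]
  {M : Type} [TopologicalSpace M] [ChartedSpace HM M] [IsManifold I ∞ M]
  [MeasurableSpace M] [T2Space M] [BorelSpace M] [SecondCountableTopology M]
  {ι : Type} [Fintype ι]

section gen
variable {V : Type} [NormedAddCommGroup V] [InnerProductSpace ℝ V]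

/-- bounded geometry and a bounded metric connection -/
structure Ok (F : Fr I M ι) (A : ι → M → V →L[ℝ] V) : Prop where
  tame : ∃ C, F.Tame C
  cb : ∀ a, F.Cb (A a)
  sk : ∀ a x, Skew (A a x)
  proj : ∀ a x, ∑ b, F.P a b x • A b x = A a x

/-- elements of all levels -/
def Lv (F : Pre I M ι) (x : F.H 0 (triv M V)) : Prop :=
  ∀ k, ∃ y : F.H k (triv M V), F.incl k 0 _ y = x

/-- multiplication operators on `L²` -/
abbrev mO (F : Pre I M ι) (T : M → V →L[ℝ] V) : F.H 0 (triv M V) →L[ℝ] F.H 0 (triv M V) :=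
  F.mulH 0 _ _ T

/-- the symbol of the commutator `[1 + ∇*∇, χ]` -/
def cmS (F : Fr I M ι) (V : Type) [NormedAddCommGroup V] [InnerProductSpace ℝ V] (χ : M → ℝ)
    (a : ι) (x : M) : V →L[ℝ] V := (-2 * F.D a χ x) • ContinuousLinearMap.id ℝ V

/-- its zero order part -/
def cmB (F : Fr I M ι) (A : ι → M → V →L[ℝ] V) (χ : M → ℝ) (x : M) : V →L[ℝ] V :=
  ∑ a, ((-2 * F.D a χ x) • A a x -
    (F.D a (F.D a χ) x + F.dv a x * F.D a χ x) • ContinuousLinearMap.id ℝ V)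

variable {F : Fr I M ι} {A : ι → M → V →L[ℝ] V} {x y : F.H 0 (triv M V)} {u v : M → V}

theorem cb_sm {N : Type} [NormedAddCommGroup N] [NormedSpace ℝ N] {F : Pre I M ι} {f : M → N}
    (h : F.Cb f) : Sm I f := h.choose_spec.1

theorem cb_bdd {N : Type} [NormedAddCommGroup N] [NormedSpace ℝ N] {F : Pre I M ι} {f : M → N}
    (h : F.Cb f) : ∃ C, ∀ x, ‖f x‖ ≤ C := ⟨_, CB_zero.1 (h.choose_spec.2 0)⟩

theorem Ok.mc (h : Ok F A) : Mp86.Mc I A := ⟨fun a => cb_sm (h.cb a), h.sk⟩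

theorem Ok.bmp (h : Ok F A) : Mp86.Bumps I F.e F.dv := Mp86.bumps_of_tame F h.tame.choose_spec

theorem Ok.cdv (h : Ok F A) (a : ι) : F.Cb (F.dv a) := ⟨_, h.tame.choose_spec.dv a⟩

theorem lap1_cm (hA : ∀ a, Sm I (A a)) {χ : M → ℝ} (hχ : Sm I χ) (hu : Sm I u) (z : M) :
    lap1 F A (fun y => χ y • u y) z = χ z • lap1 F A u z + F.op (cmS F V χ) (cmB F A χ) u z := by
  rw [Wrd81.lap1_smul F hA hχ hu]
  simp only [Pre.op, cmS, cmB, Wrd81.cov, sum_apply, sub_apply, smul_apply,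
    ContinuousLinearMap.id_apply]
  simp only [Finset.sum_sub_distrib, smul_add, Finset.sum_add_distrib,
    Finset.smul_sum, Finset.sum_smul, smul_smul, neg_mul, neg_smul, Finset.sum_neg_distrib, add_smul]
  abel

theorem cb_cmS {χ : M → ℝ} (hχ : F.Cb χ) (a : ι) : F.Cb (cmS F V χ a) :=
  Cb_smul (Cb_bil (.mul ℝ ℝ) (Cb_const _) (Cb_D hχ a)) (Cb_const _)

theorem Ok.cb_cmB (h : Ok F A) {χ : M → ℝ} (hχ : F.Cb χ) : F.Cb (cmB F A χ) :=
  Cb_sum _ fun a _ => Cb_sub (Cb_smul (Cb_bil (.mul ℝ ℝ) (Cb_const _) (Cb_D hχ a)) (h.cb a))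
    (Cb_smul (Cb_add (Cb_D (Cb_D hχ a) a) (Cb_bil (.mul ℝ ℝ) (h.cdv a) (Cb_D hχ a))) (Cb_const _))

/-- the commutator only sees the section near the support of `χ` -/
theorem cm_cut {χ χ' φ : M → ℝ} (hφ : Continuous φ) {s t : ℝ} (hst : s < t)
    (h0 : ∀ z, φ z < t → χ z = 0) (h1 : ∀ z, s < φ z → χ' z = 1) (u : M → V) :
    F.op (cmS F V χ) (cmB F A χ) (fun z => χ' z • u z) = F.op (cmS F V χ) (cmB F A χ) u := by
  funext z
  rcases lt_or_ge s (φ z) with h | h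
  · have e : (fun z => χ' z • u z) =ᶠ[𝓝 z] u := by
      filter_upwards [(isOpen_lt continuous_const hφ).mem_nhds h] with y hy
      rw [h1 y hy, one_smul]
    simp only [Pre.op, Pre.D_def, dv_congr e, e.eq_of_nhds]
  · have hO := (isOpen_lt hφ (continuous_const (y := t))).mem_nhds (h.trans_lt hst)
    have e : ∀ {g : M → ℝ} (a : ι), (∀ z, φ z < t → g z = 0) → ∀ z, φ z < t → F.D a g z = 0 :=
      fun {g} a hg z hz => by
        have : g =ᶠ[𝓝 z] fun _ => 0 := by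
          filter_upwards [(isOpen_lt hφ (continuous_const (y := t))).mem_nhds hz] with y hy
          exact hg y hy
        rw [Pre.D_def, dv_congr this, dv_const]; rfl
    have hz := h.trans_lt hst
    simp [Pre.op, cmS, cmB, fun a => e a h0 z hz, fun a => e a (e a h0) z hz]

theorem Lv.add (hx : Lv F.toPre x) (hy : Lv F.toPre y) : Lv F.toPre (x + y) := fun k =>
  let ⟨a, ha⟩ := hx k; let ⟨b, hb⟩ := hy k; ⟨a + b, by rw [map_add, ha, hb]⟩

theorem Lv.smul (hx : Lv F.toPre x) (t : ℝ) : Lv F.toPre (t • x) := fun k =>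
  let ⟨a, ha⟩ := hx k; ⟨t • a, by rw [map_smul, ha]⟩

theorem Lv.zero : Lv F.toPre (0 : F.H 0 (triv M V)) := fun _ => ⟨0, map_zero _⟩

theorem lv_toH (u : Sec I (triv M V)) : Lv F.toPre (F.toH 0 _ u) := fun k =>
  ⟨F.toH k _ u, incl_toH (Nat.zero_le k) u⟩

theorem Lv.mul (hx : Lv F.toPre x) {T : M → V →L[ℝ] V} (hT : F.Cb T) :
    Lv F.toPre (mO F.toPre T x) := fun k =>
  let ⟨a, ha⟩ := hx k
  ⟨F.mulH k _ _ T a, by rw [incl_mulH hT (Maps.triv T) (Nat.zero_le k), ha]⟩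

variable [CompleteSpace V]

theorem is_eq {k : ℕ} {x : F.H k (triv M V)} (hu : Is F.toPre k _ x u) (hv : Is F.toPre k _ x v)
    (cu : Continuous u) (cv : Continuous v) : u = v :=
  (cu.ae_eq_iff_eq F.μ cv).1 (hu.symm.trans hv)

theorem Lv.cb {S : ℝ} (hS : Sup F.toPre S) (hx : Lv F.toPre x) :
    ∃ u, F.Cb u ∧ Is F.toPre 0 _ x u := by
  obtain ⟨y, rfl⟩ := hx 4
  refine ⟨_, Cb_val hS le_rfl fun j hj => ?_, (Is.val hS le_rfl y).incl (Nat.zero_le 4)⟩
  obtain ⟨g, hg⟩ := hx j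
  exact ⟨g, incl_injective (Nat.zero_le 4) (by rw [incl_incl hj (Nat.zero_le _), hg])⟩

theorem is_inner (hx : Is F.toPre 0 _ x u) (φ : Sec I (triv M V)) :
    ⟪F.toH 0 _ φ, x⟫_ℝ = ∫ z, ⟪φ.1 z, u z⟫_ℝ ∂F.μ := by
  have := hx.inner_toH φ
  rwa [incl_self, real_inner_comm, Pre.ip_comm] at this

omit [CompleteSpace V] in
theorem mO_adj {T T' : M → V →L[ℝ] V} (hT : F.Cb T) (hT' : F.Cb T')
    (h : ∀ z v w, ⟪T z v, w⟫_ℝ = ⟪v, T' z w⟫_ℝ) (x y : F.H 0 (triv M V)) :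
    ⟪mO F.toPre T x, y⟫_ℝ = ⟪x, mO F.toPre T' y⟫_ℝ := by
  refine H_eq₂ (f := fun x y => ⟪mO F.toPre T x, y⟫_ℝ) (g := fun x y => ⟪x, mO F.toPre T' y⟫_ℝ)
    (by fun_prop) (by fun_prop) (fun u v => ?_) x y
  simp only [RepT_toH (rep_mulH hT (Maps.triv T)), RepT_toH (rep_mulH hT' (Maps.triv T')),
    Pre.inner_toH, Pre.ip, h]

end gen

section fin
variable {V : Type} [NormedAddCommGroup V] [InnerProductSpace ℝ V] [FiniteDimensional ℝ V]
  {F : Fr I M ι} {A : ι → M → V →L[ℝ] V} {x y : F.H 0 (triv M V)} {u v : M → V}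

local instance : CompleteSpace V := FiniteDimensional.complete ℝ V

variable (F A) in
/-- the resolvent on `L²` -/
def G0 : F.H 0 (triv M V) →L[ℝ] F.H 0 (triv M V) := F.incl 2 0 _ ∘L GH F A 0

theorem Ok.rh (h : Ok F A) : RH F A := Wrd81.rh_of_tame h.tame.choose_spec h.cb h.sk h.proj

theorem Ok.sup (h : Ok F A) : Sup F.toPre (h.tame.choose 0) := Sup.of_tame h.tame.choose_spec

theorem Ok.G_symm (h : Ok F A) (x y : F.H 0 (triv M V)) : ⟪G0 F A x, y⟫_ℝ = ⟪x, G0 F A y⟫_ℝ :=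
  h.rh.rsd.symm x y

theorem Lv.G (h : Ok F A) (hx : Lv F.toPre x) : Lv F.toPre (G0 F A x) := fun k => by
  obtain ⟨a, rfl⟩ := hx k
  exact ⟨F.incl (k + 2) k _ (GH F A k a), by
    rw [incl_incl (by omega) (Nat.zero_le _), ← h.rh.G0_incl]; rfl⟩

/-- on `H^∞` the resolvent is `Fr.res` -/
theorem Ok.res (h : Ok F A) (hx : Lv F.toPre x) (hu : Sm I u) (hr : Is F.toPre 0 _ x u) :
    F.IsRes A u (F.res A u) ∧ F.Cb (F.res A u) ∧ Is F.toPre 0 _ (G0 F A x) (F.res A u) := by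
  obtain ⟨v, h1, h2⟩ := (hx.G h).cb h.sup
  have h3 : h.rh.rsd.Rp x (lap1 F A v) := fun φ => by
    rw [← Wrd81.ibp_lap1 F h.mc.sm h.sk φ.2.1 φ.2.2.1 (cb_sm h1)]
    have := is_inner h2 (Wrd81.RsD.lapT F h.mc.sm φ)
    rw [← h.rh.rsd.G_lap h.mc.sm, h.rh.rsd.symm]
    exact this
  have h4 : F.IsRes A u v := ⟨cb_sm h1, cb_bdd h1, fun x => by
    rw [Wrd81.L2D.Rp.eq (r := h.rh.rsd.toL2D) (is_inner hr) h3 hu
      (Wrd81.sm_lap1 F h.mc.sm (cb_sm h1)), Wrd81.lap1_eq]⟩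
  rw [Mp86.res_eq h.bmp h.mc h4]
  exact ⟨h4, h1, h2⟩

theorem Ok.QH_smul (h : Ok F A) {χ : M → ℝ} (hχ : F.Cb χ) (j : ℕ) (y : F.H (j + 2) (triv M V)) :
    QH F A j (smulH F.toPre (j + 2) _ χ y) = smulH F.toPre j _ χ (QH F A j y) +
      F.opH j _ _ (cmS F V χ) (cmB F A χ) (F.incl (j + 2) (j + 1) _ y) :=
  DFunLike.congr_fun (RepT_eq (RepT_comp (h.rh.ell.spec j).1 (rep_smulH hχ))
    (RepT_add (RepT_comp (rep_smulH hχ) (h.rh.ell.spec j).1)
      (RepT_comp (rep_opH (cb_cmS hχ) (h.cb_cmB hχ) (fun _ _ _ => rfl) (Maps.triv _))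
        (rep_incl (by omega)))) fun u => funext fun z =>
      lap1_cm h.mc.sm (cb_sm hχ) u.2.1 z) y

theorem exists_cut {F : Pre I M ι} {φ : M → ℝ} (hφ : F.Cb φ) {s t : ℝ} (hst : s < t) :
    ∃ χ : M → ℝ, F.Cb χ ∧ (∀ z, φ z ≤ s → χ z = 0) ∧ (∀ z, t ≤ φ z → χ z = 1) ∧
      ∀ z, 0 ≤ χ z ∧ χ z ≤ 1 := by
  have h : 0 < t - s := sub_pos.2 hst
  refine ⟨fun z => Real.smoothTransition ((φ z - s) / (t - s)), Mon62.Cb_comp_fun
    (h := fun r => Real.smoothTransition ((r - s) / (t - s)))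
    (Real.smoothTransition.contDiff.comp (by fun_prop)) hφ, fun z hz => ?_, fun z hz => ?_,
    fun z => ⟨Real.smoothTransition.nonneg _, Real.smoothTransition.le_one _⟩⟩
  · exact Real.smoothTransition.zero_of_nonpos (div_nonpos_of_nonpos_of_nonneg (by linarith) h.le)
  · exact Real.smoothTransition.one_of_one_le (by rw [le_div_iff₀ h]; linarith)

/-- interior regularity on the scale -/
theorem Ok.gain (h : Ok F A) {φ : M → ℝ} (hφ : F.Cb φ) {y : F.H 2 (triv M V)}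
    (hy : ∀ χ : M → ℝ, F.Cb χ → (∀ z, φ z ≤ 0 → χ z = 0) → smulH F.toPre 0 _ χ (QH F A 0 y) = 0)
    (m : ℕ) : ∀ {χ : M → ℝ} {t : ℝ}, F.Cb χ → 0 < t → (∀ z, φ z < t → χ z = 0) →
      ∃ y' : F.H (m + 2) (triv M V), F.incl (m + 2) 2 _ y' = smulH F.toPre 2 _ χ y := by
  induction m with
  | zero => exact fun _ _ _ => ⟨_, incl_self _⟩
  | succ m ih =>
    intro χ t hχ ht h0
    obtain ⟨χ', c1, c2, c3, -⟩ := exists_cut hφ (show t / 4 < t / 2 by linarith)
    obtain ⟨y', hy'⟩ := ih c1 (show 0 < t / 4 by linarith) fun z hz => c2 z hz.le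
    have R := fun j => rep_opH (F := F.toPre) (k := j) (p := triv M V) (q := triv M V)
      (cb_cmS hχ) (h.cb_cmB hχ) (fun _ _ _ => rfl) (Maps.triv _)
    refine ⟨GH F A (m + 1) (F.opH (m + 1) _ _ (cmS F V χ) (cmB F A χ) y'), ?_⟩
    refine (h.rh.ell.spec 0).2.1 ?_
    rw [h.rh.ell.incl_G (Nat.zero_le _), h.rh.ell.Q_G, h.QH_smul hχ 0,
      hy χ hχ fun z hz => h0 z (hz.trans_lt ht), zero_add,
      Rep_incl (R (m + 1)) (R 0) (by omega) (Nat.zero_le _),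
      ← incl_incl (j := 2) (by omega) (by omega), hy']
    exact DFunLike.congr_fun (RepT_eq (RepT_comp (R 0) (RepT_comp (rep_incl (by omega))
      (rep_smulH c1))) (RepT_comp (R 0) (rep_incl (by omega))) fun u =>
        cm_cut (cb_sm hφ).continuous (show t / 2 < t by linarith) h0 (fun z hz => c3 z hz.le) u.1) y

theorem smulH_smulH {F : Pre I M ι} {f g : M → ℝ} (hf : F.Cb f) (hg : F.Cb g) {k : ℕ}
    (x : F.H k (triv M V)) :
    smulH F k _ f (smulH F k _ g x) = smulH F k _ (fun z => f z * g z) x :=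
  DFunLike.congr_fun (RepT_eq (RepT_comp (rep_smulH hf) (rep_smulH hg))
    (rep_smulH (Cb_bil (.mul ℝ ℝ) hf hg)) fun _ => funext fun _ => smul_smul _ _ _) x

theorem smulH_zero {F : Pre I M ι} {f : M → ℝ} (hf : ∀ z, f z = 0) {k : ℕ} (x : F.H k (triv M V)) :
    smulH F k _ f x = 0 := by
  obtain rfl : f = fun _ => 0 := funext hf
  exact DFunLike.congr_fun (RepT_eq (rep_smulH (Cb_const 0)) RepT_zero
    fun _ => funext fun _ => zero_smul _ _) x

/-- **`f G f'` is smoothing** -/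
theorem Ok.lv_sep (h : Ok F A) {f f' φ : M → ℝ} (hf : F.Cb f) (hf' : F.Cb f') (hφ : F.Cb φ)
    {t : ℝ} (ht : 0 < t) (h1 : ∀ z, φ z < t → f z = 0) (h0 : ∀ z, f' z ≠ 0 → φ z ≤ 0)
    (x : F.H 0 (triv M V)) :
    Lv F.toPre (smulH F.toPre 0 _ f (G0 F A (smulH F.toPre 0 _ f' x))) := fun k => by
  obtain ⟨y, hy⟩ := h.gain hφ (y := GH F A 0 (smulH F.toPre 0 _ f' x)) (fun χ hχ hz => by
    rw [h.rh.ell.Q_G, smulH_smulH hχ hf']
    refine smulH_zero (fun z => ?_) x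
    by_cases e : f' z = 0
    · rw [e, mul_zero]
    · rw [hz z (h0 z e), zero_mul]) k hf ht h1
  refine ⟨F.incl (k + 2) k _ y, ?_⟩
  rw [incl_incl (by omega) (Nat.zero_le _), ← incl_incl (j := 2) (by omega) (Nat.zero_le _), hy]
  exact Rep_incl (rep_smulH hf) (rep_smulH hf) (Nat.zero_le _) (Nat.zero_le _) _

/-- an operator with values in all levels lifts to every level -/
theorem exists_lift {K : Type} [NormedAddCommGroup K] [NormedSpace ℝ K] [CompleteSpace K]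
    {S : K →L[ℝ] F.H 0 (triv M V)} (hS : ∀ x, Lv F.toPre (S x)) (k : ℕ) :
    ∃ T : K →L[ℝ] F.H k (triv M V), ∀ x, F.incl k 0 _ (T x) = S x := by
  choose t ht using fun x => hS x k
  have inj := incl_injective (F := F) (p := triv M V) (Nat.zero_le k)
  let L : K →ₗ[ℝ] F.H k (triv M V) :=
    { toFun := t
      map_add' := fun x y => inj (by rw [map_add, ht, ht, ht, map_add])
      map_smul' := fun c x => inj (by rw [RingHom.id_apply, map_smul, ht, ht, map_smul]) }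
  have hc : Continuous L := L.continuous_of_isClosed_graph (by
    have : (L.graph : Set (K × F.H k (triv M V))) = {p | F.incl k 0 _ p.2 = S p.1} := by
      ext p
      simp only [SetLike.mem_coe, LinearMap.mem_graph_iff, mem_ofPred_eq]
      exact ⟨fun e => e ▸ ht p.1, fun e => inj (e.trans (ht p.1).symm)⟩
    rw [this]
    exact isClosed_eq (by fun_prop) (by fun_prop))
  exact ⟨⟨L, hc⟩, ht⟩

end fin

end Crest.Agent.X212.Cyc79
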