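import Crest.Agent.X212.Cyc79.Fld
import Crest.Agent.X212.Wz78.Par
import Crest.Agent.X212.Mp86.Bd

/-!
# Row 212, CYC (helper79): base fields, cyclicity, the class of fields, configurations
-/

set_option autoImplicit false
set_option linter.unusedSectionVars false
noncomputable section
open scoped Manifold ContDiff Topology InnerProductSpace
open MeasureTheory Set Function Filter

namespace Crest.Agent.X212.Cyc79
open An Sob92 Wz78 Dgr80
open Wrd81 (wd lap1)
open ContinuousLinearMap (adjoint)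

variable {E : Type} [NormedAddCommGroup E] [NormedSpace ℝ E] [FiniteDimensional ℝ E]
  [MeasurableSpace E] [BorelSpace E]
  {HM : Type} [TopologicalSpace HM] {I : ModelWithCorners ℝ E HM} [I.Boundaryless]
  {M : Type} [TopologicalSpace M] [ChartedSpace HM M] [IsManifold I ∞ M]
  [MeasurableSpace M] [T2Space M] [BorelSpace M] [SecondCountableTopology M]
  {ι : Type} [Fintype ι] {κ : Type} [Fintype κ] [DecidableEq κ]
  {K K' : Type} [NormedAddCommGroup K] [InnerProductSpace ℝ K] [CompleteSpace K]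
  [NormedAddCommGroup K'] [InnerProductSpace ℝ K'] [CompleteSpace K']

theorem amp_mul (S T : En κ) : amp K (S * T) = amp K S * amp K T :=
  ContinuousLinearMap.ext fun v => (amp_amp S T v).symm

theorem fb_fb {K'' : Type} [NormedAddCommGroup K''] [InnerProductSpace ℝ K'']
    (R : K' →L[ℝ] K'') (R' : K →L[ℝ] K') (v : Fm κ K) : fb R (fb R' v) = fb (R ∘L R') v := rfl

theorem norm_fb_le (R : K →L[ℝ] K') (v : Fm κ K) : ‖fb R v‖ ≤ ‖R‖ * ‖v‖ := by
  refine abs_le_of_sq_le_sq' (a := ‖_‖) ?_ (by positivity) |>.2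
  rw [mul_pow, PiLp.norm_sq_eq_of_L2, PiLp.norm_sq_eq_of_L2, Finset.mul_sum]
  exact Finset.sum_le_sum fun i _ => by
    rw [← mul_pow]; exact pow_le_pow_left₀ (norm_nonneg _) (R.le_opNorm _) 2

/-- `tp` as a bilinear map -/
def tpL {V U : Type} [NormedAddCommGroup V] [InnerProductSpace ℝ V] [CompleteSpace V]
    [NormedAddCommGroup U] [InnerProductSpace ℝ U] [CompleteSpace U] (r : CL U (CL V V)) :
    CL V (CL V U) :=
  (adjoint (𝕜 := ℝ) (E := U) (F := V)).toContinuousLinearEquiv.toContinuousLinearMap ∘L r.flip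

/-- a parallel orthogonal projector -/
structure Pp (F : Fr I M ι) (A : ι → M → En κ) (p : M → En κ) : Prop extends Ok F A where
  cp : F.Cb p
  sym : ∀ x v w, ⟪p x v, w⟫_ℝ = ⟪v, p x w⟫_ℝ
  idem : ∀ x, p x * p x = p x
  par : ∀ a x, nabE I F.e A a p x = 0

variable (F : Fr I M ι) (A : ι → M → En κ) (p : M → En κ)

/-- the base field -/
def bs (f f' : M → ℝ) : M → VV F.toPre κ :=
  fld F.toPre fun u z => f z • F.res A (fun y => f' y • p y (u y)) z

/-- its operator `f G f' p` -/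
def xO (f f' : M → ℝ) : KK F.toPre κ →L[ℝ] KK F.toPre κ := wO F A (xw f f') ∘L mO F.toPre p

/-- the class of fields -/
def QI (α : M → Fm κ K) : Prop := (∃ S, FI F S α) ∧ ∀ z, amp K (p z) (α z) = α z

variable {F A p} {f f' : M → ℝ} {S T : K →L[ℝ] KK F.toPre κ} {α β : M → Fm κ K}

theorem fi_bs (hA : Ok F A) (h : Sep F.toPre f f') (hp : F.Cb p) :
    FI F (xO F A p f f') (bs F A p f f') := fi_base hA h hp

theorem is_xO (hA : Ok F A) (hf : F.Cb f) (hf' : F.Cb f') (hp : F.Cb p)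
    (u : Sec I (triv M (Eu κ))) : F.IsRes A (fun y => f' y • p y (u.1 y))
      (F.res A fun y => f' y • p y (u.1 y)) ∧ Is F.toPre 0 _ (xO F A p f f' (F.toH 0 _ u))
        fun z => f z • F.res A (fun y => f' y • p y (u.1 y)) z :=
  have := hA.res (((lv_toH u).mul hp).fmul hf')
    (Wrd81.sm_smul (cb_sm hf') ((cb_sm hp).clm_apply u.2.1))
    (((Is.toH (F := F.toPre) (k := 0) u).mulH hp (Maps.triv p)).smulH hf')
  ⟨this.1, this.2.2.smulH hf⟩

theorem ct_bs (hA : Ok F A) (h : Sep F.toPre f f') (hp : F.Cb p) (u : Sec I (triv M (Eu κ)))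
    (z : M) : ct (F.toH 0 _ u) (bs F A p f f' z) =
      f z • F.res A (fun y => f' y • p y (u.1 y)) z :=
  (fi_bs hA h hp).eq_ct ((cb_sm h.1).continuous.smul (Mp86.sm_res _ _ _).continuous)
    (is_xO hA h.1 h.2.1 hp u).2 z

/-- the resolvent commutes with bounded intertwiners -/
theorem G0_comm {V V' : Type} [NormedAddCommGroup V] [InnerProductSpace ℝ V] [FiniteDimensional ℝ V]
    [NormedAddCommGroup V'] [InnerProductSpace ℝ V'] [FiniteDimensional ℝ V']
    {A : ι → M → V →L[ℝ] V} {A' : ι → M → V' →L[ℝ] V'} (h : Ok F A) (h' : Ok F A')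
    {T : M → V →L[ℝ] V'} (hT : F.Cb T) (hi : ∀ x, Eqv71.Itw I F.e A A' T x)
    (y : F.H 0 (triv M V)) : G0 F A' (F.mulH 0 _ _ T y) = F.mulH 0 _ _ T (G0 F A y) := by
  have := FiniteDimensional.complete ℝ V
  have := FiniteDimensional.complete ℝ V'
  refine H_eq (f := fun y => G0 F A' (F.mulH 0 _ _ T y))
    (g := fun y => F.mulH 0 _ _ T (G0 F A y)) (by fun_prop) (by fun_prop) (fun u => ?_) y
  obtain ⟨h1, -, h3⟩ := h.res (lv_toH u) u.2.1 (Is.toH u)
  have h4 := h'.res (x := F.mulH 0 _ _ T (F.toH 0 _ u)) (by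
    rw [RepT_toH (rep_mulH hT (Maps.triv T))]; exact lv_toH _) ((cb_sm hT).clm_apply u.2.1)
    ((Is.toH u).mulH hT (Maps.triv T))
  rw [Mp86.res_eq h'.bmp h'.mc (Mp86.isRes_map h.mc.sm (cb_sm hT) (cb_bdd hT) hi h1)] at h4
  exact h4.2.2.unique (h3.mulH hT (Maps.triv T))

theorem mO_smulH {B : M → En κ} (hB : F.Cb B) (hf : F.Cb f) (y : KK F.toPre κ) :
    mO F.toPre B (smulH F.toPre 0 _ f y) = smulH F.toPre 0 _ f (mO F.toPre B y) := by
  have h1 : F.Cb fun x => f x • ContinuousLinearMap.id ℝ (Eu κ) := Cb_smul hf (Cb_const _)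
  rw [smulH_eq, mulH_mulH h1 (Maps.triv _) hB (Maps.triv _),
    mulH_mulH hB (Maps.triv _) h1 (Maps.triv _)]
  simp

namespace Pp
variable (h : Pp F A p)
include h

theorem itw (x : M) : Eqv71.Itw I F.e A A p x := fun a => by
  have := h.par a x
  rw [nabE, ← add_sub_assoc, sub_eq_zero] at this
  exact this

theorem sm : Sm I p := cb_sm h.cp

theorem itw_amp (x : M) : Eqv71.Itw I F.e (aA K A) (aA K A) (fun z => amp K (p z)) x := fun a => by
  rw [dv_clm (amp K) ((h.sm x).mdifferentiableAt (by simp))]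
  exact ((congrArg _ (amp_mul _ _).symm).trans (map_add _ _ _).symm).trans
    ((congrArg (amp K) (h.itw x a)).trans (amp_mul _ _))

theorem norm_le (x : M) (v : Eu κ) : ‖p x v‖ ≤ ‖v‖ := (Mp86.proj_le (h.sym x) (h.idem x) v).2.2

theorem norm_amp_le (x : M) (v : Fm κ K) : ‖amp K (p x) v‖ ≤ ‖v‖ :=
  (Mp86.proj_le (inner_amp (h.sym x)) (by rw [← amp_mul, h.idem]) v).2.2

theorem mO_mO (y : KK F.toPre κ) : mO F.toPre p (mO F.toPre p y) = mO F.toPre p y := by
  rw [mulH_mulH h.cp (Maps.triv _) h.cp (Maps.triv _)]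
  congr 2
  exact funext h.idem

theorem mO_laO {t : La M} (ht : La.OK F t) (y : KK F.toPre κ) :
    mO F.toPre p (laO F A t y) = laO F A t (mO F.toPre p y) := by
  cases t with
  | mul f => exact mO_smulH h.cp ht y
  | G => exact (G0_comm h.toOk h.toOk h.cp h.itw y).symm

theorem mO_wO {w : List (La M)} (hw : ∀ t ∈ w, La.OK F t) (y : KK F.toPre κ) :
    mO F.toPre p (wO F A w y) = wO F A w (mO F.toPre p y) := by
  induction w with
  | nil => rfl
  | cons t w ih =>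
    exact (h.mO_laO (hw t (by simp)) _).trans (congrArg _ (ih fun s hs => hw s (by simp [hs])))

theorem adj_mO : adjoint (mO F.toPre p) = mO F.toPre p :=
  ((ContinuousLinearMap.eq_adjoint_iff _ _).2 (mO_adj h.cp h.cp h.sym)).symm

theorem mO_xO (hs : Sep F.toPre f f') (y : KK F.toPre κ) :
    mO F.toPre p (xO F A p f f' y) = xO F A p f f' y :=
  (h.mO_wO hs.ok _).trans (congrArg _ (h.mO_mO y))

theorem adj_xO (hs : Sep F.toPre f f') : adjoint (xO F A p f f') = xO F A p f' f := by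
  rw [xO, ContinuousLinearMap.adjoint_comp, h.adj_mO, adj_wO h.toOk hs.ok]
  exact ContinuousLinearMap.ext fun y => h.mO_wO hs.symm.ok y

theorem fi (hs : Sep F.toPre f f') : FI F (xO F A p f f') (bs F A p f f') := fi_bs h.toOk hs h.cp

theorem qi_of (hα : FI F S α) (e : ∀ k, mO F.toPre p (S k) = S k) : QI F p α :=
  ⟨⟨S, hα⟩, congrFun ((hα.op h.cp).unique (by
    rwa [show mO F.toPre p ∘L S = S from ContinuousLinearMap.ext e]))⟩

theorem qi_bs (hs : Sep F.toPre f f') : QI F p (bs F A p f f') := h.qi_of (h.fi hs) (h.mO_xO hs)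

theorem cls : Cls F (aA K A) (QI F p) :=
  ⟨fun _ ⟨⟨_, hu⟩, _⟩ => hu.sm, fun _ ⟨⟨_, hu⟩, _⟩ => (hu.res h.toOk).1,
    fun _ ⟨⟨_, hu⟩, e⟩ => ⟨⟨_, (hu.res h.toOk).2⟩, Mp86.res_fix h.bmp (h.toOk.amp K).mc
      (cb_sm (Cb_clm _ h.cp)) (cb_bdd (Cb_clm _ h.cp)) h.itw_amp e⟩⟩

/-- the operator identity behind the cyclicity of the trace -/
theorem xx_eq (hs : Sep F.toPre f f') : wO F A (xw f' f) ∘L xO F A p f f' =
    xO F A p f' f ∘L xO F A p f f' :=
  ContinuousLinearMap.ext fun y => congrArg (wO F A (xw f' f)) (h.mO_xO hs y).symm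

/-- `x* x` in two ways -/
theorem wd_bs (hs : Sep F.toPre f f') :
    wd (sl F (aA _ A)) (bs F A p f f') ((xw f' f).map (laV _)) =
      fun z => fb (xO F A p f' f) (bs F A p f' f z) := by
  have h1 := (h.fi hs.symm).right (xO F A p f f')
  rw [h.adj_xO hs, ← h.xx_eq hs] at h1
  exact ((h.fi hs).wd h.toOk hs.symm.ok).unique h1

end Pp

theorem QI.op {B : M → En κ} (h : QI F p α) (hB : F.Cb B)
    (e : ∀ z, p z * (B z * p z) = B z * p z) : QI F p fun z => amp K (B z) (α z) :=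
  let ⟨⟨_, h1⟩, h2⟩ := h
  ⟨⟨_, h1.op hB⟩, fun z => by
    beta_reduce; rw [← h2 z, amp_amp, amp_amp, amp_amp, mul_assoc, e]⟩

theorem QI.fb (h : QI F p α) (R : K →L[ℝ] K') : QI F p fun z => fb R (α z) :=
  let ⟨⟨_, h1⟩, h2⟩ := h
  ⟨⟨_, by simpa using h1.right (adjoint R)⟩, fun z => by rw [← fb_amp, h2]⟩

theorem QI.cb (h : QI F p α) : F.Cb α := h.1.choose_spec.cb

theorem ok_laV {t : La M} (ht : La.OK F t) : (laV (Fm κ K) t).Ok (QI F p) := by
  cases t with
  | mul f =>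
    intro u ⟨⟨_, h1⟩, h2⟩
    have : QI F p fun x => f x • u x := ⟨⟨_, h1.fsmul ht⟩, fun z => by rw [map_smul, h2]⟩
    exact ⟨this, by simpa [ContinuousLinearMap.one_def, ContinuousLinearMap.adjoint_id] using this⟩
  | G => trivial

theorem ok_map {w : List (La M)} (hw : ∀ t ∈ w, La.OK F t) :
    ∀ t ∈ w.map (laV (Fm κ K)), t.Ok (QI F p) := fun _ ht =>
  let ⟨s, h1, h2⟩ := List.mem_map.1 ht; h2 ▸ ok_laV (hw s h1)

/-- words commute with operators on the `L²` slot -/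
theorem FI.wd_fb (h : FI F S α) (hA : Ok F A) {w : List (La M)} (hw : ∀ t ∈ w, La.OK F t)
    (R : K →L[ℝ] K') : Wrd81.wd (sl F (aA K' A)) (fun z => fb R (α z)) (w.map (laV _)) =
      fun z => fb R (Wrd81.wd (sl F (aA K A)) α (w.map (laV _)) z) := by
  have h1 := (h.right (adjoint R)).wd hA hw
  have h2 := (h.wd hA hw).right (adjoint R)
  rw [ContinuousLinearMap.adjoint_adjoint] at h1 h2
  exact h1.unique h2

theorem curv_aA (hA : ∀ a, Sm I (A a)) (a b : ι) (x : M) :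
    curv I F.e F.c (aA K A) a b x = amp K (curv I F.e F.c A a b x) :=
  curv_map (amp K) (fun a => hA a x) a b (by rw [map_sub, amp_mul, amp_mul])

/-! ### the local equation -/

theorem bs_mul (hA : Ok F A) (h : Sep F.toPre f f') (hp : F.Cb p) {g g' : M → ℝ}
    (h' : Sep F.toPre g' f') (e : ∀ z, g' z = g z * f z) (z : M) :
    bs F A p g' f' z = g z • bs F A p f f' z := ext_toH fun u => by
  rw [map_smul, ct_bs hA h hp, ct_bs hA h' hp, e, mul_smul]

theorem ct_cm (hα : Sm I α) (χ : M → ℝ) (k : K) (z : M) :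
    ct k (F.op (cmS F _ χ) (cmB F (aA K A) χ) α z) =
      F.op (cmS F _ χ) (cmB F A χ) (fun y => ct k (α y)) z := by
  simp only [Pre.op, cmS, cmB, D_clm F.toPre _ hα, map_add, map_sum, sum_apply, sub_apply,
    smul_apply, map_sub, map_smul, ContinuousLinearMap.id_apply, aA, ct_amp]

/-- the base field of `χ` is the resolvent of a first order expression in the base field of `χ'` -/
theorem bs_res (hA : Ok F A) (hp : F.Cb p) {χ χ' φ : M → ℝ} (h : Sep F.toPre χ f')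
    (h' : Sep F.toPre χ' f') (hφ : Continuous φ) {s t : ℝ} (hst : s < t)
    (h0 : ∀ z, φ z < t → χ z = 0) (h1 : ∀ z, s < φ z → χ' z = 1) :
    F.IsRes (aA _ A) (F.op (cmS F _ χ) (cmB F (aA _ A) χ) (bs F A p χ' f')) (bs F A p χ f') := by
  have s1 := (fi_bs hA h hp).sm
  refine ⟨s1, cb_bdd (fi_bs hA h hp).cb, fun z => ext_toH fun u => ?_⟩
  have e := (is_xO hA h.1 h.2.1 hp u).1
  have e0 : χ z * f' z = 0 := by
    obtain ⟨-, -, ψ, -, a1, a2⟩ := h
    by_contra a3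
    linarith [a1 z (left_ne_zero_of_mul a3), a2 z (right_ne_zero_of_mul a3)]
  rw [map_add, ← ct_lap hA.mc.sm s1, ct_cm (fi_bs hA h' hp).sm, funext (ct_bs hA h hp u),
    funext (ct_bs hA h' hp u), cm_cut hφ hst h0 h1, ct_bs hA h hp]
  have := lap1_cm (F := F) hA.mc.sm (cb_sm h.1) e.1 z
  simp only [Wrd81.lap1_eq, e.2.2 z, smul_smul, e0, zero_smul, zero_add] at this
  exact this

/-- where `χ = 1` the base field solves the homogeneous equation -/
theorem bs_hom (hA : Ok F A) (hp : F.Cb p) {χ : M → ℝ} (h : Sep F.toPre χ f') {z : M}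
    (hz : ∀ᶠ y in 𝓝 z, χ y = 1) :
    bs F A p χ f' z + lap I F.e F.dv (aA _ A) (bs F A p χ f') z = 0 := ext_toH fun u => by
  have e := (is_xO hA h.1 h.2.1 hp u).1
  have e0 : f' z = 0 := by
    obtain ⟨-, -, ψ, -, a1, a2⟩ := h
    by_contra a3
    linarith [a1 z (by rw [hz.self_of_nhds]; exact one_ne_zero), a2 z a3]
  have e1 : (fun y => χ y • F.res A (fun y => f' y • p y (u.1 y)) y) =ᶠ[𝓝 z]
      F.res A fun y => f' y • p y (u.1 y) := hz.mono fun y hy => by simp only [hy, one_smul]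
  rw [map_add, ← ct_lap hA.mc.sm (fi_bs hA h hp).sm, funext (ct_bs hA h hp u), ct_bs hA h hp,
    map_zero, hz.self_of_nhds, one_smul, ← neg_neg (lap ..), ← Mp86.LA_eq_lap, Mp86.LA_congr e1,
    Mp86.LA_eq_lap, neg_neg, e.2.2 z]
  simp only [e0, zero_smul]

omit [DecidableEq κ] in
/-- cut-off functions which vanish below a positive level are separated from `f'` -/
theorem sep_cut {F : Pre I M ι} {φ χ : M → ℝ} (hf' : F.Cb f') (hφ : F.Cb φ)
    (h : ∀ x, f' x ≠ 0 → φ x ≤ 0) (hχ : F.Cb χ) {s : ℝ} (hs : 0 < s)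
    (h0 : ∀ z, φ z < s → χ z = 0) : Sep F χ f' :=
  ⟨hχ, hf', fun x => s⁻¹ * φ x, Cb_bil (.mul ℝ ℝ) (Cb_const _) hφ, fun x hx => by
    beta_reduce; rw [inv_mul_eq_div, one_le_div hs]; exact not_lt.1 fun e => hx (h0 x e),
    fun x hx => mul_nonpos_of_nonneg_of_nonpos (by positivity) (h x hx)⟩

/-! ### configurations -/

variable {lam : Type} [Fintype lam] {r : ℕ} {B : Base M ι lam} {G : Geo I M ι lam}
  {c : Cfg M ι lam r}

/-- admissible connections with bounded derivatives on a tame background -/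
structure CO (B : Base M ι lam) (G : Geo I M ι lam) (c : Cfg M ι lam r) : Prop where
  hB : B.OK I
  hG : G.OK B
  ok : c.m.OK I B
  conn : c.m.IsConn B G c.W
  tame : ∃ C, G.F.Tame C
  W : ∀ a, G.F.Cb (c.W a)
  pg : G.F.Cb c.m.pg

theorem bf_eq (F : Fr I M ι) (c : Cfg M ι lam r) (f f' : M → ℝ) :
    bf F c f f' = bs F (c.m.adW c.W) c.m.pg f f' := rfl

theorem AA_eq (F : Fr I M ι) (c : Cfg M ι lam r) : AA F c = aA _ (c.m.adW c.W) := rfl

theorem adR_skw {m : Md M ι lam} {x : M} {ξ : m.A} (h : ξ ∈ m.gS x) : Skw (adR (Fin m.N) ξ) :=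
  adc_skw h.1

theorem adR_mem {m : Md M ι lam} {x : M} {ξ η : m.A} (h : ξ ∈ m.gS x) (k : η ∈ m.gS x) :
    adR (Fin m.N) ξ η ∈ m.gS x := by
  obtain ⟨a1, a2, a3, a4, a5⟩ := h
  obtain ⟨b1, b2, b3, b4, b5⟩ := k
  have e : opL (adR (Fin m.N) ξ η) = opL ξ * opL η - opL η * opL ξ := opL_adc _ _
  have c : ∀ T : En (Fin m.N), T * opL ξ = opL ξ * T → T * opL η = opL η * T →
      T * opL (adR (Fin m.N) ξ η) = opL (adR (Fin m.N) ξ η) * T := fun T h1 h2 => by
    rw [e, mul_sub, sub_mul, ← mul_assoc, ← mul_assoc, h1, h2, mul_assoc, mul_assoc, h1, h2,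
      mul_assoc, mul_assoc]
  refine ⟨fun v w => ?_, by rw [e, mul_sub, ← mul_assoc, ← mul_assoc, a2, b2], c _ a3 b3,
    fun a => c _ (a4 a) (b4 a), fun s => c _ (a5 s) (b5 s)⟩
  simp only [e, sub_apply, mul_apply_eq_comp, inner_sub_left, inner_sub_right, a1 _ _, b1 _ _]
  ring

theorem pg_adR {m : Md M ι lam} (x : M) (ξ : m.A) :
    m.pg x * (adR (Fin m.N) (m.pg x ξ) * m.pg x) = adR (Fin m.N) (m.pg x ξ) * m.pg x :=
  ContinuousLinearMap.ext fun v => by
    simp only [mul_apply_eq_comp]; exact pg_of_mem (adR_mem (pg_mem x ξ) (pg_mem x v))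

theorem rr_apply (F : Fr I M ι) (c : Cfg M ι lam r) (ξ : c.m.A) :
    rr F c ξ = amp _ (adR (Fin c.m.N) ξ) := rfl

namespace CO
variable (h : CO B G c)
include h

theorem pp : Pp G.F (c.m.adW c.W) c.m.pg where
  tame := h.tame
  cb a := Cb_clm adcL (h.W a)
  sk := adW_skw h.conn
  proj := h.hG.P ▸ (con_adW h.conn).proj
  cp := h.pg
  sym := inner_pg
  idem x := ContinuousLinearMap.ext (pg_pg x)
  par := pg_par h.ok h.conn (cb_sm h.pg)

theorem cls : Cls G.F (AA G.F c) (QI G.F c.m.pg) := h.pp.cls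

theorem mc : Mp86.Mc I (AA G.F c) := (h.pp.toOk.amp _).mc

theorem qi_bf (hs : Sep G.F.toPre f f') : QI G.F c.m.pg (bf G.F c f f') := h.pp.qi_bs hs

theorem qi_wv {s : M → Vc G.F c} (hs : QI G.F c.m.pg s) {w : List (La M)}
    (hw : ∀ t ∈ w, La.OK G.F t) : QI G.F c.m.pg (wv G.F c s w) := h.cls.wd hs (ok_map hw)

theorem cb_ad {l : M → c.m.A} (hl : G.F.Cb l) : G.F.Cb fun x => adR _ (c.m.pg x (l x)) :=
  Cb_clm _ (Cb_app h.pg hl)

theorem qi_adl {l : M → c.m.A} (hl : G.F.Cb l) {s : M → Vc G.F c} (hs : QI G.F c.m.pg s) :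
    QI G.F c.m.pg (adl G.F c l s) :=
  QI.op (B := fun x => adR _ (c.m.pg x (l x))) hs (h.cb_ad hl) fun z => pg_adR z _

/-- on the class the curvature acts through `rr` -/
theorem curv_qi {s : M → Vc G.F c} (hs : QI G.F c.m.pg s) (a b : ι) (x : M) :
    curv I G.F.e G.F.c (AA G.F c) a b x (s x) = rr G.F c (c.m.Fg G.F c.W x (a, b)) (s x) := by
  have e : curv I G.F.e G.F.c (c.m.adW c.W) a b x * c.m.pg x =
      adR _ (c.m.Fg G.F c.W x (a, b)) * c.m.pg x :=
    ContinuousLinearMap.ext fun v => by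
      simp only [mul_apply_eq_comp]; exact curv_adW_g h.hB h.hG h.ok h.conn a b (pg_mem x v)
  rw [AA_eq, curv_aA h.pp.mc.sm, ← hs.2 x, rr_apply, amp_amp, amp_amp, e]

end CO

theorem skew_adl (F : Fr I M ι) (c : Cfg M ι lam r) (l : M → c.m.A) (x : M) (v w : Vc F c) :
    ⟪rr F c (c.m.pg x (l x)) v, w⟫_ℝ = -⟪v, rr F c (c.m.pg x (l x)) w⟫_ℝ :=
  skew_amp (adR_skw (pg_mem x _)) v w

namespace Cy
variable {d : Cy M}

theorem OK.W {F : Fr I M ι} (hd : d.OK F) {w : List (La M)} (hw : ∀ t ∈ w, La.OK F t) :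
    ∀ t ∈ w ++ xw d.f d.f', La.OK F t := fun t ht =>
  (List.mem_append.1 ht).elim (hw t) (hd.sep.ok t)

theorem qi_al (h : CO B G c) (hd : d.OK G.F) : QI G.F c.m.pg (d.al G.F c) :=
  h.qi_wv (h.qi_bf hd.sep.symm) (hd.W hd.w)

theorem qi_be (h : CO B G c) (hd : d.OK G.F) : QI G.F c.m.pg (d.be G.F c) :=
  h.qi_wv (h.qi_bf hd.sep.symm) (hd.W hd.w')

theorem inner_s (d : Cy M) (F : Fr I M ι) (c : Cfg M ι lam r) (l : M → c.m.A) (x : M) :
    ⟪(d.sed F).s c x, l x⟫_ℝ = ⟪d.be F c x, adl F c l (d.al F c) x⟫_ℝ := by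
  exact (inner_pg x _ _).trans (inner_tp _ _ _ _)

theorem s_mem (d : Cy M) (F : Fr I M ι) (c : Cfg M ι lam r) (x : M) :
    (d.sed F).s c x ∈ c.m.gS x := pg_mem x _

theorem cb_s (h : CO B G c) (hd : d.OK G.F) : G.F.Cb ((d.sed G.F).s c) :=
  Cb_app h.pg (Cb_bil (tpL (rr G.F c)) (qi_al h hd).cb (qi_be h hd).cb)

end Cy

end Crest.Agent.X212.Cyc79
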