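import Crest.Agent.X212.Cyc79.Lg
import Crest.Agent.X212.Dgr80.Cf
import Crest.Agent.X212.Spn45.Aff

/-!
# Row 212, CYC (helper79): Lipschitz bound and gradient identity for the densities of configurations
-/

set_option autoImplicit false
set_option linter.unusedSectionVars false
noncomputable section
open scoped Manifold ContDiff Topology InnerProductSpace
open MeasureTheory Set Function Filter

namespace Crest.Agent.X212.Cyc79
open An Sob92 Wz78 Dgr80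
open Nd18 (vr)
open Mp86 (nf)

variable {E : Type} [NormedAddCommGroup E] [NormedSpace ℝ E] [FiniteDimensional ℝ E]
  [MeasurableSpace E] [BorelSpace E]
  {HM : Type} [TopologicalSpace HM] {I : ModelWithCorners ℝ E HM} [I.Boundaryless]
  {M : Type} [TopologicalSpace M] [ChartedSpace HM M] [IsManifold I ∞ M]
  [MeasurableSpace M] [T2Space M] [BorelSpace M] [SecondCountableTopology M]
  {ι : Type} [Fintype ι] {J : Type}

section gen
variable {F : Fr I M ι} {X : Cx F J} {U P : Type} [NormedAddCommGroup U] [InnerProductSpace ℝ U]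
  [CompleteSpace U] [NormedAddCommGroup P] [InnerProductSpace ℝ P] {α : J → M → Fm ι U}
  {φ : J → M → P} {χ f : M → ℝ} {f' : J → M → ℝ}

theorem pf_const (hf : F.Cb f) : Pf X f fun _ => f :=
  ⟨hf, fun _ => hf, cb_bd hf, (cb_bd hf).ub, Cx.o2_zero.congr fun _ _ => sub_self _⟩

theorem cb_mul (hf : F.Cb f) (hχ : F.Cb χ) : F.Cb fun y => f y * χ y := Cb_bil (.mul ℝ ℝ) hf hχ

theorem o2_mul {u : J → M → ℝ} (h : X.O2 u) (hχ : F.Cb χ) : X.O2 fun j x => χ x * u j x :=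
  h.ub (cb_bd hχ).ub (fun j => (cb_sm hχ).continuous.mul (h.1 j)) zero_le_one fun j x => by
    rw [norm_mul, one_mul, mul_comm]

theorem ub_mul {u : J → M → ℝ} (h : Ub u) (hχ : Bd χ) : Ub fun j x => χ x * u j x :=
  let ⟨K, K0, hK⟩ := h
  let ⟨L, hL⟩ := hχ
  ⟨|L| * K, by positivity, fun j x => (norm_mul_le _ _).trans
    (mul_le_mul ((hL x).trans (le_abs_self L)) (hK j x) (norm_nonneg _) (abs_nonneg _))⟩

theorem pf_mul (h : Pf X f f') (hχ : F.Cb χ) : Pf X (fun y => f y * χ y) fun j y => f' j y * χ y :=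
  ⟨cb_mul h.q hχ, fun j => cb_mul (h.q' j) hχ, cb_bd (cb_mul h.q hχ),
    by simpa only [mul_comm] using ub_mul h.ub (cb_bd hχ), (o2_mul h.d hχ).congr fun j x => by ring⟩

theorem lg_cut {d : RD M ι U P} {d' : J → RD M ι U P} (h : RD.Lg X α φ d d') (hχ : F.Cb χ) :
    RD.Lg X α φ (d.cut χ) fun j => (d' j).cut χ :=
  ⟨(cb_sm hχ).continuous.mul h.c0, (cb_bd hχ).smul h.bd, ub_mul h.ub (cb_bd hχ),
    (o2_mul h.h hχ).congr fun _ _ => (mul_sub _ _ _).symm, fun _ _ k => h.A _ _ (pf_mul k hχ),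
    fun _ _ k => h.P _ _ (pf_mul k hχ), fun _ k => h.wA _ (cb_mul k hχ),
    fun _ k => h.wP _ (cb_mul k hχ), fun hX _ k => (h.o1 hX _ (cb_mul k hχ)).congr fun j => by
      simp only [RD.cut, mul_sub, mul_assoc]⟩

variable (ι U) in
/-- a pointwise seed -/
def nem (g : P → P) (Φ : M → P) : RS M ι P U P :=
  ⟨fun x => g (Φ x), fun _ => 0, fun l x => fderiv ℝ g (Φ x) (l x)⟩

theorem lg_nem [FiniteDimensional ℝ P] [CompleteSpace P] {g : P → P} (hg : ContDiff ℝ ∞ g)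
    (sy : ∀ v a b, ⟪fderiv ℝ g v a, b⟫_ℝ = ⟪a, fderiv ℝ g v b⟫_ℝ) {Φ : M → P} (hΦ : F.Cb Φ)
    (hφ : ∀ j, F.Cb (φ j)) (oφ : X.O2 φ) (ub : Ub φ) {Q : (M → P) → Prop}
    {Q' : J → (M → P) → Prop} (hQ : ∀ u, Q u → F.Cb u) (hQ' : ∀ j u, Q' j u → F.Cb u)
    (q : Q fun x => g (Φ x)) (q' : ∀ j, Q' j fun x => g (Φ x + φ j x)) :
    RS.Lg Q X Q' α φ (nem ι U g Φ) fun j => nem ι U g fun x => Φ x + φ j x := by
  obtain ⟨R, hR⟩ := cb_bd hΦ
  obtain ⟨R', R0, hR'⟩ := ub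
  obtain ⟨K, K0, hK⟩ := exists_taylor hg (R + R')
  have b := fun j x => (norm_add_le _ _).trans (add_le_add (hR x) (hR' j x))
  have k := fun j x => hK _ _ ((hR x).trans (by linarith)) (b j x)
  have k' := fun j x => hK _ _ (b j x) (b j x)
  simp only [add_sub_cancel_left] at k
  have d0 := Cb_nem (hg.fderiv_right (m := ∞) le_rfl) hΦ
  have c0 := (cb_sm d0).continuous
  have c1 : ∀ j, Continuous fun x => fderiv ℝ g (Φ x + φ j x) := fun j =>
    (cb_sm (Cb_nem (hg.fderiv_right (m := ∞) le_rfl) (Cb_add hΦ (hφ j)))).continuous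
  have o := oφ.dom (w := fun j x => g (Φ x + φ j x) - g (Φ x)) (fun j =>
    (cb_sm (hQ' j _ (q' j))).continuous.sub (cb_sm (hQ _ q)).continuous) fun j x => (k j x).2.2.1
  have lw := fun {u : M → P} (hu : F.Cb u) => Cx.lw_bd (X := X) (cb_sm hu).continuous (cb_bd hu)
  refine ⟨⟨q, q', cb_bd (hQ _ q), ⟨K, K0, fun j x => (k' j x).1⟩, o⟩,
    fun _ _ _ => Cx.o2_zero.congr fun _ _ => sub_self _, fun l l' hl => ?_,
    fun _ _ _ => Cx.lw_bd continuous_const ⟨0, fun _ => norm_zero.le⟩,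
    fun l hl _ => lw (Cb_app d0 (hQ _ hl)), fun hX l hl b => ?_⟩
  · refine ((hl.d.dom (w := fun j x => fderiv ℝ g (Φ x + φ j x) (l' j x - l x))
      (fun j => (c1 j).clm_apply (hl.d.1 j)) (K := K) fun j x => (ContinuousLinearMap.le_opNorm _
        _).trans (mul_le_mul_of_nonneg_right (k' j x).2.1 (norm_nonneg _))).add
      (oφ.ub hl.bd.ub (w := fun j x => (fderiv ℝ g (Φ x + φ j x) - fderiv ℝ g (Φ x)) (l x))
        (fun j => ((c1 j).sub c0).clm_apply (cb_sm (hQ _ hl.q)).continuous) K0 fun j x =>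
          (ContinuousLinearMap.le_opNorm _ _).trans
            (mul_le_mul_of_nonneg_right (k j x).2.2.2.1 (norm_nonneg _)))).congr fun j x => ?_
    simp [nem]
  · obtain ⟨L, hL⟩ := b
    refine (oφ.o1 hX oφ (f := fun j x => ⟪g (Φ x + φ j x) - g (Φ x) - fderiv ℝ g (Φ x) (φ j x),
      l x⟫_ℝ) (K := K * |L|) (by positivity) fun j x => (abs_real_inner_le_norm _ _).trans
        ((mul_le_mul (k j x).2.2.2.2 ((hL x).trans (le_abs_self L)) (norm_nonneg _)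
          (by positivity)).trans_eq (by ring))).congr fun j => ?_
    simp only [nem, Pi.zero_apply, inner_zero_right, integral_zero, sub_zero]
    rw [← integral_sub (o.inner hX j (lw (hQ _ hl))) (oφ.inner hX j (lw (Cb_app d0 (hQ _ hl))))]
    simp only [inner_sub_left (g _ - g _), sy]

variable {κ : Type} [Fintype κ] [DecidableEq κ] {A : ι → M → En κ} {A' : J → ι → M → En κ}
  {p : M → En κ} {r : CL U (En κ)}

theorem lz_qp (h : Pp F A p) (h' : ∀ j, Pp F (A' j) p) (e : ∀ j a x, A' j a x = A a x + r (α j x a))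
    (sα : ∀ j, Sm I (α j)) (oα : X.O2 α) (oφ : X.O2 φ) :
    Lz A (QP F p) r X (fun _ => QP F p) A' α φ :=
  ⟨⟨h.mc, fun j => (h' j).mc, e, sα, oα, cls_qp h, fun j => cls_qp (h' j), fun u hu => by
      choose K hK using bn_qp h hu
      exact ⟨∑ a, |K a|, fun _ x a _ => ((hK a x).trans (le_abs_self _)).trans
        (Finset.single_le_sum (f := fun a => |K a|) (fun _ _ => abs_nonneg _) (Finset.mem_univ a))⟩⟩,
    oφ, fun _ hu => bn_qp h hu, fun _ _ hf hu => hu.smul hf, fun _ _ _ hf hu => hu.smul hf⟩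

theorem ad_qp {t : SL M (Eu κ)} (h : t.Ok (QP F p)) (k : ∀ T, t = .op T → F.Cb T) :
    t.Ad (QP F p) fun _ : J => QP F p := by
  refine ⟨h, fun _ => h, ?_⟩
  cases t
  exacts [cb_bd (k _ rfl), trivial]

end gen

variable {lam : Type} [Fintype lam] {m : ℕ} {B : Base M ι lam} {G : Geo I M ι lam}
  {c : Cfg M ι lam m} {d d' : Cy M} {w w' : List (La M)}

variable (B G c) in
/-- variations of the connection with bounded derivatives -/
def VA : Submodule ℝ (M → Fm ι c.m.A) where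
  carrier := {α | G.F.Cb α ∧ ∀ x, c.m.p1 B x (α x) = α x}
  add_mem' h k := ⟨Cb_add h.1 k.1, fun x => by rw [Pi.add_apply, map_add, h.2, k.2]⟩
  zero_mem' := ⟨Cb_const 0, fun _ => map_zero _⟩
  smul_mem' t _ h := ⟨Cb_smul (Cb_const t) h.1, fun x => by rw [Pi.smul_apply, map_smul, h.2]⟩

variable (B G c) in
/-- variations of the spinor with bounded derivatives -/
def VP : Submodule ℝ (M → c.m.V) where
  carrier := {φ | G.F.Cb φ ∧ ∀ x, c.m.pp B x (φ x) = φ x}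
  add_mem' h k := ⟨Cb_add h.1 k.1, fun x => by rw [Pi.add_apply, map_add, h.2, k.2]⟩
  zero_mem' := ⟨Cb_const 0, fun _ => map_zero _⟩
  smul_mem' t _ h := ⟨Cb_smul (Cb_const t) h.1, fun x => by rw [Pi.smul_apply, map_smul, h.2]⟩

theorem VA.smul {α : M → Fm ι c.m.A} (h : α ∈ VA B G c) {f : M → ℝ} (hf : G.F.Cb f) :
    (fun x => f x • α x) ∈ VA B G c := ⟨Cb_smul hf h.1, fun x => by rw [map_smul, h.2]⟩

theorem CO.sh (h : CO B G c) {α : M → Fm ι c.m.A} (hα : α ∈ VA B G c) (Φ : M → c.m.V)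
    (z : EuclideanSpace ℂ (Fin m)) : CO B G (sh c α Φ z) :=
  ⟨h.hB, h.hG, h.ok, Spn45.isConn_addC h.ok h.conn (cb_sm hα.1) hα.2, h.tame, fun a =>
    Cb_add (h.W a) (Cb_clm (opL ∘L PiLp.proj (𝕜 := ℝ) 2 (fun _ : ι => c.m.A) a) hα.1), h.pg⟩

theorem gd_vr (h : Gd B G c) {α : M → Fm ι c.m.A} (hα : α ∈ VA B G c) {φ : M → c.m.V}
    (hφ : φ ∈ VP B G c) : Gd B G (vr c α φ) :=
  have k := h.toCO.sh hα (fun x => c.Φ x + φ x) c.z
  ⟨k, ⟨h.ok, k.conn, h.adm.sm.add (cb_sm hφ.1), fun x =>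
    (map_add (c.m.pp B x) _ _).trans (congrArg₂ (· + ·) (h.adm.pos x) (hφ.2 x)), h.adm.z⟩,
    Cb_add h.Φ hφ.1, h.p, h.ρ, h.j⟩

variable {X : Cx G.F J} {α : J → M → Fm ι c.m.A} {Φ φ : J → M → c.m.V}
  {z : J → EuclideanSpace ℂ (Fin m)}

theorem ad_la (hw : ∀ t ∈ w, La.OK G.F t) :
    ∀ t ∈ w.map (laS c), t.Ad (QP G.F c.m.pg) fun _ : J => QP G.F c.m.pg :=
  List.forall_mem_map.2 fun t ht => ad_qp (Gd.ok_la (hw t ht)) (by
    cases t with
    | mul f => rintro _ ⟨⟩; exact Cb_smul (hw _ ht) (Cb_const _)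
    | G => rintro _ ⟨⟩)

theorem laS_sh (α : M → Fm ι c.m.A) (Φ : M → c.m.V) (z : EuclideanSpace ℂ (Fin m)) :
    laS (sh c α Φ z) = laS c := funext fun t => by cases t <;> rfl

namespace Lc
variable (h : Lc B d X α Φ z) (oφ : X.O2 φ)
include h oφ

theorem lz : Lz (c.m.adW c.W) (QP G.F c.m.pg) (adR _) X (fun _ => QP G.F c.m.pg)
    (fun j => c.m.adW (c.m.addC c.W (α j))) α φ :=
  lz_qp h.co.pp (fun j => (h.co' j).pp) (fun _ _ _ => map_add adcL _ _) h.sα h.oα oφ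

theorem wd (hw : ∀ t ∈ w, La.OK G.F t) : RS.Lg (QP G.F c.m.pg) X (fun _ => QP G.F c.m.pg) α φ
    (((d.sed G.F).wd G.F w).rs c) fun j => ((d.sed G.F).wd G.F w).rs (sh c (α j) (Φ j) (z j)) := by
  simp only [rs_wd, laS_sh]
  exact (h.lg φ (fun _ k => k.1) (fun _ _ k => k.1)
    ⟨Cy.cb_s h.co h.ok, fun x => pg_of_mem (Cy.s_mem d _ c x)⟩ fun j =>
    ⟨Cy.cb_s (h.co' j) h.ok, fun x => pg_of_mem (Cy.s_mem d _ (sh c (α j) (Φ j) (z j)) x)⟩).wd
    (h.lz oφ) (ad_la hw)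

/-- cyclic densities -/
theorem den (hd : d'.OK G.F) (hw : ∀ t ∈ w, La.OK G.F t) (hw' : ∀ t ∈ w', La.OK G.F t) :
    RD.Lg X α φ ((Den.sed ((d.sed G.F).wd G.F w) ((d'.sed G.F).wd G.F w')).rd c) fun j =>
      (Den.sed ((d.sed G.F).wd G.F w) ((d'.sed G.F).wd G.F w')).rd (sh c (α j) (Φ j) (z j)) :=
  (h.wd oφ hw).pair (h.lz oφ) (wd ⟨h.co, h.co', hd, h.sα, h.oα, h.ex⟩ oφ hw')
    (T := fun _ => 1) (ad_qp (ok_qp inner_pg (Cb_const _) fun _ _ => rfl)
      (by rintro _ ⟨⟩; exact Cb_const _)) fun _ _ _ => rfl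

end Lc

variable (B X α φ) in
/-- the hypotheses for spinor words -/
structure Ls : Prop where
  gd : Gd B G c
  hα : ∀ j, α j ∈ VA B G c
  hφ : ∀ j, φ j ∈ VP B G c
  oα : X.O2 α
  oφ : X.O2 φ
  ub : Ub φ

theorem ltS_vr (α : M → Fm ι c.m.A) (φ : M → c.m.V) : ltS G.F (vr c α φ) = ltS G.F c :=
  funext fun t => by cases t <;> rfl

theorem pk_vr (α : M → Fm ι c.m.A) (φ : M → c.m.V) (T : Pk M lam) : pk (vr c α φ) T = pk c T := by
  cases T <;> rfl

theorem rsP_eq (c : Cfg M ι lam m) : rsP c = nem ι c.m.A (fun v => nf v • v) c.Φ :=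
  congrArg (RS.mk _ _) (funext₂ dn_eq)

namespace Ls
variable (h : Ls B X α φ)
include h

theorem gd' (j : J) : Gd B G (vr c (α j) (φ j)) := gd_vr h.gd (h.hα j) (h.hφ j)

theorem lz : Lz c.W (QP G.F c.m.p) opL X (fun _ => QP G.F c.m.p) (fun j => c.m.addC c.W (α j)) α φ :=
  lz_qp h.gd.ppS (fun j => (h.gd' j).ppS) (fun _ _ _ => rfl) (fun j => cb_sm (h.hα j).1) h.oα h.oφ

theorem lc (hd : d.OK G.F) (hX : ∃ ψ k, Ex X ψ k) :
    Lc B d X α (fun j x => c.Φ x + φ j x) fun _ => c.z :=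
  ⟨h.gd.toCO, fun j => (h.gd' j).toCO, hd, fun j => cb_sm (h.hα j).1, h.oα, hX⟩

/-- the bounded seed -/
theorem seed : RS.Lg (QP G.F c.m.p) X (fun _ => QP G.F c.m.p) α φ (rsP c)
    fun j => rsP (vr c (α j) (φ j)) := by
  simp only [rsP_eq]
  exact lg_nem contDiff_nv (fun v a b => by
    simp only [fderiv_nv, inner_sub_left, inner_sub_right, real_inner_smul_left,
      real_inner_smul_right, real_inner_comm a]
    ring) h.gd.Φ (fun j => (h.hφ j).1) h.oφ h.ub (fun _ k => k.1) (fun _ _ k => k.1) h.gd.q_nP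
    fun j => (h.gd' j).q_nP

theorem ad_lt {u : SW M} (hu : SW.OK G.F u) :
    ∀ t ∈ u.map (ltS G.F c), t.Ad (QP G.F c.m.p) fun _ : J => QP G.F c.m.p :=
  List.forall_mem_map.2 fun t ht => ad_qp (h.gd.ok_lt (hu t ht)) (h.gd.cb_lt (hu t ht))

/-- spinor densities -/
theorem den {T : Pk M lam} {u v : SW M} (hT : T.OK G.F) (hu : SW.OK G.F u) (hv : SW.OK G.F v) :
    RD.Lg X α φ ((Den.sw G.F T u v).rd c) fun j => (Den.sw G.F T u v).rd (vr c (α j) (φ j)) := by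
  simp only [rd_sw, ltS_vr, pk_vr]
  exact (h.seed.wd h.lz (h.ad_lt hu)).pair h.lz (h.seed.wd h.lz (h.ad_lt hv))
    (ad_qp (h.gd.ok_pk hT) (by rintro _ ⟨⟩; exact h.gd.cb_pk hT)) (pk_symm h.gd.ok T)

end Ls

end Crest.Agent.X212.Cyc79
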