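import Crest.Agent.X212.Ms1.Sf

/-!
# Row 212, END-S (helper79): symmetric operators of Dirac type with a bounded perturbation
-/

set_option autoImplicit false
set_option linter.unusedSectionVars false
noncomputable section
open scoped Manifold ContDiff Topology InnerProductSpace
open MeasureTheory Set Function Filter

namespace Crest.Agent.X212.Cyc79
open An An.Pre Sob92 Ell97

variable {E : Type} [NormedAddCommGroup E] [NormedSpace ℝ E] [FiniteDimensional ℝ E]
  [MeasurableSpace E] [BorelSpace E]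
  {HM : Type} [TopologicalSpace HM] {I : ModelWithCorners ℝ E HM} [I.Boundaryless]
  {Y : Type} [TopologicalSpace Y] [ChartedSpace HM Y] [IsManifold I ∞ Y] [T2Space Y]
  [MeasurableSpace Y] [BorelSpace Y] [SecondCountableTopology Y] [CompactSpace Y]
  {ι : Type} [Fintype ι] {V : Type} [NormedAddCommGroup V] [InnerProductSpace ℝ V]
  [FiniteDimensional ℝ V] {F : Fr I Y ι} {p : Y → V →L[ℝ] V} {T : (Y → V) → Y → V}

variable (F p T) in
/-- a symmetric operator of Dirac type plus a term that is bounded on all levels -/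
structure ES : Prop where
  dim : Module.finrank ℝ E ≤ 3
  ex : ∃ σ B C a, (⟨p, p, σ, B⟩ : Op Y ι V V).Good F C ∧ (⟨p, p, σ, B⟩ : Op Y ι V V).CliffL F ∧
    Ms1.Sy F p B σ ∧ (∀ k, F.Rep (F.lift k k p p a) a) ∧ ∀ u : Sec I p, T u.1 = F.op σ B u.1 + a u.1
  sym : ∀ u v : Sec I p, F.ip 0 (T u.1) v.1 = F.ip 0 u.1 (T v.1)

theorem cliff_of_sy {σ : ι → Y → V →L[ℝ] V} {B : Y → V →L[ℝ] V} {C : ℕ → ℝ}
    (g : (⟨p, p, σ, B⟩ : Op Y ι V V).Good F C) (c : (⟨p, p, σ, B⟩ : Op Y ι V V).CliffL F)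
    (h : Ms1.Sy F p B σ) : (⟨p, p, σ, B⟩ : Op Y ι V V).Cliff F := by
  have t : ∀ a y, Op.tr (σ a y) = -σ a y := fun a y => ContinuousLinearMap.ext fun v =>
    ext_inner_right ℝ fun w => by
      rw [tr_inner, neg_apply, inner_neg_left, Ms1.skew_of_sy g h, neg_neg]
  exact ⟨c, fun a b x v w => by simpa [Op.adj, t] using c a b x v w⟩

namespace ES
variable (h : ES F p T)
include h

theorem tame : ∃ C, F.Tame C := Cht98.exists_tame F (h.dim.trans (by norm_num))

theorem spl : ∃ σ B C a, (⟨p, p, σ, B⟩ : Op Y ι V V).Good F C ∧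
    (⟨p, p, σ, B⟩ : Op Y ι V V).CliffL F ∧ Ms1.Sy F p B σ ∧ (∀ k, F.Rep (F.lift k k p p a) a) ∧
    ∀ k, F.Rep ((⟨p, p, σ, B⟩ : Op Y ι V V).H F k + F.lift k k p p a ∘L F.incl (k + 1) k p) T := by
  obtain ⟨σ, B, C, a, g, c, s, r, e⟩ := h.ex
  exact ⟨σ, B, C, a, g, c, s, r, fun k => RepT_congr
    (RepT_add (rep_OpH g k).1 (RepT_comp (r k) (rep_incl k.le_succ))) fun u => (e u).symm⟩

theorem rep (k : ℕ) : F.Rep (F.lift (k + 1) k p p T) T := by
  obtain ⟨σ, B, C, a, -, -, -, -, e⟩ := h.spl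
  rw [Pre.lift, (e k).liftT_eq]; exact e k

theorem fr (k : ℕ) : Fred93.Fr (F.lift (k + 1) k p p T) 0 := by
  obtain ⟨σ, B, C, a, g, c, s, -, e⟩ := h.spl
  obtain ⟨C', hF⟩ := h.tame
  obtain ⟨_, _, hs⟩ := Cyf70.exists_stp
  have f := Ell97.fr hF g (cliff_of_sy g c s)
  have z := (f 0).unique (Ms1.isSF h.dim g c s (fun _ => rfl) hs).fr
  rw [Pre.lift, (e k).liftT_eq]
  exact ((f k).cast z).add_compact ((Cht98.rellich (F := F.toPre) k.lt_succ_self).clm_comp _)

/-- the operator on smooth sections -/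
def lin : Sec I p →ₗ[ℝ] Sec I p where
  toFun u := ⟨T u.1, RepT_mem (h.rep 0) u⟩
  map_add' u v := toH_inj F 0 p (by
    rw [map_add, ← RepT_toH (h.rep 0), ← RepT_toH (h.rep 0), ← RepT_toH (h.rep 0), map_add, map_add])
  map_smul' c u := toH_inj F 0 p (by
    rw [map_smul, ← RepT_toH (h.rep 0), ← RepT_toH (h.rep 0), map_smul, map_smul]; rfl)

theorem lin_val (u : Sec I p) : (h.lin u).1 = T u.1 := rfl

theorem lift_toH (k : ℕ) (u : Sec I p) :
    F.lift (k + 1) k p p T (F.toH (k + 1) p u) = F.toH k p (h.lin u) := RepT_toH (h.rep k) u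

/-- **regularity** -/
theorem reg {k : ℕ} {x : F.H (k + 1) p} {l : ℝ} {w : Sec I p}
    (hx : F.lift (k + 1) k p p T x = l • F.incl (k + 1) k p x + F.toH k p w) :
    ∃ u : Sec I p, F.toH (k + 1) p u = x ∧ h.lin u = l • u + w := by
  obtain ⟨σ, B, C, a, g, c, -, r, e⟩ := h.spl
  obtain ⟨C', hF⟩ := h.tame
  have hx' := hx
  rw [Pre.lift, (e k).liftT_eq] at hx'
  obtain ⟨u, rfl⟩ : ∃ u : Sec I p, F.toH (k + 1) p u = x := sec_of_all hF fun j hj => by
    induction j, hj using Nat.le_induction with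
    | base => exact ⟨x, incl_self x⟩
    | succ j hj ih =>
      obtain ⟨y, rfl⟩ := ih
      have hk : k ≤ j := by omega
      obtain ⟨z, hz, -⟩ := reg_up hF g c hk (x := F.incl j (k + 1) p y)
        (w := l • y + F.toH j p w - F.lift j j p p a y) (by
          rw [map_sub, map_add, map_smul, incl_toH hk, Rep_incl (r j) (r k) hk hk,
            ← incl_incl hj k.le_succ]
          exact eq_sub_of_add_eq hx')
      exact ⟨z, hz⟩
  refine ⟨u, rfl, toH_inj F k p ?_⟩
  rw [← h.lift_toH, hx, incl_toH k.le_succ, map_add, map_smul]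

theorem symH (k : ℕ) (u v : F.H (k + 1) p) :
    ⟪F.incl k 0 p (F.lift (k + 1) k p p T u), F.incl k 0 p (F.incl (k + 1) k p v)⟫_ℝ =
      ⟪F.incl k 0 p (F.incl (k + 1) k p u), F.incl k 0 p (F.lift (k + 1) k p p T v)⟫_ℝ := by
  induction u using H_ind with
  | hP => exact isClosed_eq (by fun_prop) (by fun_prop)
  | h u =>
    induction v using H_ind with
    | hP => exact isClosed_eq (by fun_prop) (by fun_prop)
    | h v =>
      simp only [h.lift_toH, incl_toH k.le_succ, incl_toH k.zero_le, inner_toH]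
      exact h.sym u v

theorem inj_iff (k : ℕ) :
    Injective (F.lift (k + 1) k p p T) ↔ ∀ u : Sec I p, h.lin u = 0 → u = 0 := by
  refine ⟨fun i u hu => toH_inj F (k + 1) p (i ?_), fun i => (injective_iff_map_eq_zero _).2
    fun x hx => ?_⟩
  · rw [h.lift_toH, hu, map_zero, map_zero, map_zero]
  · obtain ⟨u, rfl, hu⟩ := h.reg (l := 0) (w := 0) (hx.trans (by simp))
    rw [i u (by simpa using hu), map_zero]

theorem bij_iff (k : ℕ) :
    Bijective (F.lift (k + 1) k p p T) ↔ ∀ u : Sec I p, h.lin u = 0 → u = 0 :=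
  ⟨fun b => (h.inj_iff k).1 b.1, fun i =>
    ⟨(h.inj_iff k).2 i, (h.fr k).surj_of_inj ((h.inj_iff k).2 i)⟩⟩

/-- an injective operator is onto the smooth sections -/
theorem solve (i : ∀ u : Sec I p, h.lin u = 0 → u = 0) (w : Sec I p) : ∃ u, h.lin u = w := by
  obtain ⟨x, hx⟩ := ((h.bij_iff 0).2 i).2 (F.toH 0 p w)
  obtain ⟨u, -, hu⟩ := h.reg (l := 0) (w := w) (hx.trans (by simp))
  exact ⟨u, by simpa using hu⟩

theorem sym0 (u v : Sec I p) :
    ⟪F.toH 0 p (h.lin u), F.toH 0 p v⟫_ℝ = ⟪F.toH 0 p u, F.toH 0 p (h.lin v)⟫_ℝ := by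
  rw [inner_toH, inner_toH]; exact h.sym u v

end ES

end Crest.Agent.X212.Cyc79
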