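import Crest.Agent.X212.Dl42.Main
import Crest.Agent.X212.Pb50.Cyl

/-!
# Row 212, END-S (helper79): the Hessian of the functional on the cross-section
-/

set_option autoImplicit false
set_option linter.unusedSectionVars false
noncomputable section
open scoped Manifold ContDiff Topology InnerProductSpace
open Finset Filter MeasureTheory

namespace Crest.Agent.X212.Cyc79
open An Sob92 Wz78 Cyf70 Dl23 Op78 Dl42
open Sw (Bg F2 En3)
open Sw.En3 (sl fz gr ip nm hol gn L Crit Nd)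

variable {κ lam ν : Type} [Fintype κ] [Fintype lam] [Fintype ν] [DecidableEq ν]
  {e : En3 κ lam ν} {v u : e.YC} {χ : e.Y.M → ℝ}

/-- the Hessian -/
def Hes (v u : e.YC) : e.YC :=
  ⟨fun k y => sd e u.a k y / 2 - e.w / 4 * (qq e k u.Φ v.Φ y + qq e k v.Φ u.Φ y) +
      2 * (deriv (deriv e.f) (hol v) * hol u) * e.ζ y (none, some k),
    fun y => D0 e u.Φ y - ∑ k, (u.a k y • e.m.J (τ e k y (v.Φ y)) +
      v.a k y • e.m.J (τ e k y (u.Φ y))) - (e.b (nm v) • u.Φ y +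
        (deriv e.b (nm v) * ∫ z, 2 * ⟪v.Φ z, u.Φ z⟫_ℝ ∂e.D.F.μ) • v.Φ y)⟩

/-- the infinitesimal gauge action -/
def gd (v : e.YC) (χ : e.Y.M → ℝ) : e.YC :=
  ⟨fun k y => -e.D.F.D k χ y, fun y => χ y • e.m.J (v.Φ y)⟩

theorem fam_vr {N : Type} [NormedAddCommGroup N] [NormedSpace ℝ N] {f g : e.Y.M → N}
    (hf : Sm e.Y.I f) (hg : Sm e.Y.I g) : Fam e.Y.I (fun s y => f y + s • g y) fun _ => g :=
  ⟨(sm_fst hf).add (fam_sc hg).sm, fun s y => ((fam_sc hg).dr s y).const_add _⟩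

theorem fy_vr (hv : Ay v) (hu : Ay u) : FY (v.vr u) fun _ => u :=
  ⟨fun k => fam_vr (hv.sa k) (hu.sa k), fam_vr hv.sΦ hu.sΦ, fun r =>
    ⟨fun k => (fam_vr (hv.sa k) (hu.sa k)).sm.sl r, (fam_vr hv.sΦ hu.sΦ).sm.sl r, fun k y => by
      simp only [En3.YC.vr, ← hv.pa k y, ← hu.pa k y, smul_eq_mul, mul_sum, mul_left_comm, mul_add,
        sum_add_distrib], fun y => by
      simp only [En3.YC.vr, map_add, map_smul, hv.pΦ, hu.pΦ]⟩⟩

theorem vr_zero (v u : e.YC) : v.vr u 0 = v := by ext <;> simp [En3.YC.vr]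

theorem ay_zero : Ay (⟨0, 0⟩ : e.YC) :=
  ⟨fun _ => contMDiff_const, contMDiff_const, fun _ _ => by simp, fun _ => map_zero _⟩

theorem sd_zero (k : κ) (y : e.Y.M) : sd e 0 k y = 0 := by
  simp [sd, st, d1, dv_zero]

theorem D0_zero (y : e.Y.M) : D0 e 0 y = 0 := by simp [D0, dop, nab, dv_zero]

theorem hol_zero (φ : e.Y.M → Eu ν) : hol (⟨0, φ⟩ : e.YC) = 0 := by simp [hol]

theorem Hs_zero (v : e.YC) : Hes v ⟨0, 0⟩ = ⟨0, 0⟩ := by
  ext <;> simp [Hes, sd_zero, D0_zero, hol_zero, qq]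

variable (he : e.OK)
include he

theorem fy_a {v u : ℝ → e.YC} (h : FY v u) (s : ℝ) (k : κ) (y : e.Y.M) :
    HasDerivAt (fun r => (gr (v r)).a k y) ((Hes (v s) (u s)).a k y) s := by
  simp only [fun r => gr_a he (h.ay r), Ga]
  have f := (((he.sf.iterate_deriv 1).differentiable (by simp) _).hasDerivAt.comp s
    ((h.hol he).int e.D.F.toPre s)).const_mul 2 |>.mul_const (e.ζ y (none, some k))
  exact (((((fam_sd he h.a k).dr s y).div_const 2).const_add _).sub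
    (((fam_qq he h.Φ h.Φ k).dr s y).const_mul _)).add f

theorem fy_Φ {v u : ℝ → e.YC} (h : FY v u) (s : ℝ) (y : e.Y.M) :
    HasDerivAt (fun r => (gr (v r)).Φ y) ((Hes (v s) (u s)).Φ y) s := by
  simp only [fun r => gr_Φ he (h.ay r), Dl42.GP]
  have f := ((he.sb.differentiable (by simp) _).hasDerivAt.comp s
    (h.nm.int e.D.F.toPre s)).smul (h.Φ.dr s y)
  exact (((fam_D0 he h.Φ).dr s y).sub ((Fam.sum fun k => (h.a k).bil
    (ContinuousLinearMap.lsmul ℝ ℝ) (fam_Jτ he h.Φ k)).dr s y)).sub f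

theorem der_a (hv : Ay v) (hu : Ay u) (k : κ) (y : e.Y.M) :
    HasDerivAt (fun r => (gr (v.vr u r)).a k y) ((Hes v u).a k y) 0 := by
  simpa only [vr_zero] using fy_a he (fy_vr hv hu) 0 k y

theorem der_Φ (hv : Ay v) (hu : Ay u) (y : e.Y.M) :
    HasDerivAt (fun r => (gr (v.vr u r)).Φ y) ((Hes v u).Φ y) 0 := by
  simpa only [vr_zero] using fy_Φ he (fy_vr hv hu) 0 y

theorem nd_iff (hv : Ay v) : Nd v ↔ ∀ u, Ay u → Hes v u = ⟨0, 0⟩ →
    ∃ χ, Sm e.Y.I χ ∧ u = gd v χ := by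
  refine ⟨fun h u hu h0 => ?_, fun h u hu h1 h2 => ?_⟩
  · obtain ⟨χ, s, h1, h2⟩ := h u hu.adm
      (fun k y => by simpa only [h0, Pi.zero_apply] using der_a he hv hu k y)
      fun y => by simpa only [h0, Pi.zero_apply] using der_Φ he hv hu y
    exact ⟨χ, s, En3.YC.ext (funext₂ h1) (funext h2)⟩
  · obtain ⟨χ, s, rfl⟩ := h u (ay_of hu) (En3.YC.ext
      (funext₂ fun k y => (der_a he hv (ay_of hu) k y).unique (h1 k y))
      (funext fun y => (der_Φ he hv (ay_of hu) y).unique (h2 y)))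
    exact ⟨χ, s, fun _ _ => rfl, fun _ => rfl⟩

theorem ppJ {y : e.Y.M} {φ : Eu ν} (h : e.cyl.pp (y, 0) φ = φ) :
    e.cyl.pp (y, 0) (e.m.J φ) = e.m.J φ :=
  (congrArg (fun T : En ν => T φ) (Pb50.Jpp he.cyl (y, 0))).symm.trans (congrArg e.m.J h)

theorem ay_gd (hv : Ay v) (hχ : Sm e.Y.I χ) : Ay (gd v χ) :=
  ⟨fun k => (e.D.F.sm_D hχ k).neg, hχ.smul fun y => SA.clm _ (hv.sΦ y), fun k y => by
    simp only [gd, smul_neg, sum_neg_distrib]; exact congrArg _ ((frm _).projD k χ y),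
    fun y => (map_smul _ _ _).trans (congrArg _ (ppJ he (hv.pΦ y)))⟩

theorem D0_J {φ : e.Y.M → Eu ν} (hφ : Sm e.Y.I φ) (hχ : Sm e.Y.I χ) (y : e.Y.M) :
    D0 e (fun y => χ y • e.m.J (φ y)) y = χ y • e.m.J (D0 e φ y)
      - ∑ k, e.D.F.D k χ y • e.m.J (τ e k y (φ y)) := by
  have sJ : Sm e.Y.I fun y => e.m.J (φ y) := fun y => SA.clm _ (hφ y)
  have n : ∀ k, nab e.Y.I e.D.F.e e.A k (fun y => e.m.J (φ y)) y =
      e.m.J (nab e.Y.I e.D.F.e e.A k φ y) := fun k => nab_map _ k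
    (congrArg (fun T : En ν => T (φ y)) (he.cyl.AJ (some k) (y, 0))).symm (hφ y)
  simp only [D0, dop, fun k => nab_smul (e := e.D.F.e) (A := e.A) k (hχ y) (sJ y), n, map_add,
    map_smul, map_neg, map_sum, ← Jτ he, ← JZ he, sum_add_distrib, smul_neg, smul_add, smul_sum,
    Pre.D_def]
  abel

/-- the Hessian along the gauge orbits -/
theorem Hs_gd (hv : Ay v) (hχ : Sm e.Y.I χ) :
    Hes v (gd v χ) = ⟨0, fun y => χ y • e.m.J ((gr v).Φ y)⟩ := by
  refine En3.YC.ext (funext₂ fun k y => ?_) (funext fun y => ?_)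
  · have e1 : sd e (gd v χ).a k y = 0 := sum_eq_zero fun i _ => sum_eq_zero fun j _ =>
      mul_eq_zero_of_right _ (by
        have := (frm e.D.F).br i j χ y (hχ y)
        simp only [d1, gd, smul_eq_mul, mul_neg, sum_neg_distrib] at this ⊢
        rw [show ∀ k, (fun y => -e.D.F.D k χ y) = -e.D.F.D k χ from fun _ => rfl,
          show ∀ k, (fun y => -e.D.F.D k χ y) = -e.D.F.D k χ from fun _ => rfl, dv_neg, dv_neg]
        simp only [Pre.D_def]
        linarith)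
    have e2 : hol (gd v χ) = 0 := by
      simp only [hol, gd, mul_neg, sum_neg_distrib, integral_neg, integral_const_mul, he.clζ χ hχ,
        mul_zero, neg_zero]
    have e3 := J_skw he (e.m.J (τ e k y (v.Φ y))) (v.Φ y)
    simp only [Hes, e1, e2, qq]
    simp only [gd, map_smul, real_inner_smul_left, real_inner_smul_right, ← Jτ he, e3,
      Pi.zero_apply]
    ring
  · have e4 : ∀ z, ⟪v.Φ z, e.m.J (v.Φ z)⟫_ℝ = 0 := fun z => by
      rw [real_inner_comm, Skew.self (J_skw he)]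
    simp only [Hes, gd, D0_J he hv.sΦ hχ, gr_Φ he hv, Dl42.GP, real_inner_smul_right, e4, mul_zero,
      integral_zero, zero_smul, add_zero, map_smul, map_sub, map_sum, ← Jτ he, neg_smul,
      sum_add_distrib, sum_neg_distrib, smul_sub, smul_sum, smul_comm (χ y)]
    abel

theorem Hs_gd0 (hv : Crit v) (hχ : Sm e.Y.I χ) : Hes v (gd v χ) = ⟨0, 0⟩ := by
  rw [Hs_gd he (ay_of hv.1) hχ]
  exact congrArg _ (funext fun y => by simp [hv.2.2 y])

end Crest.Agent.X212.Cyc79
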