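import Crest.Agent.X212.Cyc79.Ea
import Crest.Agent.X212.Cyc79.Eb
import Crest.Agent.X212.End23.Crt
import Crest.Agent.X212.Sep15.Hh

/-!
# Row 212, END-S (helper79): the extended Hessian on smooth sections
-/

set_option autoImplicit false
set_option linter.unusedSectionVars false
noncomputable section
open scoped Manifold ContDiff Topology InnerProductSpace
open Finset Filter MeasureTheory Function

namespace Crest.Agent.X212.Cyc79
open An An.Pre Sob92 End23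
open Cyf70 (cP)
open Ell97 (toH_inj)
open Dl42 (Ay ay_of)
open Wz78 (SA)
open Sw (Bg F2 En3)
open Sw.En3 (sl fz gr ip nm hol gn L Crit Nd)
open Map77 (f2 s2 i1 i2 ext2 inner2)

section abs
variable {S H : Type*} [AddCommGroup S] [Module ℝ S] [NormedAddCommGroup H] [InnerProductSpace ℝ H]

/-- a symmetric operator `T = (0, d*; d, Hess)` with `Hess ∘ d = 0` -/
structure Blk2 (j : S →ₗ[ℝ] H) (T π : S →ₗ[ℝ] S) : Prop where
  inj : Injective j
  sym : ∀ u v, ⟪j (T u), j v⟫_ℝ = ⟪j u, j (T v)⟫_ℝ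
  orth : ∀ u v, π v = 0 → ⟪j (π u), j v⟫_ℝ = 0
  idem : ∀ u, π (π u) = π u
  TT : ∀ u, π (T (T (π u))) = T (T (π u))

namespace Blk2
variable {j : S →ₗ[ℝ] H} {T π : S →ₗ[ℝ] S} (h : Blk2 j T π) {u a b : S}
include h

theorem zero (e : ⟪j u, j u⟫_ℝ = 0) : u = 0 := h.inj (by rw [inner_self_eq_zero.1 e, map_zero])

theorem ker (e : T u = 0) : T (π u) = 0 ∧ T (u - π u) = 0 := by
  have e1 : T (π u) = -T (u - π u) := by rw [map_sub, e, zero_sub, neg_neg]
  have e2 : T (π u) = 0 := h.zero (by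
    nth_rw 2 [e1]
    rw [map_neg, inner_neg_right, ← h.sym, ← h.TT, h.orth _ _ (by rw [map_sub, h.idem, sub_self]),
      neg_zero])
  exact ⟨e2, by rw [map_sub, e, e2, sub_self]⟩

theorem rng (e : T (T a) = 0) : T a = 0 := h.zero (by rw [h.sym, e, map_zero, inner_zero_right])

theorem slc (s : Surjective T) (e : π (T b) = T b) : ∃ a, b = T (π a) := by
  obtain ⟨a, rfl⟩ := s b
  have o : π (a - π a) = 0 := by rw [map_sub, h.idem, sub_self]
  refine ⟨a, sub_eq_zero.1 (h.zero ?_)⟩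
  nth_rw 1 [← map_sub]
  rw [h.sym, real_inner_comm, map_sub, map_sub, inner_sub_left, ← e, ← h.TT, h.orth _ _ o,
    h.orth _ _ o, sub_self]

end Blk2
end abs

variable {κ lam ν : Type} [Fintype κ] [Fintype lam] [Fintype ν] [DecidableEq ν]
  {e : En3 κ lam ν} {v t t' : e.YC} {χ χ' : e.Y.M → ℝ} {u : e.Y.M → End23.VV κ ν}

/-- the section of a function and a tangent vector -/
def mks (χ : e.Y.M → ℝ) (t : e.YC) (y : e.Y.M) : End23.VV κ ν :=
  i1 _ _ (WithLp.toLp 2 fun o : Option κ => o.elim (χ y) fun k => t.a k y) + i2 _ _ (dl e • t.Φ y)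

/-- the function of a section -/
def fn (u : e.Y.M → End23.VV κ ν) (y : e.Y.M) : ℝ := f2 _ _ (u y) none

/-- the adjoint of the infinitesimal gauge action -/
def dst (v t : e.YC) (y : e.Y.M) : ℝ := dvg e t.a y + dl e * ⟪e.m.J (v.Φ y), dl e • t.Φ y⟫_ℝ

/-- sum of tangent vectors -/
def ya (t t' : e.YC) : e.YC := ⟨fun k y => t.a k y + t'.a k y, fun y => t.Φ y + t'.Φ y⟩

@[simp] theorem mk_none (y : e.Y.M) : f2 _ _ (mks χ t y) none = χ y := by simp [mks]

@[simp] theorem mk_some (y : e.Y.M) (k : κ) : f2 _ _ (mks χ t y) (some k) = t.a k y := by simp [mks]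

@[simp] theorem mk_s2 (y : e.Y.M) : s2 _ _ (mks χ t y) = dl e • t.Φ y := by simp [mks]

theorem vv_ext {a b : End23.VV κ ν} (h0 : f2 _ _ a none = f2 _ _ b none)
    (h1 : ∀ k, f2 _ _ a (some k) = f2 _ _ b (some k)) (h2 : s2 _ _ a = s2 _ _ b) : a = b :=
  ext2 (PiLp.ext fun o => by cases o; exacts [h0, h1 _]) h2

@[simp] theorem fn_mk : fn (mks χ t) = χ := funext mk_none

theorem mk_zero : mks 0 (⟨0, 0⟩ : e.YC) = 0 :=
  funext fun y => vv_ext (by simp) (by simp) (by simp)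

theorem ya_zero : ya t ⟨0, 0⟩ = t := by ext <;> simp [ya]

theorem zero_ya : ya ⟨0, 0⟩ t = t := by ext <;> simp [ya]

theorem gd_zero : gd v 0 = ⟨0, 0⟩ := by ext <;> simp [gd, Pre.D_def, dv_zero]

theorem dst_zero : dst v ⟨0, 0⟩ = 0 := by ext; simp [dst, dvg, Pre.D_def, dv_zero]

theorem pV_none (y : e.Y.M) (a : End23.VV κ ν) : f2 _ _ (pV e y a) none = f2 _ _ a none := by
  simp [pV, Bg.p1, En3.cyl, Nd18.YD.B, cP]

theorem pV_some (y : e.Y.M) (a : End23.VV κ ν) (k : κ) :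
    f2 _ _ (pV e y a) (some k) = ∑ j, e.D.F.P k j y • f2 _ _ a (some j) := by
  simp [pV, Bg.p1, En3.cyl, Nd18.YD.B, cP]

theorem pV_s2 (y : e.Y.M) (a : End23.VV κ ν) : s2 _ _ (pV e y a) = e.cyl.pp (y, 0) (s2 _ _ a) := by
  simp [pV]

theorem sm_mk (hχ : Sm e.Y.I χ) (ht : Ay t) : Sm e.Y.I (mks χ t) := fun y =>
  (SA.clm _ ((PiLp.continuousLinearEquiv 2 ℝ fun _ : Option κ => ℝ).symm.contDiff.contMDiff.contMDiffAt.comp
    y (contMDiffAt_pi_space.2 fun o => by cases o; exacts [hχ y, ht.sa _ y]))).add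
    (SA.clm _ (SA.smul contMDiffAt_const (ht.sΦ y)))

theorem mk_mem (hχ : Sm e.Y.I χ) (ht : Ay t) : mks χ t ∈ Sec e.Y.I (pV e) :=
  ⟨sm_mk hχ ht, HasCompactSupport.of_compactSpace _, fun y => vv_ext (pV_none y _)
    (fun k => by simp only [pV_some, mk_some, ht.pa]) (by rw [pV_s2, mk_s2, map_smul, ht.pΦ])⟩

theorem sm_fn (hu : Sm e.Y.I u) : Sm e.Y.I (fn u) := fun y => SA.comp (SA.clm _ (hu y)) none

theorem ay_tg (hu : u ∈ Sec e.Y.I (pV e)) : Ay (tg e u) :=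
  ⟨fun k y => SA.comp (SA.clm _ (hu.1 y)) (some k),
    fun y => SA.smul contMDiffAt_const (SA.clm _ (hu.1 y)),
    fun k y => (pV_some y _ k).symm.trans (by rw [hu.2.2]; rfl),
    fun y => (map_smul _ _ _).trans (congrArg _ ((pV_s2 y _).symm.trans (by rw [hu.2.2])))⟩

/-- the function part -/
def π0 (e : En3 κ lam ν) : Sec e.Y.I (pV e) →ₗ[ℝ] Sec e.Y.I (pV e) where
  toFun u := ⟨mks (fn u.1) ⟨0, 0⟩, mk_mem (sm_fn u.2.1) ay_zero⟩
  map_add' _ _ := Subtype.ext (funext fun y => vv_ext (by simp [fn]) (by simp) (by simp))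
  map_smul' _ _ := Subtype.ext (funext fun y => vv_ext (by simp [fn]) (by simp) (by simp))

theorem π0_val (u : Sec e.Y.I (pV e)) : (π0 e u).1 = mks (fn u.1) ⟨0, 0⟩ := rfl

theorem dl_ne (hw : 0 < e.w) : dl e ≠ 0 := (Real.sqrt_pos.2 (half_pos hw)).ne'

section w
variable (hw : 0 < e.w)
include hw

theorem tg_mk : tg e (mks χ t) = t := by
  ext <;> simp [tg, dl_ne hw]

theorem mk_tg (u : e.Y.M → End23.VV κ ν) : mks (fn u) (tg e u) = u :=
  funext fun y => vv_ext (mk_none y) (mk_some y) (by simp [tg, dl_ne hw])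

theorem mk_inj (h : mks χ t = mks χ' t') : χ = χ' ∧ t = t' :=
  ⟨fn_mk.symm.trans ((congrArg fn h).trans fn_mk),
    (tg_mk hw).symm.trans ((congrArg (tg e) h).trans (tg_mk hw))⟩

theorem sub_π0 (u : Sec e.Y.I (pV e)) : (u - π0 e u).1 = mks 0 (tg e u.1) :=
  funext fun y => vv_ext (by simp [π0_val, fn]) (by simp [π0_val, tg])
    (by simp [π0_val, tg, dl_ne hw])

variable (he : e.OK)
include he

theorem hs_mk (hv : Ay v) (ht : Ay t) :
    hs v (mks χ t) = mks (dst v t) (ya (Hes v t) (gd v χ)) := by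
  funext y
  simp only [hs, tg_mk hw, fun k => (der_a he hv ht k y).deriv, (der_Φ he hv ht y).deriv, mk_none,
    mk_s2]
  rfl

end w

variable (hS : SfStmt κ lam ν) (hA : AhStmt κ lam ν) (he : e.OK) (hw : 0 < e.w)
include hS hA he hw

theorem rep_TT (hv : e.cyl.Adm (fz v)) : e.D.F.Rep (TT v) (hs v) := by
  obtain ⟨⟨σ, B, C, g, -, -, h⟩, -⟩ := hS e he
  obtain ⟨a, r, -⟩ := hA e he hw v hv
  have r0 : e.D.F.Rep (L0 e) (hs0 e) := by
    have := RepT_congr (rep_OpH g 0).1 h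
    rw [show L0 e = _ from this.liftT_eq]
    exact this
  exact RepT_congr (RepT_add r0 (RepT_comp r (rep_incl zero_le_one))) fun u =>
    funext fun y => (eq_add_of_sub_eq' (a u.1 u.2 y)).symm

theorem TT_eq (hv : e.cyl.Adm (fz v)) : e.D.F.lift 1 0 (pV e) (pV e) (hs v) = TT v :=
  (rep_TT hS hA he hw hv).liftT_eq

/-- the extended Hessian is symmetric and elliptic -/
theorem es (hv : e.cyl.Adm (fz v)) : ES e.D.F (pV e) (hs v) := by
  have r := rep_TT hS hA he hw hv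
  obtain ⟨⟨σ, B, C, g, c, s, h⟩, sf⟩ := hS e he
  obtain ⟨a, -, sy, r', -⟩ := hA e he hw v hv
  refine ⟨e.Y.dim.le, ⟨σ, B, C, av v, g, c, s, r', fun u => funext fun y => ?_⟩, fun u u' => ?_⟩
  · rw [h]; exact eq_add_of_sub_eq' (a u.1 u.2 y)
  · have := sf.symOp sy (e.D.F.toH 1 _ u) (e.D.F.toH 1 _ u')
    rwa [RepT_toH r, RepT_toH r, incl_toH zero_le_one, incl_toH zero_le_one, inner_toH,
      inner_toH] at this

theorem lin_mk (hv : e.cyl.Adm (fz v)) (hχ : Sm e.Y.I χ) (ht : Ay t) :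
    ((es hS hA he hw hv).lin ⟨_, mk_mem hχ ht⟩).1 = mks (dst v t) (ya (Hes v t) (gd v χ)) :=
  hs_mk hw he (ay_of hv) ht

theorem lin_π0 (hv : e.cyl.Adm (fz v)) (u : Sec e.Y.I (pV e)) : (es hS hA he hw hv).lin (π0 e u) =
    ⟨_, mk_mem (χ := 0) contMDiff_const (ay_gd he (ay_of hv) (sm_fn u.2.1))⟩ :=
  Subtype.ext ((hs_mk hw he (ay_of hv) ay_zero).trans (by rw [dst_zero, Hs_zero, zero_ya]))

theorem blk2 (hv : Crit v) : Blk2 (e.D.F.toH 0 (pV e)) (es hS hA he hw hv.1).lin (π0 e) where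
  inj := toH_inj _ _ _
  sym := (es hS hA he hw hv.1).sym0
  orth u u' h := by
    have h0 : fn u'.1 = 0 := (mk_inj hw ((congrArg Subtype.val h).trans mk_zero.symm)).1
    rw [inner_toH]
    refine (congrArg (integral e.D.F.μ) (funext fun y => ?_)).trans (integral_zero _ _)
    rw [inner2, PiLp.inner_apply, Fintype.sum_option, π0_val,
      show f2 _ _ (u'.1 y) none = 0 from congrFun h0 y]
    simp
  idem u := Subtype.ext (by rw [π0_val, π0_val, fn_mk])
  TT u := Subtype.ext (by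
    rw [π0_val, lin_π0 hS hA he hw hv.1, lin_mk hS hA he hw hv.1 (χ := 0) contMDiff_const
      (ay_gd he (ay_of hv.1) (sm_fn u.2.1)), fn_mk, Hs_gd0 he hv (sm_fn u.2.1), gd_zero, ya_zero])

end Crest.Agent.X212.Cyc79
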