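import Crest.Agent.X212.Cyc79.Ec

/-!
# Row 212, ES-BIJ (helper79): nondegeneracy
-/

set_option autoImplicit false
set_option linter.unusedSectionVars false
noncomputable section
open scoped Manifold ContDiff Topology InnerProductSpace
open Finset Filter MeasureTheory Function

namespace Crest.Agent.X212.Cyc79
open An An.Pre Sob92 End23
open Cyf70 (D_none_fst D_some_fst sm_fst)
open Dl42 (Ay ay_of GP D0 τ qq sd)
open Wz78 (SA)
open Sw (Bg F2 En3 Gau)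
open Sw.En3 (sl fz gr ip nm hol gn L Crit Nd Eqv)
open Pb50 (gau_fst LA LG gr_act th)
open Eqv71 (cs_mul cs_one)

variable {κ lam ν : Type} [Fintype κ] [Fintype lam] [Fintype ν] [DecidableEq ν]
  {e : En3 κ lam ν} {v v' t θ : e.YC} {χ : e.Y.M → ℝ} {φ : e.Y.M → Eu ν} {g : e.Y.M → ℂ} {l : ℝ}

theorem Ay.set (hv : Ay v) (ht : Ay t) : Ay (⟨v.a, t.Φ⟩ : e.YC) := ⟨hv.sa, ht.sΦ, hv.pa, ht.pΦ⟩

variable (he : e.OK)
include he

theorem Jsq : e.m.J * e.m.J = -1 := he.cyl.m.Jsq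

theorem J_eq_zero {a : Eu ν} (h : e.m.J a = 0) : a = 0 := by
  have := congrArg (fun T : En ν => T a) he.cyl.m.Jsq
  change e.m.J (e.m.J a) = -a at this
  rw [h, map_zero] at this
  exact neg_eq_zero.1 this.symm

theorem gd_inj (hχ : Sm e.Y.I χ) (hi : ∃ y, v.Φ y ≠ 0) (h : gd v χ = ⟨0, 0⟩) : χ = 0 := by
  obtain ⟨y, hy⟩ := hi
  have h1 : χ y • e.m.J (v.Φ y) = 0 := congrArg (fun t : e.YC => t.Φ y) h
  funext z
  rw [Sep15.S.const_of_D e.D.F.toPre hχ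
    (fun k x => neg_eq_zero.1 (congrArg (fun t : e.YC => t.a k x) h)) z y]
  exact (smul_eq_zero.1 h1).resolve_right fun h => hy (J_eq_zero he h)

theorem dr_eq (hv : Ay v) (y : e.Y.M) : dr v y = GP v y := by
  have h := Dl42.gr_Φ he hv y
  exact sub_left_injective h

theorem Hs_a (h0 : θ.Φ = 0) (t : e.YC) (φ : e.Y.M → Eu ν) :
    (Hes θ ⟨t.a, φ⟩).a = (Hes θ t).a := by
  ext k y; simp [Hes, h0, qq, hol]

theorem Hs_Φ (hθ : Ay θ) (h0 : θ.Φ = 0) (ht : Ay t) (y : e.Y.M) :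
    (Hes θ t).Φ y = dr (⟨θ.a, t.Φ⟩ : e.YC) y - e.b 0 • t.Φ y := by
  rw [dr_eq he (Ay.set hθ ht)]
  simp [Hes, h0, GP, nm]

theorem ndF_iff (hθ : Ay θ) : NdF θ ↔ ∀ t, Ay t → t.Φ = 0 → (Hes θ t).a = 0 →
    ∃ χ, Sm e.Y.I χ ∧ ∀ k y, t.a k y = -e.D.F.D k χ y := by
  refine ⟨fun h t ht h0 h1 => ?_, fun h a ha h1 => h ⟨a, 0⟩ (ay_of ha) rfl
    (funext₂ fun k y => (der_a he hθ (ay_of ha) k y).unique (h1 k y))⟩
  obtain ⟨a, φ⟩ := t
  obtain rfl : φ = 0 := h0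
  exact h a ht.adm fun k y => by simpa only [h1, Pi.zero_apply] using der_a he hθ ht k y

theorem bij_red (hθ : Red θ) : Nd θ ↔ NdF θ ∧ e.b 0 ∉ spec θ := by
  have A := ay_of hθ.1.1
  rw [nd_iff he A, ndF_iff he A]
  refine ⟨fun h => ⟨fun t ht h0 h1 => ?_, fun ⟨φ, h0, h1⟩ => h0 ?_⟩, fun h t ht h0 => ?_⟩
  · obtain ⟨χ, s, rfl⟩ := h t ht (En3.YC.ext h1 (funext fun y => by
      simp [Hes, h0, hθ.2, D0_zero]))
    exact ⟨χ, s, fun _ _ => rfl⟩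
  · have B : Ay (⟨0, φ⟩ : e.YC) := Ay.set ay_zero (ay_of h1.1)
    obtain ⟨χ, -, h2⟩ := h _ B (En3.YC.ext
      ((Hs_a he hθ.2 ⟨0, 0⟩ φ).trans (congrArg En3.YC.a (Hs_zero θ)))
      (funext fun y => (Hs_Φ he A hθ.2 B y).trans (sub_eq_zero.2 (h1.2 y))))
    exact (congrArg En3.YC.Φ h2).trans (funext fun y => by simp [gd, hθ.2])
  · obtain ⟨χ, s, h1⟩ := h.1 ⟨t.a, 0⟩ (Ay.set ht ay_zero) rfl
      ((Hs_a he hθ.2 t 0).trans (congrArg En3.YC.a h0))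
    refine ⟨χ, s, En3.YC.ext (funext₂ h1) ?_⟩
    have : t.Φ = 0 := by_contra fun h2 => h.2 ⟨t.Φ, h2, (Ay.set A ht).adm, fun y => sub_eq_zero.1
      ((Hs_Φ he A hθ.2 ht y).symm.trans (congrArg (fun t : e.YC => t.Φ y) h0))⟩
    exact this.trans (funext fun y => by simp [gd, hθ.2])

omit he in
theorem act_iff (hg : Sm e.Y.I g) : fz v' = e.cyl.act (fun x => g x.1) (fz v) ↔
    (∀ k y, v'.a k y = v.a k y - lg e g k y) ∧ ∀ y, v'.Φ y = cs e.m.J (g y) (v.Φ y) := by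
  have h1 := Pb50.sl_act (fz v) (u := fun x => g x.1) (s := 0) fun y => sm_fst hg (y, 0)
  have h2 : ∀ k y, (sl (e.cyl.act (fun x => g x.1) (fz v)) 0).a k y = v.a k y - lg e g k y :=
    fun k y => congrArg (fun t : ℂ => v.a k y - (star (g y) * t).im)
      (congrFun (D_some_fst e.D.F.toPre hg k) (y, 0))
  refine ⟨fun h => ⟨fun k y => ?_, fun y => congrArg (fun c : e.ZC => c.Φ (y, 0)) h⟩,
    fun h => Eq.trans (congrArg fz ?_) h1⟩
  · rw [← h2, ← h]; rfl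
  · exact En3.YC.ext (funext₂ fun k y => (h.1 k y).trans (h2 k y).symm) (funext h.2)

theorem cs_star (hg : Gau e.Y.I g) (y : e.Y.M) (a : Eu ν) :
    cs e.m.J (g y) (cs e.m.J (star (g y)) a) = a := by
  rw [cs_mul (Jsq he), mul_comm, Pb50.star_mul_one (hg.2 y), cs_one]

theorem star_cs (hg : Gau e.Y.I g) (y : e.Y.M) (a : Eu ν) :
    cs e.m.J (star (g y)) (cs e.m.J (g y) a) = a := by
  rw [cs_mul (Jsq he), Pb50.star_mul_one (hg.2 y), cs_one]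

omit he in
theorem gau_star (hg : Gau e.Y.I g) : Gau e.Y.I fun y => star (g y) :=
  ⟨fun y => Pb50.sa_star (hg.1 y), fun y => (norm_star _).trans (hg.2 y)⟩

theorem eqv_symm (h : Eqv v v') : Eqv v' v := by
  obtain ⟨g, hg, h⟩ := h
  obtain ⟨h1, h2⟩ := (act_iff hg.1).1 h
  refine ⟨_, gau_star hg, (act_iff (gau_star hg).1).2 ⟨fun k y => ?_, fun y => ?_⟩⟩
  · rw [h1, show lg e (fun y => star (g y)) k y = -lg e g k y from
      Pb50.th_star e.D.F.toPre (hg.1 y) k]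
    ring
  · rw [h2, star_cs he hg]

theorem ay_cs (ht : Ay t) (hg : Sm e.Y.I g) :
    Ay (⟨t.a, fun y => cs e.m.J (g y) (t.Φ y)⟩ : e.YC) :=
  ⟨ht.sa, fun y => SA.app (SA.clm (Pb50.cB e.m.J) (hg y)) (ht.sΦ y), ht.pa, fun y =>
    (Pb50.cs_comm (Pb50.Jpp he.cyl (y, 0)) _ _).trans (congrArg _ (ht.pΦ y))⟩

theorem nd_eqv (hv : e.cyl.Adm (fz v)) (h : Eqv v v') (hn : Nd v) : Nd v' := by
  obtain ⟨g, hg, h⟩ := h
  obtain ⟨h1, h2⟩ := (act_iff hg.1).1 h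
  intro u hu d1 d2
  have U := ay_cs he (ay_of hu) (gau_star hg).1
  set u₀ : e.YC := ⟨u.a, fun y => cs e.m.J (star (g y)) (u.Φ y)⟩
  have k := fun r => gr_act he (v' := v'.vr u r) ((fy_vr (ay_of hv) U).ay r).adm hg
    ((act_iff hg.1).2 ⟨fun k y => by simp only [En3.YC.vr, h1, u₀]; ring, fun y => by
      simp only [En3.YC.vr, h2, u₀, ← Pb50.cB_apply, map_add, map_smul]
      simp only [Pb50.cB_apply, cs_star he hg]⟩)
  obtain ⟨χ, s, e1, e2⟩ := hn u₀ U.adm (fun j y => by simpa only [(k _).1] using d1 j y) fun y => by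
    simpa only [comp_def, (k _).2, map_zero, Pb50.cB_apply, star_cs he hg] using
      (Pb50.cB e.m.J (star (g y))).hasFDerivAt.comp_hasDerivAt 0 (d2 y)
  refine ⟨χ, s, e1, fun y => ?_⟩
  rw [← cs_star he hg y (u.Φ y), show cs e.m.J (star (g y)) (u.Φ y) = _ from e2 y, h2,
    Pb50.cs_comm rfl, ← Pb50.cB_apply, map_smul, Pb50.cB_apply]

theorem eg_act (hg : Gau e.Y.I g) (h : fz v' = e.cyl.act (fun x => g x.1) (fz v))
    (hφ : Eg v l φ) : Eg v' l fun y => cs e.m.J (g y) (φ y) := by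
  have k : fz (⟨v'.a, fun y => cs e.m.J (g y) (φ y)⟩ : e.YC) =
      e.cyl.act (fun x => g x.1) (fz ⟨v.a, φ⟩) :=
    (act_iff hg.1).2 ⟨((act_iff hg.1).1 h).1, fun _ => rfl⟩
  refine ⟨Pb50.Eqv.adm he hφ.1 ⟨g, hg, k⟩, fun y => ?_⟩
  have h2 := Pb50.cs_comm (Pb50.Jρ he.cyl none (y, 0)) (g y) (e.cyl.eD (fz ⟨v.a, φ⟩) (y, 0))
  change _ = l • Pb50.cB e.m.J (g y) (φ y)
  rw [dr, k, Pb50.eD_act he.cyl (.of_adm hφ.1 _) (LG.of_gau (gau_fst hg) _), ← map_smul, ← hφ.2, dr,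
    map_neg]
  exact congrArg Neg.neg h2

theorem cs_ne (hg : Gau e.Y.I g) (h : φ ≠ 0) : (fun y => cs e.m.J (g y) (φ y)) ≠ 0 := fun h0 =>
  h (funext fun y => by
    rw [← star_cs he hg y (φ y), show cs e.m.J (g y) (φ y) = 0 from congrFun h0 y]; simp [cs])

theorem spec_sub (h : Eqv v v') : spec v ⊆ spec v' := fun _ ⟨_, h0, h1⟩ =>
  let ⟨_, hg, h⟩ := h; ⟨_, cs_ne he hg h0, eg_act he hg h h1⟩

theorem smp_eqv (h : Eqv v v') (hs : Smp v l) : Smp v' l := fun φ φ' h0 h1 h2 => by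
  obtain ⟨g, hg, h⟩ := eqv_symm he h
  obtain ⟨z, hz⟩ := hs _ _ (cs_ne he hg h0) (eg_act he hg h h1) (eg_act he hg h h2)
  refine ⟨z, fun y => ?_⟩
  rw [← star_cs he hg y (φ' y), hz, cs_mul (Jsq he), cs_mul (Jsq he), mul_right_comm,
    Pb50.star_mul_one (hg.2 y), one_mul]

omit he
variable (hS : SfStmt κ lam ν) (hA : AhStmt κ lam ν)
include hS hA

theorem bij_irr (he : e.OK) (hw : 0 < e.w) (hv : Crit v) (hi : ∃ y, v.Φ y ≠ 0) :
    Nd v ↔ Bijective (TT v) := by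
  have A := ay_of hv.1
  have B := blk2 hS hA he hw hv
  rw [nd_iff he A, ← TT_eq hS hA he hw hv.1, (es hS hA he hw hv.1).bij_iff 0]
  refine ⟨fun h u hu => ?_, fun h t ht h0 => ?_⟩
  · obtain ⟨h1, h2⟩ := B.ker hu
    rw [lin_π0 hS hA he hw hv.1] at h1
    have h3 := gd_inj he (sm_fn u.2.1) hi
      (mk_inj hw ((congrArg Subtype.val h1).trans mk_zero.symm)).2
    have h4 := (hs_mk hw he A (χ := 0) (ay_tg u.2)).symm.trans
      ((congrArg (hs v) (sub_π0 hw u).symm).trans ((congrArg Subtype.val h2).trans mk_zero.symm))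
    obtain ⟨χ, s, h5⟩ := h _ (ay_tg u.2) (by simpa only [gd_zero, ya_zero] using (mk_inj hw h4).2)
    have h6 : u = (es hS hA he hw hv.1).lin (π0 e ⟨_, mk_mem s ay_zero⟩) := by
      rw [lin_π0 hS hA he hw hv.1]
      refine Subtype.ext ((mk_tg hw u.1).symm.trans ?_)
      simp only [h3, h5, fn_mk]
    rw [h6] at hu ⊢
    exact B.rng hu
  · obtain ⟨a, ha⟩ := B.slc (b := ⟨_, mk_mem (χ := 0) contMDiff_const ht⟩)
      ((es hS hA he hw hv.1).solve h) (Subtype.ext (by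
        rw [π0_val, lin_mk hS hA he hw hv.1 (χ := 0) contMDiff_const ht, fn_mk, h0, gd_zero,
          ya_zero]))
    rw [lin_π0 hS hA he hw hv.1] at ha
    exact ⟨_, sm_fn a.2.1, (mk_inj hw (congrArg Subtype.val ha)).2⟩

/-- **ES-BIJ** -/
theorem bijStmt : BijStmt κ lam ν where
  irr _ he hw _ hv hi := bij_irr hS hA he hw hv hi
  red _ he _ _ hθ := bij_red he hθ
  eqv _ he _ _ hv h := ⟨nd_eqv he hv.1 h, (spec_sub he (eqv_symm he h)).antisymm (spec_sub he h),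
    fun _ => smp_eqv he h⟩

end Crest.Agent.X212.Cyc79
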