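import Crest.Agent.X212.Cyc79.Ed

/-!
# Row 212, ES-DAT (helper79): the linear data at a reducible point
-/

set_option autoImplicit false
set_option linter.unusedSectionVars false
noncomputable section
open scoped Manifold ContDiff Topology InnerProductSpace
open Finset Filter MeasureTheory Function

namespace Crest.Agent.X212.Cyc79
open An An.Pre Sob92 End23
open Ell97 (toH_inj incl_inj)

section gen
variable {E : Type} [NormedAddCommGroup E] [NormedSpace ℝ E] [FiniteDimensional ℝ E]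
  [MeasurableSpace E] [BorelSpace E]
  {HM : Type} [TopologicalSpace HM] {I : ModelWithCorners ℝ E HM} [I.Boundaryless]
  {Y : Type} [TopologicalSpace Y] [ChartedSpace HM Y] [IsManifold I ∞ Y] [T2Space Y]
  [MeasurableSpace Y] [BorelSpace Y] [SecondCountableTopology Y] [CompactSpace Y]
  {ι : Type} [Fintype ι] {V : Type} [NormedAddCommGroup V] [InnerProductSpace ℝ V]
  [FiniteDimensional ℝ V] {F : Fr I Y ι} {p : Y → V →L[ℝ] V} {T : (Y → V) → Y → V}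
  {P J : V →L[ℝ] V} (h : ES F p T) (mP : Maps p p fun _ => P)
include h mP

omit h in
theorem mul_adj {Q : V →L[ℝ] V} (mQ : Maps p p fun _ => Q) (s : ∀ a b, ⟪P a, b⟫_ℝ = ⟪a, Q b⟫_ℝ)
    (k : ℕ) (x y : F.H k p) : ⟪F.incl k 0 p (F.mulH k p p (fun _ => P) x), F.incl k 0 p y⟫_ℝ =
      ⟪F.incl k 0 p x, F.incl k 0 p (F.mulH k p p (fun _ => Q) y)⟫_ℝ := by
  induction x, y using H_ind₂ with
  | hP => exact isClosed_eq (by fun_prop) (by fun_prop)
  | h u v =>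
    simp only [RepT_toH (rep_mulH (Cb_const _) mP), RepT_toH (rep_mulH (Cb_const _) mQ),
      incl_toH k.zero_le, inner_toH, Pre.ip, s]

theorem ES.comm (e : ∀ u : Sec I p, T (fun y => P (u.1 y)) = fun y => P (T u.1 y)) (k : ℕ)
    (x : F.H (k + 1) p) : F.lift (k + 1) k p p T (F.mulH (k + 1) p p (fun _ => P) x) =
      F.mulH k p p (fun _ => P) (F.lift (k + 1) k p p T x) :=
  DFunLike.congr_fun (RepT_eq (RepT_comp (h.rep k) (rep_mulH (Cb_const _) mP))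
    (RepT_comp (rep_mulH (Cb_const _) mP) (h.rep k)) e) x

theorem ES.eig (k : ℕ) (l : ℝ) (x : F.H (k + 1) p) : x ∈ Rad96.Eig (F.incl (k + 1) k p)
    (F.lift (k + 1) k p p T) (F.mulH (k + 1) p p fun _ => P) l ↔ ∃ u : Sec I p,
      (∀ y, P (u.1 y) = u.1 y) ∧ T u.1 = l • u.1 ∧ x = F.toH (k + 1) p u := by
  rw [Rad96.mem_Eig]
  refine ⟨fun ⟨h1, h2⟩ => ?_, ?_⟩
  · obtain ⟨u, rfl, hu⟩ := h.reg (w := 0) (h2.trans (by rw [map_zero, add_zero]))
    rw [RepT_toH (rep_mulH (Cb_const _) mP)] at h1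
    exact ⟨u, congrFun (congrArg Subtype.val (toH_inj F _ _ h1)),
      congrArg Subtype.val (hu.trans (add_zero _)), rfl⟩
  · rintro ⟨u, h1, h2, rfl⟩
    exact ⟨RepT_toH' (rep_mulH (Cb_const _) mP) u u (funext h1), by
      rw [h.lift_toH, incl_toH k.le_succ, ← map_smul]; exact congrArg _ (Subtype.ext h2)⟩

theorem ES.dat (mJ : Maps p p fun _ => J) (sP : ∀ a b, ⟪P a, b⟫_ℝ = ⟪a, P b⟫_ℝ)
    (sJ : ∀ a b, ⟪J a, b⟫_ℝ = -⟪a, J b⟫_ℝ) (PJ : ∀ a, P (J a) = J a) (JJ : ∀ a, J (J a) = -P a)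
    (TP : ∀ u : Sec I p, T (fun y => P (u.1 y)) = fun y => P (T u.1 y))
    (TJ : ∀ u : Sec I p, T (fun y => J (u.1 y)) = fun y => J (T u.1 y)) {c : Sec I p}
    (Pc : ∀ y, P (c.1 y) = 0) (Tc : T c.1 = 0) (nc : F.ip 0 c.1 c.1 = 1)
    (fr : ∀ u : Sec I p, (∀ y, P (u.1 y) = 0) → T u.1 = 0 → ∃ s : ℝ, u = s • c) (k : ℕ) :
    Rad96.Dat (F.incl (k + 1) k p) (F.lift (k + 1) k p p T) (F.incl k 0 p)
      (F.mulH (k + 1) p p fun _ => P) (F.mulH (k + 1) p p fun _ => J) (F.mulH k p p fun _ => P)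
      (F.mulH k p p fun _ => J) (F.toH (k + 1) p c) where
  inj := incl_inj F k.le_succ p
  jinj := incl_inj F k.zero_le p
  cpt := Cht98.rellich k.lt_succ_self
  fr := h.fr k
  sym := h.symH k
  iP := incl_mulH (Cb_const _) mP k.le_succ
  iJ := incl_mulH (Cb_const _) mJ k.le_succ
  TP := h.comm mP TP k
  TJ := h.comm mJ TJ k
  Psym := mul_adj mP mP sP k
  Jskew x y := by
    have m : Maps p p fun _ => -J := fun y v hv => by simp [mJ y v hv]
    rw [mul_adj mJ m (fun a b => by simp [sJ]) k, RepT_eq (rep_mulH (k := k) (Cb_const _) m)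
      (RepT_neg (rep_mulH (Cb_const _) mJ)) fun _ => rfl]
    simp
  PJ := DFunLike.congr_fun (RepT_eq (RepT_comp (rep_mulH (Cb_const _) mP) (rep_mulH (Cb_const _) mJ))
    (rep_mulH (Cb_const _) mJ) fun _ => funext fun _ => PJ _)
  JJ := DFunLike.congr_fun (RepT_eq (RepT_comp (rep_mulH (Cb_const _) mJ) (rep_mulH (Cb_const _) mJ))
    (RepT_neg (rep_mulH (Cb_const _) mP)) fun _ => funext fun _ => JJ _)
  Pe := (RepT_toH' (rep_mulH (Cb_const _) mP) c 0 (funext Pc)).trans (map_zero _)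
  Te := (RepT_toH' (h.rep k) c 0 Tc).trans (map_zero _)
  ne := by rw [incl_toH k.le_succ, incl_toH k.zero_le, norm_toH, Pre.nrm, nc, Real.sqrt_one]
  frm x h1 h2 := by
    obtain ⟨u, rfl, hu⟩ := h.reg (l := 0) (w := 0) (h2.trans (by simp))
    rw [RepT_toH (rep_mulH (Cb_const _) mP), ← map_zero (F.toH (k + 1) p)] at h1
    obtain ⟨s, rfl⟩ := fr u (congrFun (congrArg Subtype.val (toH_inj F _ _ h1)))
      (congrArg Subtype.val (show h.lin u = 0 by simpa using hu))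
    exact ⟨s, map_smul _ _ _⟩

end gen

open Dl42 (Ay ay_of GP D0 τ qq sd)
open Wz78 (SA)
open Sw (Bg F2 En3 Gau)
open Sw.En3 (sl fz gr ip nm hol gn L Crit Nd Eqv)
open Map77 (f2 s2 i1 i2 sm2 ext2 inner2)

variable {κ lam ν : Type} [Fintype κ] [Fintype lam] [Fintype ν] [DecidableEq ν]
  {e : En3 κ lam ν} {t θ : e.YC} {χ : e.Y.M → ℝ} {φ : e.Y.M → Eu ν} {l : ℝ}

/-- an endomorphism of the spinors -/
abbrev sE (A : En ν) : End23.VV κ ν →L[ℝ] End23.VV κ ν := sm2 0 A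

theorem pp_s2 {y : e.Y.M} {a : End23.VV κ ν} (h : pV e y a = a) :
    e.cyl.pp (y, 0) (s2 _ _ a) = s2 _ _ a := by rw [← pV_s2, h]

theorem mul_pS (k : ℕ) : e.D.F.mulH k (pV e) (pV e) (pS e) = e.D.F.mulH k _ _ fun _ => sE 1 :=
  mulH_congr fun y a h => ext2 (by simp [pS]) (by simp [pS, pp_s2 h])

theorem mul_jS (k : ℕ) : e.D.F.mulH k (pV e) (pV e) (jS e) = e.D.F.mulH k _ _ fun _ => sE e.m.J :=
  mulH_congr fun y a h => ext2 (by simp [jS]) (by simp [jS, pp_s2 h])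

theorem maps_one : Maps (pV e) (pV e) fun _ => sE 1 := fun y a h =>
  ext2 (by simp [pV]) (by simp [pV, pp_s2 h])

theorem maps_J (he : e.OK) : Maps (pV e) (pV e) fun _ => sE e.m.J := fun y a h =>
  ext2 (by simp [pV]) (by simp [pV, ppJ he (pp_s2 h)])

theorem sE_mk (A : En ν) (y : e.Y.M) : sE A (mks χ t y) = mks 0 ⟨0, fun y => A (t.Φ y)⟩ y :=
  vv_ext (by simp) (by simp) (by simp)

theorem cst_eq : cst e = mks (fun _ => (√(e.D.F.μ Set.univ).toReal)⁻¹) ⟨0, 0⟩ :=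
  funext fun y => vv_ext (by simp [cst]) (by simp [cst]) (by simp [cst])

theorem tH_eq (k : ℕ) (u : Sec e.Y.I (pV e)) : tH e k u.1 = e.D.F.toH k _ u := dif_pos u.2

theorem vol_pos : 0 < (e.D.F.μ Set.univ).toReal := by
  have := openPos e.D.F.toPre
  exact ENNReal.toReal_pos (isOpen_univ.measure_ne_zero _ Set.univ_nonempty)
    isCompact_univ.measure_lt_top.ne

variable (he : e.OK) (hw : 0 < e.w) (hθ : Ay θ) (h0 : θ.Φ = 0)
include he hw hθ h0

/-- the Hessian on the spinors -/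
theorem hs_spin (ht : Ay (⟨0, φ⟩ : e.YC)) : hs θ (mks 0 ⟨0, φ⟩) =
    mks 0 ⟨0, fun y => dr (⟨θ.a, φ⟩ : e.YC) y - e.b 0 • φ y⟩ := by
  rw [hs_mk hw he hθ ht, gd_zero, ya_zero]
  congr 1
  · ext; simp [dst, dvg, h0, Pre.D_def, dv_zero]
  · exact En3.YC.ext ((Hs_a he h0 ⟨0, 0⟩ φ).trans (by rw [Hs_zero]))
      (funext (Hs_Φ he hθ h0 ht))

theorem hs_comm {A : En ν} (hA : ∀ t : e.YC, Ay t → Ay (⟨0, fun y => A (t.Φ y)⟩ : e.YC) ∧
    ∀ y, dr (⟨θ.a, fun y => A (t.Φ y)⟩ : e.YC) y = A (dr (⟨θ.a, t.Φ⟩ : e.YC) y))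
    (u : Sec e.Y.I (pV e)) : hs θ (fun y => sE A (u.1 y)) = fun y => sE A (hs θ u.1 y) := by
  have U := ay_tg u.2
  rw [← mk_tg hw u.1, hs_mk hw he hθ U]
  simp only [sE_mk]
  rw [hs_spin he hw hθ h0 (hA _ U).1]
  congr 2
  funext y
  simp [ya, gd, h0, Hs_Φ he hθ h0 U, (hA _ U).2]

omit hw h0 in
theorem dr_J (ht : Ay t) : Ay (⟨0, fun y => e.m.J (t.Φ y)⟩ : e.YC) ∧
    ∀ y, dr (⟨θ.a, fun y => e.m.J (t.Φ y)⟩ : e.YC) y = e.m.J (dr (⟨θ.a, t.Φ⟩ : e.YC) y) := by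
  have B : Ay (⟨0, fun y => e.m.J (t.Φ y)⟩ : e.YC) :=
    ⟨ay_zero.sa, fun y => SA.clm _ (ht.sΦ y), ay_zero.pa, fun y => ppJ he (ht.pΦ y)⟩
  refine ⟨B, fun y => ?_⟩
  have := D0_J he ht.sΦ (χ := fun _ => 1) contMDiff_const y
  simp only [one_smul, Pre.D_def, dv_const, Pi.zero_apply, zero_smul, sum_const_zero,
    sub_zero] at this
  rw [dr_eq he (Ay.set hθ B), dr_eq he (Ay.set hθ ht)]
  simp only [GP, this, map_sub, map_sum, map_smul, ← Dl42.Jτ he]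

omit he hw hθ h0
variable (hS : SfStmt κ lam ν) (hA : AhStmt κ lam ν)
include hS hA

theorem dat (he : e.OK) (hw : 0 < e.w) (hθ : Red θ) (hn : NdF θ) (k : ℕ) :
    Rad96.Dat (e.D.F.incl (k + 1) k (pV e)) (e.D.F.lift (k + 1) k (pV e) (pV e) (hs θ))
      (e.D.F.incl k 0 (pV e)) (e.D.F.mulH (k + 1) _ _ (pS e)) (e.D.F.mulH (k + 1) _ _ (jS e))
      (e.D.F.mulH k _ _ (pS e)) (e.D.F.mulH k _ _ (jS e)) (tH e (k + 1) (cst e)) := by
  have A := ay_of hθ.1.1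
  have B := blk2 hS hA he hw hθ.1
  have v := vol_pos (e := e)
  rw [mul_pS, mul_pS, mul_jS, mul_jS, cst_eq, tH_eq _ ⟨_, mk_mem contMDiff_const ay_zero⟩]
  refine (es hS hA he hw hθ.1.1).dat maps_one (maps_J he) (fun a b => by rw [inner2, inner2]; simp)
    (fun a b => by rw [inner2, inner2]; simpa using Dl42.J_skw he _ _) (fun a => ext2 (by simp) (by simp))
    (fun a => ext2 (by simp) (by simpa using congrArg (fun T : En ν => T (s2 _ _ a)) (Jsq he)))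
    (hs_comm he hw A hθ.2 fun t ht => ⟨Ay.set ay_zero ht, fun _ => rfl⟩)
    (hs_comm he hw A hθ.2 fun t ht => dr_J he A ht) (fun y => ext2 (by simp) (by simp)) ?_ ?_
    (fun u h1 h2 => ?_) k
  · rw [hs_mk hw he A ay_zero, dst_zero, Hs_zero, zero_ya, ← mk_zero]
    congr 1
    ext <;> simp [gd, hθ.2, Pre.D_def]
  · simp only [Pre.ip, inner2, PiLp.inner_apply, Fintype.sum_option, mk_none, mk_some, mk_s2]
    simp [Measure.real, v.ne']
  · obtain ⟨h3, h4⟩ := B.ker (u := u) (Subtype.ext h2)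
    rw [lin_π0 hS hA he hw hθ.1.1] at h3
    have h5 := (mk_inj hw ((congrArg Subtype.val h3).trans mk_zero.symm)).2
    have h6 := (hs_mk hw he A (χ := 0) (ay_tg u.2)).symm.trans
      ((congrArg (hs θ) (sub_π0 hw u).symm).trans ((congrArg Subtype.val h4).trans mk_zero.symm))
    have h7 : (tg e u.1).Φ = 0 := funext fun y => by
      simpa [tg, dl_ne hw] using congrArg (s2 _ _) (h1 y)
    obtain ⟨χ, s, h8⟩ := (ndF_iff he A).1 hn _ (ay_tg u.2) h7 (congrArg En3.YC.a (by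
      simpa only [gd_zero, ya_zero] using (mk_inj hw h6).2))
    have h9 : u - π0 e u = (es hS hA he hw hθ.1.1).lin (π0 e ⟨_, mk_mem s ay_zero⟩) := by
      rw [lin_π0 hS hA he hw hθ.1.1]
      refine Subtype.ext ((sub_π0 hw u).trans (congrArg _ ?_))
      exact En3.YC.ext (funext₂ fun k y => by rw [h8, fn_mk]; rfl)
        (h7.trans (funext fun y => by simp [gd, hθ.2]))
    rw [h9] at h4
    obtain ⟨y₀⟩ : Nonempty e.Y.M := inferInstance
    refine ⟨fn u.1 y₀ * √(e.D.F.μ Set.univ).toReal, (sub_eq_zero.1 (h9.trans (B.rng h4))).trans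
      (Subtype.ext (funext fun y => vv_ext ?_ (by simp [π0_val]) (by simp [π0_val])))⟩
    simp [π0_val, (Real.sqrt_pos.2 v).ne', Sep15.S.const_of_D e.D.F.toPre (sm_fn u.2.1)
      (fun k x => neg_eq_zero.1 (congrArg (fun t : e.YC => t.a k x) h5)) y y₀]

theorem eig (he : e.OK) (hw : e.w = 2) (hb : e.b 0 = 0) (hθ : Red θ) (k : ℕ) (l : ℝ)
    (x : XH e (k + 1)) : x ∈ Rad96.Eig (e.D.F.incl (k + 1) k (pV e))
    (e.D.F.lift (k + 1) k (pV e) (pV e) (hs θ)) (e.D.F.mulH (k + 1) _ _ (pS e)) l ↔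
      ∃ φ, Eg θ l φ ∧ x = tH e (k + 1) fun y => i2 _ _ (φ y) := by
  have A := ay_of hθ.1.1
  have w : 0 < e.w := hw ▸ two_pos
  have d : dl e = 1 := by simp [dl, hw]
  have m : ∀ φ : e.Y.M → Eu ν, (fun y => i2 _ _ (φ y)) = mks 0 (⟨0, φ⟩ : e.YC) := fun φ =>
    funext fun y => vv_ext (by simp) (by simp) (by simp [d])
  rw [mul_pS, (es hS hA he w hθ.1.1).eig maps_one]
  refine ⟨fun ⟨u, h1, h2, h3⟩ => ?_, fun ⟨φ, h1, h2⟩ => ?_⟩
  · have U := Ay.set ay_zero (ay_tg u.2)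
    have h4 : u.1 = mks 0 ⟨0, (tg e u.1).Φ⟩ := funext fun y => by
      rw [← h1 y]; nth_rw 1 [← mk_tg w u.1]; exact sE_mk 1 y
    refine ⟨(tg e u.1).Φ, ⟨(Ay.set A U).adm, fun y => ?_⟩, by rw [m, ← h4, tH_eq, h3]⟩
    rw [h4, hs_spin he w A hθ.2 U] at h2
    simpa [d, hb] using congrArg (s2 _ _) (congrFun h2 y)
  · have U := Ay.set ay_zero (ay_of h1.1)
    refine ⟨⟨_, mk_mem (χ := 0) contMDiff_const U⟩, sE_mk 1, ?_, by rw [h2, m]; exact tH_eq _ ⟨_, _⟩⟩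
    rw [hs_spin he w A hθ.2 U]
    exact funext fun y => vv_ext (by simp) (by simp) (by simp [d, hb, h1.2 y])

/-- **ES-DAT** -/
theorem datStmt : DatStmt κ lam ν := fun e he _ hθ hn =>
  ⟨TT_eq (e := lf e) hS hA he two_pos hθ.1.1, fun k => ⟨dat (e := lf e) hS hA he two_pos hθ hn k,
    eig (e := lf e) hS hA he rfl rfl hθ k⟩⟩

end Crest.Agent.X212.Cyc79
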