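import Crest.Agent.X212.Cyc79.Ea
import Crest.Agent.X212.Sard93.Smale
import Crest.Agent.X212.Dec47.Gen

/-!
# Row 212, ES-SMALE (helper79): generic regularity for quadratic equations
-/

set_option autoImplicit false
set_option linter.unusedSectionVars false
noncomputable section
open scoped Manifold ContDiff Topology InnerProductSpace
open MeasureTheory Set Function Filter ContinuousLinearMap

namespace Crest.Agent.X212.Cyc79
open An An.Pre Sob92 Ell97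
open Fred93 (Fr)

section abs
variable {X H Λ : Type*} [NormedAddCommGroup X] [NormedSpace ℝ X] [NormedAddCommGroup H]
  [InnerProductSpace ℝ H] [CompleteSpace H]

omit [CompleteSpace H] in
theorem sc_of_cpt {i : X →L[ℝ] H} (hc : IsCompactOperator i) (hd : DenseRange i) :
    SecondCountableTopology H := by
  have s : TopologicalSpace.IsSeparable (range i) := by
    refine (TopologicalSpace.IsSeparable.iUnion fun n : ℕ =>
      (hc.isCompact_closure_image_ball (f := (i : X →ₗ[ℝ] H)) n).isSeparable).mono ?_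
    rintro _ ⟨x, rfl⟩
    obtain ⟨n, hn⟩ := exists_nat_gt ‖x‖
    exact mem_iUnion.2 ⟨n, subset_closure ⟨x, by simpa using hn, rfl⟩⟩
  have := s.closure
  rw [hd.closure_range, TopologicalSpace.isSeparable_univ_iff] at this
  exact UniformSpace.secondCountable_of_separable H

theorem fd_orth {T : X →L[ℝ] H} (f : T.IsFredholm) : FiniteDimensional ℝ T.rangeᗮ ∧
    Module.finrank ℝ (H ⧸ T.range) = Module.finrank ℝ T.rangeᗮ := by
  have : FiniteDimensional ℝ (H ⧸ T.range) := f.finite_coker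
  have : CompleteSpace T.range := f.isClosed_range.completeSpace_coe
  have e := Submodule.quotientEquivOfIsCompl _ _ (Submodule.isCompl_orthogonal T.range)
  exact ⟨e.finiteDimensional, e.finrank_eq⟩

/-- the Fredholm alternative -/
theorem orth_fa {T i : X →L[ℝ] H} (f : Fr T 0) (hi : Injective i)
    (s : ∀ u v, ⟪T u, i v⟫_ℝ = ⟪i u, T v⟫_ℝ) {y : H} (hy : y ∈ T.rangeᗮ) :
    ∃ v, T v = 0 ∧ i v = y := by
  obtain ⟨_, e⟩ := fd_orth f.1
  have h1 := f.2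
  rw [Fred93.ind, LinearMap.index_eq_finrank_sub, e] at h1
  have k : T.ker.map (i : X →ₗ[ℝ] H) = T.rangeᗮ := Submodule.eq_of_le_of_finrank_eq (by
    rintro _ ⟨v, hv, rfl⟩ _ ⟨u, rfl⟩
    exact (s u v).trans (by rw [show T v = 0 from hv, inner_zero_right])) (by
      rw [← (Submodule.equivMapOfInjective _ hi _).finrank_eq]; omega)
  exact k.ge hy

theorem top_of {T : X →L[ℝ] H} (f : T.IsFredholm) {R : Submodule ℝ H} (h : T.range ≤ R)
    (o : ∀ y ∈ Rᗮ, y = 0) (y : H) : y ∈ R := by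
  have : FiniteDimensional ℝ (H ⧸ T.range) := f.finite_coker
  have : CompleteSpace R :=
    (Submodule.isClosed_mono_of_finiteDimensional_quotient f.isClosed_range h).completeSpace_coe
  rw [Submodule.orthogonal_eq_bot_iff.1 ((Submodule.eq_bot_iff _).2 o)]
  trivial

variable [CompleteSpace X] [SecondCountableTopology X] [NormedAddCommGroup Λ] [NormedSpace ℝ Λ]
  [CompleteSpace Λ] [SecondCountableTopology Λ]

theorem smale_abs (L : X →L[ℝ] H) (B : X →L[ℝ] X →L[ℝ] H) (M : Λ →L[ℝ] X →L[ℝ] H) (g : H)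
    (W : Submodule ℝ H) [FiniteDimensional ℝ Wᗮ] {Z : Set (X × Λ)}
    (h0 : ∀ z ∈ Z, L z.1 + B z.1 z.1 + M z.2 z.1 = g)
    (hF : ∀ z ∈ Z, (L + B z.1 + B.flip z.1 + M z.2).IsFredholm)
    (hS : ∀ z ∈ Z, ∀ w ∈ W, ∃ y l, (L + B z.1 + B.flip z.1 + M z.2) y + M l z.1 = w) :
    ∀ᶠ l in residual Λ, ∀ x, (x, l) ∈ Z → ∀ κ ∈ W,
      (∀ y, ⟪(L + B x + B.flip x + M l) y, κ⟫_ℝ = 0) → κ = 0 := by
  let G : (X × Wᗮ) × Λ → H := fun z =>
    L z.1.1 + B z.1.1 z.1.1 + M z.2 z.1.1 - g + Wᗮ.subtypeL z.1.2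
  have D : ∀ z w, fderiv ℝ G z w =
      (L + B z.1.1 + B.flip z.1.1 + M z.2) w.1.1 + M w.2 z.1.1 + w.1.2 := fun z w => by
    have f := (fst ℝ X Wᗮ ∘L fst ℝ _ Λ).hasFDerivAt (x := z)
    have d : HasFDerivAt G _ z := ((((L.hasFDerivAt.comp z f).fun_add (B.hasFDerivAt_of_bilinear f f)).fun_add
      (M.hasFDerivAt_of_bilinear hasFDerivAt_snd f)).sub_const g).fun_add (Wᗮ.subtypeL ∘L snd ℝ X Wᗮ ∘L fst ℝ _ Λ).hasFDerivAt
    rw [d.fderiv]
    simp
    abel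
  have E : ∀ z, Sard93.dE G z = (L + B z.1.1 + B.flip z.1.1 + M z.2).coprod Wᗮ.subtypeL :=
    fun z => ContinuousLinearMap.ext fun w => by rw [Sard93.dE_apply, D]; simp
  filter_upwards [Sard93.param_of_lindelof isOpen_univ (G := G) (by fun_prop)
    (Z := {z | z.1.2 = 0 ∧ (z.1.1, z.2) ∈ Z}) (HereditarilyLindelofSpace.isLindelof _)
    (subset_univ _) (fun z hz => by simpa [G, hz.1, sub_eq_zero] using h0 _ hz.2)
    (fun z hz => E z ▸ ((Fr.of (hF _ hz.2)).coprod _).1) fun z hz y => top_of (hF _ hz.2)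
      (R := (fderiv ℝ G z).range) (fun _ ⟨x, hx⟩ => ⟨((x, 0), 0), by simpa [D] using hx⟩)
      (fun y hy => inner_self_eq_zero.1 (hy y ⟨((0, ⟨y, fun w hw => hy w (by
        obtain ⟨x, l, h⟩ := hS _ hz.2 w hw
        exact ⟨((x, 0), l), by simpa [D] using h⟩)⟩), 0), by simp [D]⟩)) y] with l hl x hx κ hκ o
  obtain ⟨⟨y, c⟩, h⟩ := hl (x, 0) ⟨rfl, hx⟩ κ
  rw [E, coprod_apply] at h
  refine inner_self_eq_zero.1 (?_ : ⟪κ, κ⟫_ℝ = 0)
  nth_rw 1 [← h]
  rw [inner_add_left, o, zero_add, real_inner_comm]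
  exact c.2 κ hκ

end abs

variable {E : Type} [NormedAddCommGroup E] [NormedSpace ℝ E] [FiniteDimensional ℝ E]
  [MeasurableSpace E] [BorelSpace E]
  {HM : Type} [TopologicalSpace HM] {I : ModelWithCorners ℝ E HM} [I.Boundaryless]
  {Y : Type} [TopologicalSpace Y] [ChartedSpace HM Y] [IsManifold I ∞ Y] [T2Space Y]
  [MeasurableSpace Y] [BorelSpace Y] [SecondCountableTopology Y] [CompactSpace Y]
  {ι : Type} [Fintype ι] {V : Type} [NormedAddCommGroup V] [InnerProductSpace ℝ V]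
  [FiniteDimensional ℝ V] {F : An.Fr I Y ι} {p : Y → V →L[ℝ] V} {T : (Y → V) → Y → V}
  {Λ : Type} [NormedAddCommGroup Λ] [NormedSpace ℝ Λ] (h : ES F p T)
include h

/-- parameters that see the whole kernel make the operator onto -/
theorem ES.onto (m : Λ →ₗ[ℝ] Sec I p)
    (k : ∀ κ, h.lin κ = 0 → (∀ l, F.ip 0 (m l).1 κ.1 = 0) → κ = 0) (w : Sec I p) :
    ∃ u l, h.lin u + m l = w := by
  obtain ⟨_, ⟨x, rfl⟩, _, ⟨l, rfl⟩, e⟩ := Submodule.mem_sup.1 (top_of (h.fr 0).1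
    (R := (F.lift (0 + 1) 0 p p T).range ⊔ (F.toH 0 p ∘ₗ m).range) le_sup_left (fun y hy => by
      obtain ⟨x, h1, rfl⟩ := orth_fa (h.fr 0) (incl_inj F (Nat.le_succ 0) p)
        (fun u v => by simpa only [incl_self] using h.symH 0 u v)
        (Submodule.orthogonal_le le_sup_left hy)
      obtain ⟨κ, rfl, h2⟩ := h.reg (l := 0) (w := 0) (h1.trans (by simp))
      rw [incl_toH (Nat.le_succ 0)] at hy ⊢
      rw [k κ (by simpa using h2) fun l => (inner_toH ..).symm.trans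
        (hy _ (Submodule.mem_sup_right ⟨l, rfl⟩)), map_zero]) (F.toH 0 p w))
  obtain ⟨u, -, hu⟩ := h.reg (k := 0) (l := 0) (w := w - m l) (x := x)
    ((eq_sub_of_add_eq e).trans (by simp))
  exact ⟨u, l, by simp [hu]⟩

/-- **generic regularity** -/
theorem ES.smale [CompleteSpace Λ] [SecondCountableTopology Λ] {β : Y → V →L[ℝ] V →L[ℝ] V}
    (sβ : Sm I β) (mβ : Maps₂ p p p β) (μ : Λ →ₗ[ℝ] Y → V →L[ℝ] V) (sμ : ∀ l, Sm I (μ l))
    (mμ : ∀ l, Maps p p (μ l)) {C : ℝ} (cμ : ∀ l, F.CB 0 (μ l) (C * ‖l‖)) (g : Y → V)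
    (W : Submodule ℝ (Sec I p)) (hW : ∀ u, h.lin u ∈ W) {Z : Set (Sec I p × Λ)}
    (h0 : ∀ z ∈ Z, ∀ y, T z.1.1 y + β y (z.1.1 y) (z.1.1 y) + μ z.2 y (z.1.1 y) = g y)
    {S : Sec I p × Λ → (Y → V) → Y → V} (e : ∀ z ∈ Z, ∀ u : Sec I p, ∀ y, T u.1 y +
      β y (z.1.1 y) (u.1 y) + β y (u.1 y) (z.1.1 y) + μ z.2 y (u.1 y) = S z u.1 y)
    (hS : ∀ z ∈ Z, ∀ w ∈ W, ∃ (u : Sec I p) (l : Λ), ∀ y, S z u.1 y + μ l y (z.1.1 y) = w.1 y) :
    ∀ᶠ l in residual Λ, ∀ x, (x, l) ∈ Z → ∀ κ ∈ W,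
      (∀ u : Sec I p, F.ip 0 (S (x, l) u.1) κ.1 = 0) → κ = 0 := by
  rcases Z.eq_empty_or_nonempty with rfl | ⟨z₀, hz₀⟩
  · exact .of_forall fun _ _ h => h.elim
  have c := fun j k => Cht98.rellich (F := F.toPre) (q := p) (j := j) (k := k)
  have := sc_of_cpt (c _ _ one_lt_two) (denseRange_incl one_le_two)
  obtain ⟨K, k0, hK⟩ := Cyl58.nrm_bil3 F.toPre h.dim 0 (k := 1) (j := 1) (by simp [Cyl58.Lv]) sβ
  have rB : F.Rep₂ (F.bilH 1 1 p p p 0 β) fun u v x => β x (u x) (v x) := (rep_lift₂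
    (fun _ hu _ hv => ⟨(sβ.clm_apply hu.1).clm_apply hv.1, Cyl58.hcs, fun x =>
      mβ x _ _ (hu.2.2 x) (hv.2.2 x)⟩)
    (fun _ _ _ _ _ _ => funext fun x => by simp) (fun _ _ _ _ _ => funext fun x => by simp)
    (fun _ _ _ _ _ _ => funext fun x => by simp) (fun _ _ _ _ _ => funext fun x => by simp)
    k0 fun _ hu _ hv => hK _ _ hu.1 hv.1).1
  have cb := fun l => Cb_of_compact (F := F.toPre) (sμ l)
  let M₀ : Λ →L[ℝ] F.H 0 p →L[ℝ] F.H 0 p := LinearMap.mkContinuous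
    ⟨⟨fun l => F.mulH 0 p p (μ l), fun a b => by
      rw [map_add]; exact mulH_add (cb a) (mμ a) (cb b) (mμ b)⟩, fun r a =>
      (congrArg _ (map_smul μ r a)).trans (mulH_smul r (cb a) (mμ a))⟩ (cK ι 0 * |C|) fun l =>
    (norm_mulH_le (sμ l) (cμ l) (mμ l)).trans_eq (by rw [abs_mul, abs_norm, mul_assoc])
  let M := (compL ℝ _ _ _).flip (F.incl 1 0 p) ∘L M₀
  have rM : ∀ l, F.Rep (M l) fun u y => μ l y (u y) := fun l =>
    RepT_comp (rep_mulH (cb l) (mμ l)) (rep_incl zero_le_one)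
  have r := fun (x : Sec I p) l =>
    RepT_add (RepT_add (RepT_add (h.rep 0) (Rep₂_left rB x)) (Rep₂_right rB x)) (rM l)
  have : FiniteDimensional ℝ (W.map (F.toH 0 p))ᗮ := by
    obtain ⟨_, -⟩ := fd_orth (h.fr 0).1
    refine Submodule.finiteDimensional_of_le (S₂ := (F.lift 1 0 p p T).rangeᗮ) ?_
    rintro y hy _ ⟨x, rfl⟩
    induction x using H_ind with
    | hP => exact isClosed_eq (by fun_prop) continuous_const
    | h u => exact hy _ ⟨_, hW u, (h.lift_toH 0 u).symm⟩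
  filter_upwards [smale_abs (F.lift 1 0 p p T) (F.bilH 1 1 p p p 0 β) M (F.toH 0 p
    ⟨_, add_mem (add_mem (h.lin z₀.1).2 (Rep₂_mem rB z₀.1 z₀.1)) (RepT_mem (rM z₀.2) z₀.1)⟩)
    (W.map (F.toH 0 p)) (Z := (fun z => (F.toH 1 p z.1, z.2)) '' Z) (by
      rintro _ ⟨z, hz, rfl⟩
      rw [RepT_toH (h.rep 0), Rep₂_toH rB, RepT_toH (rM _), ← map_add, ← map_add]
      exact congrArg _ (Subtype.ext (funext fun y => (h0 z hz y).trans (h0 _ hz₀ y).symm))) (by
      rintro _ ⟨⟨x, l⟩, -, rfl⟩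
      rw [RepT_eq (r x l) (RepT_add (h.rep 0) (RepT_comp (rep_mulH (k := 0)
        (f := fun y => β y (x.1 y) + (β y).flip (x.1 y) + μ l y) (Cb_of_compact
          (((sβ.clm_apply x.2.1).add ((Dec47.sm_flip sβ).clm_apply x.2.1)).add (sμ l)))
        fun y v hv => by simp [mβ y _ _ (x.2.2.2 y) hv, mβ y _ _ hv (x.2.2.2 y), mμ l y v hv])
        (rep_incl zero_le_one))) fun u => funext fun y => by simp [add_assoc]]
      exact ((h.fr 0).add_compact ((c _ _ zero_lt_one).clm_comp _)).1) (by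
      rintro _ ⟨z, hz, rfl⟩ _ ⟨w, hw, rfl⟩
      obtain ⟨u, l, k⟩ := hS z hz w hw
      refine ⟨F.toH 1 p u, l, ?_⟩
      rw [RepT_toH (r _ _), RepT_toH (rM _), ← map_add]
      exact congrArg _ (Subtype.ext (funext fun y => by rw [← k, ← e z hz]; rfl)))]
    with l hl x hx κ hκ o
  refine toH_inj F 0 p ((hl _ ⟨_, hx, rfl⟩ _ ⟨κ, hκ, rfl⟩ fun y => ?_).trans (map_zero _).symm)
  induction y using H_ind with
  | hP => exact isClosed_eq (by fun_prop) continuous_const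
  | h u =>
    rw [RepT_toH (r _ _), inner_toH, ← o u]
    exact congrArg (F.ip 0 · κ.1) (funext (e _ hx u))

end Crest.Agent.X212.Cyc79
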