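import Crest.Agent.X212.Cyc79.Ed
import Crest.Agent.X212.Dec47.Gap
import Crest.Agent.X212.Ucp64.Man

/-!
# Row 212, ES-ISO and the cokernel of the universal map (helper79)
-/

set_option autoImplicit false
set_option linter.unusedSectionVars false
noncomputable section
open scoped Manifold ContDiff Topology InnerProductSpace
open Finset Filter MeasureTheory Function

namespace Crest.Agent.X212.Cyc79
open An An.Pre Sob92 End23
open Dl42 (Ay ay_of GP D0 τ qq sd Jτ JZ J_skw gr_Φ)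
open Wz78 (SA nab dop nab_add nab_congr nab_smul nab_map)
open Sw (Bg F2 En3 Gau)
open Sw.En3 (sl fz gr ip nm hol gn L Crit Nd Eqv)
open Cyl58 (A2 p8 tame3)

theorem loc_const {E : Type} [NormedAddCommGroup E] [NormedSpace ℝ E] [FiniteDimensional ℝ E]
    [MeasurableSpace E] [BorelSpace E] {HM : Type} [TopologicalSpace HM]
    {I : ModelWithCorners ℝ E HM} [I.Boundaryless] {M : Type} [TopologicalSpace M]
    [ChartedSpace HM M] [IsManifold I ∞ M] [MeasurableSpace M] {ι : Type} [Fintype ι]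
    (F : Pre I M ι) {u : M → ℝ} {x : M} (h : ∀ᶠ z in 𝓝 x, SA I u z ∧ ∀ a, F.D a u z = 0) :
    ∀ᶠ z in 𝓝 x, u z = u x := by
  obtain ⟨r, hr, hb⟩ := Metric.eventually_nhds_iff_ball.1
    (((continuousAt_extChartAt_symm (I := I) x).eventually (by rwa [extChartAt_to_inv])).and
      (extChartAt_target_mem_nhds (I := I) x))
  have md : ∀ z ∈ Metric.ball (extChartAt I x x) r,
      MDifferentiableAt 𝓘(ℝ, E) I (extChartAt I x).symm z := fun z hz =>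
    ((contMDiffOn_extChartAt_symm (n := ∞) x).contMDiffAt
      ((isOpen_extChartAt_target x).mem_nhds (hb z hz).2)).mdifferentiableAt (by simp)
  have k := fun z hz => Metric.isOpen_ball.is_const_of_fderiv_eq_zero (𝕜 := ℝ)
    (f := u ∘ (extChartAt I x).symm) (convex_ball _ r).isPreconnected
    (fun z hz => ((hb z hz).1.1.md.comp z (md z hz)).differentiableAt.differentiableWithinAt)
    (fun z hz => by
      rw [← mfderiv_eq_fderiv, mfderiv_comp z (hb z hz).1.1.md (md z hz),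
        show mfderiv I 𝓘(ℝ, ℝ) u _ = 0 from ContinuousLinearMap.coe_injective
          (LinearMap.ext_on_range (F.span _) (hb z hz).1.2)]
      rfl) (x := z) hz (Metric.mem_ball_self hr)
  filter_upwards [extChartAt_source_mem_nhds (I := I) x,
    (continuousAt_extChartAt (I := I) x).eventually (Metric.ball_mem_nhds _ hr)] with z h1 h2
  simpa only [comp_apply, (extChartAt I x).left_inv h1, extChartAt_to_inv] using k _ h2

variable {κ lam ν : Type} [Fintype κ] [Fintype lam] [Fintype ν] [DecidableEq ν]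
  {e : En3 κ lam ν} {v t : e.YC} {χ : e.Y.M → ℝ} {φ ψ : e.Y.M → Eu ν} {y : e.Y.M}
  {a : κ → e.Y.M → ℝ}

/-- **ES-ISO** -/
theorem isoStmt : IsoStmt κ lam ν := fun e he hw _ _ v hv hi hn => by
  obtain ⟨η, h0, C, -, hC⟩ := Dec47.core ⟨he, hw, hv, hn, hi⟩
  obtain ⟨S, hS⟩ := tame3 e
  refine ⟨5, η / (√|S 0| + 1), by positivity, fun v' hv' hd => ?_⟩
  have A := ay_of hv.1
  have A' := ay_of hv'.1
  have b : ∀ r, r ≤ En3.dist 5 v' v → √|S 0| * r ≤ η := fun r hr =>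
    (mul_le_mul_of_nonneg_left (hr.trans hd) (Real.sqrt_nonneg _)).trans (by
      rw [mul_div_assoc', div_le_iff₀ (by positivity)]; linarith)
  obtain ⟨θ, hθ, k⟩ := hC v' η hv'.1 le_rfl ⟨fun i => CB_mono
    (Rdc90.cbn (Sup.of_tame hS) ((A'.sa i).sub (A.sa i)) 1) (b _ ((single_le_sum
      (f := fun i => e.D.F.nrm 5 (v'.a i - v.a i)) (fun _ _ => nrm_nonneg ..) (mem_univ i)).trans
      (le_add_of_nonneg_right (nrm_nonneg ..)))), CB_mono (Rdc90.cbn (Sup.of_tame hS)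
    (A'.sΦ.sub A.sΦ) 1) (b _ (le_add_of_nonneg_left (sum_nonneg fun _ _ => nrm_nonneg ..)))⟩
  obtain ⟨-, -, k, -⟩ := k _ rfl
  rw [show gn v' = 0 by simp [gn, En3.ip, hv'.2.1, hv'.2.2], Real.sqrt_zero, mul_zero, norm_le_zero_iff,
    sub_eq_zero] at k
  refine eqv_symm he ((?_ : Dec47.ay (Dec47.ei θ) v' = v) ▸ Dec47.eqv_ay (Dec47.gau_ei hθ) v')
  exact En3.YC.ext (funext₂ fun i y => congrArg (fun u : Sec e.Y.I (Cyl58.P1 e.D.F) => u.1 y i)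
    (Ell97.toH_inj _ _ _ (congrArg (·.1) k)))
    (congrArg (·.1) (Ell97.toH_inj _ _ _ (congrArg (·.2) k)))

theorem GP_congr (h : φ =ᶠ[𝓝 y] ψ) : GP (⟨a, φ⟩ : e.YC) y = GP (⟨a, ψ⟩ : e.YC) y := by
  simp only [GP, D0, dop, fun k => nab_congr (e := e.D.F.e) (A := e.A) k h, h.eq_of_nhds]

variable (he : e.OK)
include he

theorem GP_J (hψ : SA e.Y.I ψ y) (hφ : SA e.Y.I φ y) (hχ : SA e.Y.I χ y) :
    GP (⟨a, fun y => ψ y + χ y • e.m.J (φ y)⟩ : e.YC) y = GP (⟨a, ψ⟩ : e.YC) y +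
      χ y • e.m.J (GP (⟨a, φ⟩ : e.YC) y) - ∑ k, e.D.F.D k χ y • e.m.J (τ e k y (φ y)) := by
  have sJ : SA e.Y.I (fun y => e.m.J (φ y)) y := SA.clm _ hφ
  have n : ∀ k, nab e.Y.I e.D.F.e e.A k (fun y => e.m.J (φ y)) y =
      e.m.J (nab e.Y.I e.D.F.e e.A k φ y) := fun k => nab_map _ k
    (congrArg (fun T : En ν => T (φ y)) (he.cyl.AJ (some k) (y, 0))).symm hφ
  simp only [GP, D0, dop, fun k => nab_add (e := e.D.F.e) (A := e.A) k hψ (SA.smul hχ sJ),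
    fun k => nab_smul (e := e.D.F.e) (A := e.A) k hχ sJ, n, map_add, map_sub,
    map_smul, map_neg, map_sum, ← Jτ he, ← JZ he, sum_add_distrib, smul_neg, smul_add, smul_sub,
    smul_sum, Pre.D_def, smul_comm (χ y)]
  abel

theorem cliff_inj {ξ : κ → ℝ} {u : Eu ν} (hξ : ∀ k, ∑ j, e.D.F.P k j y • ξ j = ξ k)
    (hu : e.cyl.pp (y, 0) u = u) (h0 : u ≠ 0) (h : ∑ k, ξ k • e.m.J (τ e k y u) = 0) (k : κ) :
    ξ k = 0 := by
  have h1 : ∑ k, ξ k • τ e k y u = 0 := J_eq_zero he (by simpa only [map_sum, map_smul] using h)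
  have c : ∀ j, ⟪τ e k y u, τ e j y u⟫_ℝ + ⟪τ e j y u, τ e k y u⟫_ℝ =
      2 * e.D.F.P k j y * ⟪u, u⟫_ℝ := fun j => by
    have : ⟪-τ e k y (e.cyl.pp (y, 0) u), -τ e j y (e.cyl.pp (y, 0) u)⟫_ℝ +
      ⟪-τ e j y (e.cyl.pp (y, 0) u), -τ e k y (e.cyl.pp (y, 0) u)⟫_ℝ =
        2 * e.D.F.P k j y * ⟪e.cyl.pp (y, 0) u, u⟫_ℝ := Cyl58.cliff2 he k j y u u
    simpa only [hu, inner_neg_neg] using this
  have : ∑ j, ξ j * (2 * e.D.F.P k j y * ⟪u, u⟫_ℝ) = 0 := by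
    simp only [← c, mul_add, sum_add_distrib, ← real_inner_smul_left, ← sum_inner, h1,
      real_inner_comm (τ e _ y u) (τ e k y u), inner_zero_left, add_zero]
  have h2 : 2 * ξ k * ⟪u, u⟫_ℝ = 0 := by
    rw [← this, ← hξ k, mul_sum, sum_mul]
    exact sum_congr rfl fun j _ => by rw [smul_eq_mul]; ring
  simpa [h0] using h2

theorem ucp (hv : Ay v) (h : ∀ y, GP v y = 0) (h0 : v.Φ =ᶠ[𝓝 y] 0) : v.Φ = 0 := by
  obtain ⟨C, hF⟩ := tame3 e
  obtain ⟨C', g⟩ := Cyl58.good2 he hF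
  obtain ⟨K, -, hK⟩ := Cyl58.sup_of
    ((Cyl58.sm_β2 he).clm_apply (Cyl58.sa hv.adm).2.1).continuous
  refine funext fun x => Ucp64.ucp_op e.D.F (A2 e) g (Cyl58.cliff2 he) isOpen_univ
    isPreconnected_univ hv.sΦ.contMDiffOn (fun x _ => hv.pΦ x) (fun x _ => ⟨K, .of_forall fun z => ?_⟩)
    (Set.mem_univ y) h0 x (Set.mem_univ x)
  rw [show (A2 e).app e.D.F v.Φ z = _ from Cyl58.gr_P' he hv.adm z, gr_Φ he hv, h, zero_sub,
    add_neg_cancel, add_zero]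
  exact ContinuousLinearMap.le_of_opNorm_le _ (hK z) _

/-- a Hessian null vector whose spinor is pointwise vertical is vertical -/
theorem vert (hb : e.b = 0) (hf : e.f = 0) (h1 : e.H1) (hv : Crit v)
    (hi : ∃ y, v.Φ y ≠ 0) (ht : Ay t) (h0 : Hes v t = ⟨0, 0⟩)
    (hp : ∀ y, v.Φ y ≠ 0 → ∃ g : ℝ, t.Φ y = g • e.m.J (v.Φ y)) :
    ∃ χ, Sm e.Y.I χ ∧ t = gd v χ := by
  have A := ay_of hv.1
  have q : ∀ k y, qq e k t.Φ v.Φ y + qq e k v.Φ t.Φ y = 0 := fun k y => by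
    by_cases h : v.Φ y = 0
    · simp [qq, h]
    obtain ⟨g, hg⟩ := hp y h
    simp only [qq, hg, map_smul, real_inner_smul_left, real_inner_smul_right, ← Jτ he,
      J_skw he (e.m.J (τ e k y (v.Φ y))) (v.Φ y)]
    ring
  have s : ∀ k y, sd e t.a k y = 0 := fun k y => by
    simpa [Hes, q, hf] using congrArg (fun t : e.YC => t.a k y) h0
  obtain ⟨χ, sχ, hχ⟩ := h1.ex t.a ⟨ht.sa, ht.pa, fun i j y => sub_eq_zero.1
    ((Cyl58.o3_inv he (Cyl58.da_anti ht.pa · · y) (Cyl58.da_P ht.sa ht.pa · · y) i j).symm.trans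
      (sum_eq_zero fun k _ => mul_eq_zero_of_right _ (div_eq_zero_iff.2 (.inl (s k y)))))⟩
  have E : ∀ (g : e.Y.M → ℝ) y, SA e.Y.I g y →
      GP (⟨v.a, fun y => t.Φ y + g y • e.m.J (v.Φ y)⟩ : e.YC) y =
        ∑ k, e.D.F.D k (fun y => χ y - g y) y • e.m.J (τ e k y (v.Φ y)) := fun g y hg => by
    have e1 : GP v y = 0 := by simpa [hb, gr_Φ he A] using hv.2.2 y
    have e2 := congrArg (fun t : e.YC => t.Φ y) h0
    simp only [Hes, hb, hχ, sum_add_distrib, Pi.zero_apply, deriv_zero, zero_smul, zero_mul,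
      add_zero, sub_zero] at e2
    rw [GP_J he (ht.sΦ y) (A.sΦ y) hg, e1]
    simp only [Pre.D_def, Wz78.dv_sub' (sχ y) hg, sub_smul, sum_sub_distrib, GP, map_zero,
      smul_zero, add_zero] at e2 ⊢
    rw [← sub_eq_zero, ← e2]
    abel
  obtain ⟨x, hx⟩ := hi
  have U : ∀ᶠ y in 𝓝 x, v.Φ y ≠ 0 := A.sΦ.continuous.continuousAt.eventually_ne hx
  set g := fun y => -⟪e.m.J (v.Φ y), t.Φ y⟫_ℝ * (⟪e.m.J (v.Φ y), e.m.J (v.Φ y)⟫_ℝ)⁻¹ with hg
  have n : ∀ y, v.Φ y ≠ 0 → ⟪e.m.J (v.Φ y), e.m.J (v.Φ y)⟫_ℝ ≠ 0 := fun y h =>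
    inner_self_ne_zero.2 fun h' => h (J_eq_zero he h')
  have sg : ∀ y, v.Φ y ≠ 0 → SA e.Y.I g y := fun y h =>
    SA.mul (SA.inner (SA.clm _ (A.sΦ y)) (ht.sΦ y)).neg
      ((SA.inner (SA.clm _ (A.sΦ y)) (SA.clm _ (A.sΦ y))).inv₀ (n y h))
  have z : ∀ y, v.Φ y ≠ 0 → t.Φ y + g y • e.m.J (v.Φ y) = 0 := fun y h => by
    obtain ⟨r, hr⟩ := hp y h
    simp only [hg, hr, real_inner_smul_right, neg_mul, mul_inv_cancel_right₀ (n y h), neg_smul,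
      add_neg_cancel]
  have c := loc_const e.D.F.toPre (u := fun y => χ y - g y) (x := x) (U.eventually_nhds.mono
    fun y h => ⟨(sχ y).sub (sg y h.self_of_nhds), cliff_inj he (fun k => Rdc90.P_D' _ k y)
      (A.pΦ y) h.self_of_nhds ((E g y (sg y h.self_of_nhds)).symm.trans
        ((GP_congr (ψ := 0) (h.mono z)).trans (by simp [GP, D0_zero])))⟩)
  have s' : Sm e.Y.I fun y => χ y - (χ x - g x) := sχ.sub contMDiff_const
  have B := ay_gd he A s'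
  have u := ucp he (v := ⟨v.a, fun y => t.Φ y + (χ y - (χ x - g x)) • e.m.J (v.Φ y)⟩) (y := x)
    ⟨A.sa, ht.sΦ.add B.sΦ, A.pa, fun y => (map_add _ _ _).trans
      (congrArg₂ _ (ht.pΦ y) (B.pΦ y))⟩ (fun y => by simp [E _ y (s' y), Pre.D_def])
    ((U.and c).mono fun y h => by simpa [← h.2] using z y h.1)
  refine ⟨_, s'.neg, En3.YC.ext (funext₂ fun k y => ?_) (funext fun y => ?_)⟩
  · simp [gd, hχ, Pre.D_def, Wz78.dv_sub' contMDiffAt_const (sχ y)]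
  · exact (eq_neg_of_add_eq_zero_left (congrFun u y)).trans (neg_smul _ _).symm

/-- the rank one endomorphisms -/
def rk : Eu ν →L[ℝ] Eu ν →L[ℝ] En ν :=
  ContinuousLinearMap.smulRightL ℝ _ _ ∘L (innerSL ℝ : Eu ν →L[ℝ] Eu ν →L[ℝ] ℝ)

omit he in
theorem rk_apply (a b c : Eu ν) : rk a b c = ⟪a, c⟫_ℝ • b := rfl

/-- the masses see all spinors that are not vertical -/
theorem dens (Λ : Flr e) (hv : Ay v) (ht : Ay t)
    (o : ∀ x, ∫ y, ⟪Λ.hm x y (v.Φ y), t.Φ y⟫_ℝ ∂e.D.F.μ = 0) (y : e.Y.M) (h : v.Φ y ≠ 0) :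
    ∃ g : ℝ, t.Φ y = g • e.m.J (v.Φ y) := by
  have JJ : ∀ a, e.m.J (e.m.J a) = -a := Cyl58.JJ he.cyl
  have JI : ∀ a b, ⟪e.m.J a, e.m.J b⟫_ℝ = ⟪a, b⟫_ℝ := fun a b => by
    rw [J_skw he, JJ, inner_neg_right, neg_neg]
  have J1 : ∀ a b, ⟪a, e.m.J b⟫_ℝ = -⟪e.m.J a, b⟫_ℝ := fun a b => by rw [J_skw he, neg_neg]
  have J0 : ∀ a, ⟪e.m.J a, a⟫_ℝ = 0 := Wz78.Skew.self (J_skw he)
  let m : e.Y.M → En ν := fun y => rk (v.Φ y) (t.Φ y) + rk (t.Φ y) (v.Φ y) +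
    rk (e.m.J (v.Φ y)) (e.m.J (t.Φ y)) + rk (e.m.J (t.Φ y)) (e.m.J (v.Φ y))
  have s : ∀ {a b : e.Y.M → Eu ν}, Sm e.Y.I a → Sm e.Y.I b → Sm e.Y.I fun y => rk (a y) (b y) :=
    fun a b y => SA.app (SA.clm _ (a y)) (b y)
  have sJ : ∀ {a : e.Y.M → Eu ν}, Sm e.Y.I a → Sm e.Y.I fun y => e.m.J (a y) :=
    fun a y => SA.clm _ (a y)
  have H : Herm e m := ⟨(((s hv.sΦ ht.sΦ).add (s ht.sΦ hv.sΦ)).add (s (sJ hv.sΦ) (sJ ht.sΦ))).add
    (s (sJ ht.sΦ) (sJ hv.sΦ)), fun y a b => by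
      simp only [m, add_apply, rk_apply, inner_add_left, inner_add_right,
        real_inner_smul_left, real_inner_smul_right, real_inner_comm a]
      ring, fun y => ContinuousLinearMap.ext fun a => by
      simp only [m, add_apply, mul_apply_eq_comp, rk_apply, map_add,
        map_smul, JJ, JI, J1 _ a, neg_smul, smul_neg]
      abel, fun y => ContinuousLinearMap.ext fun a => by
      have p : ∀ b, ⟪b, e.cyl.pp (y, 0) a⟫_ℝ = ⟪e.cyl.pp (y, 0) b, a⟫_ℝ := fun b =>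
        ((p8 he.cyl (y, 0)).pp_s b a).symm
      simp only [m, add_apply, mul_apply_eq_comp, rk_apply, map_add,
        map_smul, p, hv.pΦ, ht.pΦ, ppJ he (hv.pΦ y), ppJ he (ht.pΦ y)]⟩
  have c : ∀ {h : e.Y.M → En ν}, Sm e.Y.I h → Continuous fun y => ⟪h y (v.Φ y), t.Φ y⟫_ℝ :=
    fun h => (h.clm_apply hv.sΦ).continuous.inner ht.sΦ.continuous
  have i : ∀ {f : e.Y.M → ℝ}, Continuous f → Integrable f e.D.F.μ := fun h =>
    h.integrable_of_hasCompactSupport (.of_compactSpace _)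
  have z : ∫ y, ⟪m y (v.Φ y), t.Φ y⟫_ℝ ∂e.D.F.μ = 0 := by
    refine abs_nonpos_iff.1 (le_of_forall_pos_le_add fun ε hε => ?_)
    set K := ∫ y, ‖v.Φ y‖ * ‖t.Φ y‖ ∂e.D.F.μ
    have K0 : 0 ≤ K := integral_nonneg fun _ => by positivity
    obtain ⟨x, hx⟩ := Λ.den m H (ε / (K + 1)) (by positivity)
    rw [zero_add, ← abs_neg, ← zero_sub, ← o x, ← integral_sub (i (c (Λ.herm x).sm))
      (i (c H.sm)), ← Real.norm_eq_abs]
    refine (norm_integral_le_of_norm_le ((i (hv.sΦ.continuous.norm.mul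
      ht.sΦ.continuous.norm)).const_mul (ε / (K + 1))) (.of_forall fun y => ?_)).trans ?_
    · rw [← inner_sub_left, ← sub_apply, Pi.mul_apply, ← mul_assoc]
      exact (norm_inner_le_norm _ _).trans (mul_le_mul_of_nonneg_right
        (ContinuousLinearMap.le_of_opNorm_le _ (hx y) _) (norm_nonneg _))
    · rw [integral_const_mul, div_mul_eq_mul_div, div_le_iff₀ (by positivity)]
      change ε * K ≤ _
      nlinarith
  have f : ∀ y, ⟪m y (v.Φ y), t.Φ y⟫_ℝ = ‖e.m.J (v.Φ y)‖ ^ 2 * ‖t.Φ y‖ ^ 2 -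
      ⟪e.m.J (v.Φ y), t.Φ y⟫_ℝ ^ 2 + ⟪v.Φ y, t.Φ y⟫_ℝ ^ 2 := fun y => by
    simp only [m, add_apply, rk_apply, inner_add_left, real_inner_smul_left, J0,
      ← real_inner_self_eq_norm_sq, JI, real_inner_comm (v.Φ y), J1 (v.Φ y)]
    ring
  have cs : ∀ y, ⟪e.m.J (v.Φ y), t.Φ y⟫_ℝ ^ 2 ≤ ‖e.m.J (v.Φ y)‖ ^ 2 * ‖t.Φ y‖ ^ 2 := fun y => by
    rw [← mul_pow, ← sq_abs]
    exact pow_le_pow_left₀ (abs_nonneg _) (abs_real_inner_le_norm _ _) 2
  have := openPos e.D.F.toPre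
  have k := congrFun (((c H.sm).ae_eq_iff_eq e.D.F.μ continuous_zero).1
    ((integral_eq_zero_iff_of_nonneg (fun y => by
      have := cs y; simp only [f, Pi.zero_apply]; nlinarith [sq_nonneg ⟪v.Φ y, t.Φ y⟫_ℝ])
      (i (c H.sm))).1 z)) y
  have n : e.m.J (v.Φ y) ≠ 0 := fun h' => h (J_eq_zero he h')
  refine Or.resolve_left (((norm_inner_eq_norm_tfae ℝ (e.m.J (v.Φ y)) (t.Φ y)).out 0 2).1
    (?_ : ‖⟪e.m.J (v.Φ y), t.Φ y⟫_ℝ‖ = ‖e.m.J (v.Φ y)‖ * ‖t.Φ y‖)) n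
  rw [f, Pi.zero_apply] at k
  rw [← sq_eq_sq₀ (norm_nonneg _) (by positivity), Real.norm_eq_abs, sq_abs, mul_pow]
  nlinarith [sq_nonneg ⟪v.Φ y, t.Φ y⟫_ℝ, cs y]

end Crest.Agent.X212.Cyc79
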