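import Crest.Agent.X212.Cyc79.Ef
import Crest.Agent.X212.Cyc79.Eg
import Crest.Agent.X212.Hp13.Flr

/-!
# Row 212, ES-SMALE (helper79): generic nondegeneracy of the irreducible critical points
-/

set_option autoImplicit false
set_option linter.unusedSectionVars false
noncomputable section
open scoped Manifold ContDiff Topology InnerProductSpace
open Finset Filter MeasureTheory Function ContinuousLinearMap

namespace Crest.Agent.X212.Cyc79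
open An An.Pre Sob92 End23
open Dl42 (Ay ay_of GP Ga D0 τ qq sd g0 gr_Φ gr_a)
open Wz78 (SA dop)
open Sw (Bg F2 En3 Gau)
open Sw.En3 (sl fz gr nm hol gn L Crit Nd Eqv)
open Cyl58 (p8 tame3)
open Map77 (f2 s2 i1 i2 pj ij ext2 inner2 sum_ij)

variable {κ lam ν : Type} [Fintype κ] [Fintype lam] [Fintype ν] [DecidableEq ν]
  {e : En3 κ lam ν} {v t : e.YC} {χ : e.Y.M → ℝ} {h : e.Y.M → En ν}

/-- another mass -/
abbrev ex (e : En3 κ lam ν) (h : e.Y.M → En ν) : En3 κ lam ν := wh e e.f (e.h + h)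

/-- the same configuration -/
abbrev up (h : e.Y.M → En ν) (v : e.YC) : (ex e h).YC := ⟨v.a, v.Φ⟩

/-- its extended Hessian -/
def hx (h : e.Y.M → En ν) (v : e.YC) (u : e.Y.M → End23.VV κ ν) : e.Y.M → End23.VV κ ν :=
  hs (e := ex e h) (up h v) u

variable (κ) in
/-- an endomorphism of the spinors -/
def sL : En ν →L[ℝ] End23.VV κ ν →L[ℝ] End23.VV κ ν :=
  compL ℝ (End23.VV κ ν) (Eu ν) (End23.VV κ ν) (i2 _ _) ∘L
    (compL ℝ (End23.VV κ ν) (Eu ν) (Eu ν)).flip (s2 _ _)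

theorem sL_apply (A : En ν) (a : End23.VV κ ν) : sL κ A a = i2 _ _ (A (s2 _ _ a)) := rfl

variable (ν) in
/-- a component times an endomorphism -/
def cL (o : Option κ) : (End23.VV κ ν →L[ℝ] End23.VV κ ν) →L[ℝ]
    End23.VV κ ν →L[ℝ] End23.VV κ ν →L[ℝ] End23.VV κ ν :=
  smulRightL ℝ (End23.VV κ ν) (End23.VV κ ν →L[ℝ] End23.VV κ ν) (pj ℝ o ∘L f2 _ (Eu ν))

variable (ν) in
/-- an inner product as a component -/
def qL (o : Option κ) : Eu ν →L[ℝ] End23.VV κ ν →L[ℝ] End23.VV κ ν :=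
  compL ℝ (End23.VV κ ν) ℝ (End23.VV κ ν) (i1 _ _ ∘L ij ℝ o ∘L lsmul ℝ ℝ (1 / 2 : ℝ)) ∘L
    (compL ℝ (End23.VV κ ν) (Eu ν) ℝ).flip (s2 _ _) ∘L (innerSL ℝ : Eu ν →L[ℝ] Eu ν →L[ℝ] ℝ)

theorem cL_apply (o : Option κ) (A : End23.VV κ ν →L[ℝ] End23.VV κ ν) (a b : End23.VV κ ν) :
    cL ν o A a b = f2 _ _ a o • A b := rfl

theorem qL_apply (o : Option κ) (a : Eu ν) (b : End23.VV κ ν) :
    qL ν o a b = i1 _ _ (ij ℝ o (1 / 2 * ⟪a, s2 _ _ b⟫_ℝ)) := rfl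

variable (e) in
/-- the quadratic part -/
def βq (y : e.Y.M) : End23.VV κ ν →L[ℝ] End23.VV κ ν →L[ℝ] End23.VV κ ν :=
  cL ν none (sL κ e.m.J) - ∑ k, (qL ν (some k) ∘L (e.m.J * τ e k y) ∘L s2 _ _ +
    cL ν (some k) (sL κ (e.m.J * τ e k y)))

theorem βq_f (y : e.Y.M) (a b : End23.VV κ ν) (o : Option κ) : f2 _ _ (βq e y a b) o =
    -o.elim 0 fun k => 1 / 2 * ⟪e.m.J (τ e k y (s2 _ _ a)), s2 _ _ b⟫_ℝ := by
  have := sum_ij (fun o : Option κ => o.elim 0 fun k =>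
    1 / 2 * ⟪e.m.J (τ e k y (s2 _ _ a)), s2 _ _ b⟫_ℝ) o
  rw [← this, Fintype.sum_option]
  simp [βq, sL_apply, cL_apply, qL_apply, map_sum]

theorem βq_s (y : e.Y.M) (a b : End23.VV κ ν) : s2 _ _ (βq e y a b) =
    f2 _ _ a none • e.m.J (s2 _ _ b) - ∑ k, f2 _ _ a (some k) • e.m.J (τ e k y (s2 _ _ b)) := by
  simp [βq, sL_apply, cL_apply, qL_apply, map_sum]

theorem H1.ex' (h1 : e.H1) : (ex e h).H1 := ⟨fun a k => h1.ex a ⟨k.1, k.2, k.3⟩, h1.lg⟩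

theorem Ay.up (hv : Ay v) : Ay (up h v) := ⟨hv.1, hv.2, hv.3, hv.4⟩

theorem inner_mk (hw : 0 < e.w) {u : e.Y.M → End23.VV κ ν} {b : End23.VV κ ν} {y : e.Y.M}
    (hb : f2 _ _ b none = 0) : ⟪mks χ (tg e u) y, b⟫_ℝ = ⟪u y, b⟫_ℝ := by
  simp only [inner2, PiLp.inner_apply, Fintype.sum_option, mk_some, mk_s2, hb]
  simp [tg, dl_ne hw]

variable (he : e.OK)
include he

theorem sm_βq : Sm e.Y.I (βq e) := fun y => contMDiffAt_const.sub (SA.sum _ fun k _ =>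
  have := SA.mul (contMDiffAt_const (c := e.m.J)) ((Dl42.sy he).sm k y)
  (contMDiffAt_const.clm_comp (this.clm_comp contMDiffAt_const)).add (SA.clm _ (SA.clm _ this)))

theorem maps_βq : Maps₂ (pV e) (pV e) (pV e) (βq e) := fun y a b ha hb => by
  have p := ppJ he ((pV_s2 y b).symm.trans (congrArg _ hb))
  refine vv_ext (pV_none y _) (fun k => ?_) ?_
  · simp only [pV_some, βq_f, Option.elim, ← (Dl42.sy he).proj k y, mul_neg, sum_neg_distrib,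
      _root_.sum_apply, map_sum, sum_inner, smul_apply, map_smul, real_inner_smul_left, mul_sum,
      smul_eq_mul, mul_left_comm]
  · rw [pV_s2, βq_s, map_sub, map_smul, map_sum, p]
    refine congrArg _ (sum_congr rfl fun k _ => ?_)
    rw [map_smul, Dl42.Jτ he]
    exact congrArg _ ((p8 he.cyl (y, 0)).pp_ρ ((p8 he.cyl (y, 0)).pm_ρ p (some k)) none)

section
variable (H : Herm e h)
include H

theorem pp_h (y : e.Y.M) (a : Eu ν) : e.cyl.pp (y, 0) (h y a) = h y a := by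
  rw [← H.p y]
  exact congrArg (fun T : En ν => T _) (p8 he.cyl (y, 0)).pp_pp

theorem maps_sL : Maps (pV e) (pV e) fun y => sL κ (h y) := fun y a _ =>
  ext2 (by simp [pV, sL_apply]) (by simp [pV, sL_apply, pp_h he H])

theorem D0_ex (φ : e.Y.M → Eu ν) (y : e.Y.M) : D0 (ex e h) φ y = D0 e φ y + h y (φ y) := by
  have := (Dl42.ρρ he (h y (φ y))).trans (congrArg Neg.neg (Dl42.p_of he.cyl (pp_h he H y _)))
  change -(dop e.Y.I e.D.F.e (τ e) e.A φ y + e.m.ρ none y (e.m.ρ none y ((e.h y + h y) (φ y)))) =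
    -(_ + e.m.ρ none y (e.m.ρ none y (e.h y (φ y)))) + _
  simp only [add_apply, map_add, this]
  abel

theorem ok_ex : (ex e h).OK := ((Hp13.Flr.flo κ lam ν e he).2 h H).2

variable (hw : e.w = 2) (hb : e.b = 0) (hf : e.f = 0)
include hw hb hf

theorem lin_q (hv : Ay v) (ht : Ay t) (y : e.Y.M) : hs (⟨0, 0⟩ : e.YC) (mks χ t) y +
    βq e y (mks 0 v y) (mks χ t y) + βq e y (mks χ t y) (mks 0 v y) + sL κ (h y) (mks χ t y) =
      mks (fn (hs (⟨0, 0⟩ : e.YC) (mks χ t))) (tg e (hx h v (mks χ t))) y := by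
  have w : 0 < e.w := hw ▸ two_pos
  have d : dl e = 1 := by simp [dl, hw]
  have k := congrArg (tg (ex e h)) (hs_mk (e := ex e h) (χ := χ) w (ok_ex he H) (Ay.up hv) (Ay.up ht))
  rw [tg_mk (e := ex e h) w] at k
  have ka : ∀ k y, (tg e (hx h v (mks χ t))).a k y = (Hes v t).a k y + (gd v χ).a k y :=
    fun i y => congrArg (fun t : (ex e h).YC => t.a i y) k
  have kΦ : (tg e (hx h v (mks χ t))).Φ y = (Hes v t).Φ y + h y (t.Φ y) + (gd v χ).Φ y :=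
    (congrArg (fun t : (ex e h).YC => t.Φ y) k).trans (by
      simp only [ya, Hes, D0_ex he H]
      change _ - ∑ k, (_ • e.m.J (τ e k y _) + _ • e.m.J (τ e k y _)) - (e.b (nm v) • _ + _) + _ = _
      abel)
  rw [hs_mk w he ay_zero ht]
  refine vv_ext (by simp [βq_f, sL_apply]) (fun k => ?_) ?_
  · simp [βq_f, sL_apply, ka, ya, Hes, gd, hf, hw, d, qq]
    ring
  · simp [βq_s, sL_apply, kΦ, ya, Hes, gd, hb, d, sum_add_distrib]
    abel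

theorem zero_q (hv : Crit (up h v)) (h0 : dvg e v.a = 0) (y : e.Y.M) :
    hs (⟨0, 0⟩ : e.YC) (mks 0 v) y + βq e y (mks 0 v y) (mks 0 v y) + sL κ (h y) (mks 0 v y) =
      mks 0 (⟨fun k y => -(2 * g0 e k y), 0⟩ : e.YC) y := by
  have d : dl e = 1 := by simp [dl, hw]
  have A := ay_of hv.1
  have ka := fun k => (gr_a (ok_ex he H) A k y).symm.trans (hv.2.1 k y)
  have kΦ := (gr_Φ (ok_ex he H) A y).symm.trans (hv.2.2 y)
  simp only [GP, D0_ex he H] at kΦ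
  change ∀ k, Ga v k y + 2 * deriv e.f _ * _ = 0 at ka
  change _ - ∑ k, v.a k y • e.m.J (τ e k y (v.Φ y)) - e.b _ • _ = 0 at kΦ
  rw [hs_mk (hw ▸ two_pos) he ay_zero ⟨A.1, A.2, A.3, A.4⟩, gd_zero, ya_zero]
  refine vv_ext (by simp [βq_f, sL_apply, dst, h0]) (fun k => ?_) ?_
  · have := ka k
    simp [Ga, hf, hw, qq] at this
    simp [βq_f, sL_apply, Hes, hf, d, qq]
    linarith
  · simp [hb] at kΦ
    simp [βq_s, sL_apply, Hes, hb, d]
    rw [← kΦ]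
    abel

end

omit he
variable (hS : SfStmt κ lam ν) (hA : AhStmt κ lam ν)
include hS hA

theorem ker_irr (he : e.OK) (hw : 0 < e.w) (hv : Crit v) (hi : ∃ y, v.Φ y ≠ 0)
    {u : Sec e.Y.I (pV e)} (hu : (es hS hA he hw hv.1).lin u = 0) : fn u.1 = 0 ∧
      Hes v (tg e u.1) = ⟨0, 0⟩ ∧ ((∃ χ, Sm e.Y.I χ ∧ tg e u.1 = gd v χ) → u = 0) := by
  have B := blk2 hS hA he hw hv
  obtain ⟨h1, h2⟩ := B.ker hu
  rw [lin_π0 hS hA he hw hv.1] at h1
  have h3 := gd_inj he (sm_fn u.2.1) hi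
    (mk_inj hw ((congrArg Subtype.val h1).trans mk_zero.symm)).2
  have h4 := (hs_mk hw he (ay_of hv.1) (χ := 0) (ay_tg u.2)).symm.trans
    ((congrArg (hs v) (sub_π0 hw u).symm).trans ((congrArg Subtype.val h2).trans mk_zero.symm))
  refine ⟨h3, by simpa only [gd_zero, ya_zero] using (mk_inj hw h4).2, fun ⟨χ, s, h5⟩ => ?_⟩
  have h6 : u = (es hS hA he hw hv.1).lin (π0 e ⟨_, mk_mem s ay_zero⟩) := by
    rw [lin_π0 hS hA he hw hv.1]
    refine Subtype.ext ((mk_tg hw u.1).symm.trans ?_)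
    simp only [h3, h5, fn_mk]
  rw [h6] at hu ⊢
  exact B.rng hu

theorem coul (he : e.OK) (hw : 0 < e.w) (hv : Ay v) (u : Sec e.Y.I (pV e)) :
    ∃ χ, ∃ s : Sm e.Y.I χ, π0 e ((es hS hA he hw ay_zero.adm).lin
      (u + ⟨_, mk_mem (χ := 0) contMDiff_const (ay_gd he hv s)⟩)) = 0 := by
  obtain ⟨C, hF⟩ := tame3 e
  obtain ⟨χ, s, k⟩ := Cyl58.coul0 hF (Cyl58.sa (ay_tg u.2).adm)
  refine ⟨χ, s, Subtype.ext (.trans ?_ mk_zero)⟩
  rw [π0_val, ES.lin_val, ← mk_tg hw (Subtype.val _), hs_mk hw he ay_zero (ay_tg (Subtype.prop _)),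
    fn_mk]
  refine congrArg (mks · _) (funext fun y => Eq.trans ?_ (k y))
  have : ∀ i, (tg e (u + ⟨_, mk_mem (χ := 0) contMDiff_const (ay_gd he hv s)⟩).1).a i = fun y =>
      (Cyl58.sa (ay_tg u.2).adm - Cyl58.dS e.D.F s).1 y i := fun i => funext fun y => by
    simp [tg, gd, Cyl58.sa, Cyl58.dS, Cyl58.sec1, sub_eq_add_neg]
  simp only [dst, dvg, this, Pi.zero_apply, map_zero, inner_zero_left, mul_zero, add_zero]

theorem surj_q (he : e.OK) (hw : e.w = 2) (hb : e.b = 0) (hf : e.f = 0) (h1 : e.H1) (Λ : Flr e)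
    (H : Herm e h) (hv : Crit (up h v)) (hi : ∃ y, v.Φ y ≠ 0) {r u₀ : Sec e.Y.I (pV e)}
    (h4 : π0 e ((es hS hA he (hw ▸ two_pos) ay_zero.adm).lin u₀) = π0 e r) :
    ∃ (u : Sec e.Y.I (pV e)) (l : Λ.Λ), ∀ y, mks (fn (hs (⟨0, 0⟩ : e.YC) u.1)) (tg e (hx h v u.1)) y +
      sL κ (Λ.hm l y) (mks 0 v y) = r.1 y := by
  have w : 0 < e.w := hw ▸ two_pos
  have d : dl e = 1 := by simp [dl, hw]
  have ok := ok_ex he H
  have A := ay_of hv.1
  have A' : Ay v := ⟨A.1, A.2, A.3, A.4⟩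
  have E : ES e.D.F (pV e) (hx h v) := es hS hA ok w hv.1
  have z := mk_mem (χ := 0) contMDiff_const A'
  obtain ⟨u, l, k⟩ := E.onto (Λ := Λ.Λ) ⟨⟨fun l => ⟨fun y => sL κ (Λ.hm l y) (mks 0 v y),
    fun y => SA.app (SA.clm _ ((Λ.herm l).sm y)) (z.1 y), Cyl58.hcs,
    fun y => maps_sL he (Λ.herm l) y _ (z.2.2 y)⟩,
    fun _ _ => Subtype.ext (funext fun y => by simp)⟩,
    fun _ _ => Subtype.ext (funext fun y => by simp)⟩ (fun u hu o => by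
      obtain ⟨-, h5, h6⟩ := ker_irr hS hA ok w hv hi hu
      have := dens he Λ A' (ay_tg u.2) fun x => Eq.trans (congrArg _ (funext fun y => by
        rw [inner2]; simp [sL_apply, tg, d])) (o x)
      exact h6 (vert ok hb hf (H1.ex' h1) hv hi (ay_tg u.2) h5 this)) r
  obtain ⟨χ, s, k'⟩ := coul hS hA he w A' (u - u₀)
  refine ⟨u + ⟨_, mk_mem (χ := 0) contMDiff_const (ay_gd he A' s)⟩, l, fun y => ?_⟩
  rw [sub_add_eq_add_sub, map_sub, map_sub, sub_eq_zero] at k'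
  have h5 := congrArg (fun u : Sec e.Y.I (pV e) => fn u.1 y) (k'.trans h4)
  have h6 := congrArg (fun u : Sec e.Y.I (pV e) => u.1 y) (E.lin.map_add u
    ⟨_, mk_mem (χ := 0) contMDiff_const (ay_gd he A' s)⟩)
  have h7 := lin_mk hS hA ok w hv.1 (χ := 0) contMDiff_const (ay_gd ok A s)
  rw [Hs_gd0 ok hv s, gd_zero, ya_zero] at h7
  have h8 : hx h v (mks 0 (gd v χ)) = mks (e := e) _ ⟨0, 0⟩ := h7
  have h9 := congrArg (fun u : Sec e.Y.I (pV e) => u.1 y) k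
  simp only [π0_val, fn_mk, ES.lin_val] at h5
  simp only [Submodule.coe_add, Pi.add_apply, ES.lin_val, h8] at h6 h9
  refine vv_ext ?_ (fun i => ?_) ?_
  · simpa [sL_apply, fn] using h5
  · simp [← h9, tg, h6]
  · simp [← h9, tg, h6, d]

theorem smale (he : e.OK) (hw : e.w = 2) (hb : e.b = 0) (hf : e.f = 0) (h1 : e.H1) (Λ : Flr e) :
    ∀ᶠ x in residual Λ.Λ, ∀ v : (ex e (Λ.hm x)).YC, Crit v → (∃ y, v.Φ y ≠ 0) → Nd v := by
  have w : 0 < e.w := hw ▸ two_pos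
  have ok := fun x => ok_ex he (Λ.herm x)
  obtain ⟨C, hC⟩ := Λ.cb 0
  have E0 := es hS hA he w ay_zero.adm
  filter_upwards [E0.smale (sm_βq he) (maps_βq he) ((sL κ).toLinearMap.compLeft _ ∘ₗ Λ.hm)
    (fun l y => SA.clm (sL κ) ((Λ.herm l).sm y)) (fun l => maps_sL he (Λ.herm l))
    (C := ‖sL (ν := ν) κ‖ * C)
    (fun l => by rw [mul_assoc]; exact CB_clm (sL κ) (Λ.herm l).sm (hC l)) _
    ((π0 e ∘ₗ E0.lin).range.comap (π0 e)) (fun u => ⟨u, rfl⟩)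
    (Z := {z | ∃ v : e.YC, Crit (up (Λ.hm z.2) v) ∧ (∃ y, v.Φ y ≠ 0) ∧ dvg e v.a = 0 ∧
      z.1.1 = mks 0 v})
    (fun z ⟨v, h1, _, h2, h3⟩ y => h3 ▸ zero_q he (Λ.herm _) hw hb hf h1 h2 y)
    (S := fun z u => mks (fn (hs (⟨0, 0⟩ : e.YC) u)) (tg e (hx (Λ.hm z.2) (tg e z.1.1) u)))
    (fun z ⟨v, h1, _, _, h3⟩ u y => by
      have A := ay_of h1.1
      rw [h3, tg_mk w, ← mk_tg w u.1]
      exact lin_q he (Λ.herm _) hw hb hf ⟨A.1, A.2, A.3, A.4⟩ (ay_tg u.2) y)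
    (fun z ⟨v, hv, hi, _, h3⟩ r ⟨u₀, h4⟩ => by
      rw [h3, tg_mk w]
      exact surj_q hS hA he hw hb hf h1 Λ (Λ.herm _) hv hi h4)] with l hl v hv hi
  obtain ⟨_, k⟩ := Cyl58.wlD (ok l)
  obtain ⟨v', q, h2, -⟩ := k v hv.1
  have hv' := Cyl58.eqv_crit (ok l) q hv
  have hi' : ∃ y, v'.Φ y ≠ 0 := hi.imp fun y hy => by
    rwa [← norm_ne_zero_iff, Cyl58.eqv_norm (ok l) hv.1 q, norm_ne_zero_iff]
  have A := ay_of hv'.1
  refine nd_eqv (ok l) hv'.1 (eqv_symm (ok l) q) ((bij_irr hS hA (ok l) w hv' hi').2 ?_)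
  rw [← TT_eq hS hA (ok l) w hv'.1, (es hS hA (ok l) w hv'.1).bij_iff 0]
  intro u hu
  have h3 : fn u.1 = 0 := (ker_irr hS hA (ok l) w hv' hi' hu).1
  refine hl ⟨_, mk_mem (e := e) (χ := 0) (t := ⟨v'.a, v'.Φ⟩) contMDiff_const ⟨A.1, A.2, A.3, A.4⟩⟩
    ⟨⟨v'.a, v'.Φ⟩, hv', hi', funext h2, rfl⟩ u ⟨0, Subtype.ext ?_⟩ fun u' => ?_
  · rw [map_zero]
    exact mk_zero.symm.trans (congrArg (mks · _) h3.symm)
  · exact Eq.trans (congrArg (integral _) (funext fun y => (inner_mk w (congrFun h3 y)).trans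
      (congrArg (fun t => ⟪hx _ t u'.1 y, u.1 y⟫_ℝ) (tg_mk w))))
      (((es hS hA (ok l) w hv'.1).sym u' u).trans (by
        rw [show hs v' u.1 = 0 from congrArg Subtype.val hu]; simp [Pre.ip]))

/-- **ES-SMALE** -/
theorem smaleStmt : SmaleStmt κ lam ν := fun e he h1 _ hf Λ =>
  smale (e := lf e) hS hA he rfl rfl hf ⟨fun a k => h1.ex a ⟨k.1, k.2, k.3⟩, h1.lg⟩
    ⟨Λ.Λ, Λ.hm, fun x => let h := Λ.herm x; ⟨h.1, h.2, h.3, h.4⟩, Λ.cb,
      fun h k => Λ.den h ⟨k.1, k.2, k.3, k.4⟩, Λ.one⟩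

end Crest.Agent.X212.Cyc79
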