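import Crest.Agent.X212.Cyc79.Ub
import Crest.Agent.X212.Mon62.REx
import Crest.Agent.X212.Eqv71.Nat

/-!
# Row 212, CYC (helper79): interior gradient estimates with weights; Hilbert-Schmidt norm of adjoints
-/

set_option autoImplicit false
set_option linter.unusedSectionVars false
noncomputable section
open scoped Manifold ContDiff Topology InnerProductSpace
open MeasureTheory Set Function Filter

namespace Crest.Agent.X212.Cyc79
open An Sob92 Wz78 Dgr80 Mon62
open Ell97 (UB)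
open Mp86 (Mc Lop)
open ContinuousLinearMap (adjoint)

variable {E : Type} [NormedAddCommGroup E] [NormedSpace ℝ E] [FiniteDimensional ℝ E]
  [MeasurableSpace E] [BorelSpace E]
  {HM : Type} [TopologicalSpace HM] {I : ModelWithCorners ℝ E HM} [I.Boundaryless]
  {M : Type} [TopologicalSpace M] [ChartedSpace HM M] [IsManifold I ∞ M]
  [MeasurableSpace M] [T2Space M] [BorelSpace M] [SecondCountableTopology M]
  {ι : Type} [Fintype ι] {V : Type} [NormedAddCommGroup V] [InnerProductSpace ℝ V]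
  {F : Fr I M ι} {C : ℕ → ℝ} {A : ι → M → V →L[ℝ] V} {J : Type} {R : ℝ}

theorem ub_fx {N : Type} [NormedAddCommGroup N] [NormedSpace ℝ N] {f : M → N} (h : F.Cb f) :
    UB (fun _ : J => F.toPre) fun _ => f := let ⟨D, hD⟩ := h; ⟨D, fun _ => hD⟩

theorem ub_re {N J' : Type} [NormedAddCommGroup N] [NormedSpace ℝ N] {f : J → M → N}
    (h : UB (fun _ => F.toPre) f) (j : J' → J) : UB (fun _ => F.toPre) fun i => f (j i) :=
  let ⟨D, hD⟩ := h; ⟨D, fun i => hD (j i)⟩

theorem cb_nab (hA : ∀ a, F.Cb (A a)) {u : M → V} (hu : F.Cb u) (a : ι) : F.Cb (nab I F.e A a u) :=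
  Cb_add (Cb_D hu a) (Cb_app (hA a) hu)

theorem cb_lap (hF : F.Tame C) (hA : ∀ a, F.Cb (A a)) {u : M → V} (hu : F.Cb u) :
    F.Cb (lap I F.e F.dv A u) :=
  Cb_neg (Cb_sum _ fun a _ => Cb_add (cb_nab hA (cb_nab hA hu a) a)
    (Cb_smul ⟨C, hF.dv a⟩ (cb_nab hA hu a)))

theorem grad_seq (hF : F.Tame C) (hA : ∀ a, F.Cb (A a)) {ρ c : ℕ → M → ℝ} {b : ι → ℕ → M → ℝ}
    {u : ℕ → M → V} (hρ : UB (fun _ => F.toPre) ρ) (ρ0 : ∀ n x, 0 ≤ ρ n x)
    (hc : UB (fun _ => F.toPre) c) (hb : ∀ a, UB (fun _ => F.toPre) (b a)) (hu : ∀ n, F.Cb (u n))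
    (hR : ∀ n x, ‖u n x‖ ≤ R) (he : ∀ n x, ρ n x ≠ 0 → lap I F.e F.dv A (u n) x =
      c n x • u n x + ∑ a, b a n x • nab I F.e A a (u n) x) :
    ∃ T, ∀ n x a, ρ n x = 1 → ‖F.D a (u n) x‖ ≤ T := by
  classical
  let s : ℕ → M → V := fun n x => lap I F.e F.dv A (u n) x -
    (c n x • u n x + ∑ a, b a n x • nab I F.e A a (u n) x)
  obtain ⟨ε, e1, e2⟩ := exists_eps (F := F.toPre) (f := s) fun n => Cb_sub (cb_lap hF hA (hu n))
    (Cb_add (Cb_smul (hc.cb n) (hu n)) (Cb_sum _ fun a _ => Cb_smul ((hb a).cb n) (cb_nab hA (hu n) a)))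
  let τ : ℕ → M → ℝ := fun n x => ρ n x + ε n
  have r1 : UB (fun _ => F.toPre) τ := hρ.add (Dm.ub_const
    ⟨1, fun n => by rw [Real.norm_of_nonneg (e1 n).1.le]; exact (e1 n).2⟩)
  have r0 : ∀ n x, τ n x ≠ 0 := fun n x => (add_pos_of_nonneg_of_pos (ρ0 n x) (e1 n).1).ne'
  let G : ℕ → Fr I M ι := fun n => cfr F (τ n) (r1.sm n) (r0 n)
  have hS := fun a b : ι => (UB.const (F := fun _ : ℕ => F.toPre)
    (if a = b then (1 : ℝ) else 0)).smul r1
  have up : ∀ {N : Type} [NormedAddCommGroup N] [NormedSpace ℝ N] {f : ℕ → M → N},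
      UB (fun _ => F.toPre) f → UB (fun n => (G n).toPre) f := ub_mix (fun _ => cfr_mix) hS
  have a1 := fun a => up (r1.smul (ub_fx (hA a)))
  have hd : ∀ a, UB (fun n => (G n).toPre) fun n => (G n).dv a := fun a =>
    up ((r1.smul (ub_fx ⟨C, hF.dv a⟩)).add (r1.D a))
  have su := fun n => cb_sm (hu n)
  have h0 : Od (fun n => (G n).toPre) u 0 u := Od.wd []
  have h1 := fun a => (h0.D su a).add ((h0.app (a1 a)).mono zero_le_one)
  obtain ⟨D, hD⟩ : UB (fun n => (G n).toPre) u := bern (F := G) (fun a b l => up (((r1.smul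
      (ub_fx ⟨C, hF.c a b l⟩)).add ((r1.D a).smul (ub_fx ⟨C, hF.P b l⟩))).sub
      ((r1.D b).smul (ub_fx ⟨C, hF.P a l⟩)))) hd
    (fun n => bumps_mix hF cfr_mix (fun a b => (hS a b).cb n) fun a => (hd a).cb n)
    (fun n => cfr_mix.Cb (fun a b => (hS a b).cb n) (hu n)) hR
    (od_lap (A := fun n a x => τ n x • A a x) hd a1 su
      ((((((Od.cst (up e2)).add (((h0.mono zero_le_one).smul (up hc)).smul (up r1))).add
        (Od.sum Finset.univ fun a => (h1 a).smul (up (hb a)))).smul (up r1)).sub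
        (Od.sum Finset.univ fun a => (h1 a).smul (up ((UB.const (2 : ℝ)).smul (r1.D a))))).congr
      fun n y => by
        rw [cfr_lap (fun a => cb_sm (hA a)) (su n)]
        refine congrArg₂ (· - ·) (congrArg _ ?_) rfl
        change _ = _ + ∑ a, b a n y • nab I (G n).e (fun a x => τ n x • A a x) a (u n) y
        have e : ρ n y • s n y = 0 := by
          by_cases h : ρ n y = 0
          · rw [h, zero_smul]
          · simp only [s, he n y h, sub_self, smul_zero]
        simp only [G, cfr_nab, fun a (v : V) => smul_comm (b a n y) (τ n y) v, ← Finset.smul_sum]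
        rw [← zero_add (ε n • _), ← e, ← add_smul, add_assoc, ← smul_add, ← smul_add]
        simp [s, τ]))
  refine ⟨D 1, fun n x a hx => le_trans ?_ ((hD n).2 1 [a] le_rfl x)⟩
  change _ ≤ ‖(G n).D a (u n) x‖
  rw [cfr_D, norm_smul, Real.norm_of_nonneg (add_nonneg (ρ0 n x) (e1 n).1.le), hx]
  exact le_mul_of_one_le_left (norm_nonneg _) (by linarith [(e1 n).1])

theorem exists_chi (hF : F.Tame C) {K : Set M} (hK : IsCompact K) : ∃ χ : M → ℝ, F.CBs χ C ∧
    HasCompactSupport χ ∧ (∀ x, 0 ≤ χ x ∧ χ x ≤ 1) ∧ ∀ x ∈ K, ∀ᶠ y in 𝓝 x, χ y = 1 := by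
  have := lcs (I := I) (M := M)
  obtain ⟨T, h1, h2⟩ := exists_compact_superset hK
  obtain ⟨χ, a, b, c, d⟩ := hF.exh T h1
  exact ⟨χ, a, b, c, fun x hx => eventually_of_mem (mem_interior_iff_mem_nhds.1 (h2 hx)) d⟩

/-- **interior gradient estimate** -/
theorem grad_int (hF : F.Tame C) (hA : ∀ a, F.Cb (A a)) {ρ : M → ℝ} {c : J → M → ℝ}
    {b : ι → J → M → ℝ} {u : J → M → V} (hρ : F.Cb ρ) (ρ0 : ∀ x, 0 ≤ ρ x)
    (hc : UB (fun _ => F.toPre) c) (hb : ∀ a, UB (fun _ => F.toPre) (b a)) (hu : ∀ j, Sm I (u j))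
    (hR : ∀ j x, ‖u j x‖ ≤ R) (he : ∀ j x, ρ x ≠ 0 → lap I F.e F.dv A (u j) x =
      c j x • u j x + ∑ a, b a j x • nab I F.e A a (u j) x) :
    ∃ T, ∀ j x a, ρ x = 1 → ‖F.D a (u j) x‖ ≤ T := by
  by_contra! h
  choose j x a h1 h2 using fun n : ℕ => h n
  choose χ' p1 p2 p3 p4 using fun n => hF.exh {x n} isCompact_singleton
  choose χ q1 q2 q3 q4 using fun n => exists_chi hF (p2 n).isCompact
  have e : ∀ n y, χ' n y ≠ 0 → (fun y => χ n y • u (j n) y) =ᶠ[𝓝 y] u (j n) := fun n y hy =>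
    (q4 n y (subset_tsupport _ hy)).mono fun z hz => by simp only [hz, one_smul]
  obtain ⟨T, hT⟩ := grad_seq (ρ := fun n y => ρ y • χ' n y) (u := fun n y => χ n y • u (j n) y) (R := R)
    hF hA ((ub_fx hρ).smul ⟨C, p1⟩) (fun n y => mul_nonneg (ρ0 y) (p3 n y).1) (ub_re hc j)
    (fun a => ub_re (hb a) j) (fun n => Cb_of_hcs ((q1 n).1.smul (hu _)) (q2 n).smul_right)
    (fun n y => by
      rw [norm_smul, Real.norm_of_nonneg (q3 n y).1]
      exact (mul_le_of_le_one_left (norm_nonneg _) (q3 n y).2).trans (hR _ _))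
    fun n y hy => by
      have k := e n y (right_ne_zero_of_mul hy)
      simp only [Eqv71.lap_congr k, nab_congr _ k, k.eq_of_nhds, he _ y (left_ne_zero_of_mul hy)]
  obtain ⟨n, hn⟩ := exists_nat_ge T
  have := hT n (x n) (a n) (by rw [h1, p4 n _ rfl, one_smul])
  rw [Pre.D_def, dv_congr (e n _ (by rw [p4 n _ rfl]; exact one_ne_zero)), ← Pre.D_def] at this
  linarith [h2 n]

theorem lap_smul (hA : ∀ a, Sm I (A a)) {g : M → ℝ} {u : M → V} (hg : Sm I g) (hu : Sm I u) (x : M) :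
    lap I F.e F.dv A (fun y => g y • u y) x = g x • lap I F.e F.dv A u x -
      ∑ a, (2 * F.D a g x) • nab I F.e A a u x - Lop I F.e F.dv g x • u x := by
  have h : ∀ a, nab I F.e A a (fun y => g y • u y) =
      fun y => F.D a g y • u y + g y • nab I F.e A a u y := fun a => funext fun y =>
    nab_smul a (hg y) (hu y)
  simp only [lap, h, Lop, Finset.sum_smul, smul_neg, Finset.smul_sum, ← neg_add',
    ← Finset.sum_add_distrib]
  refine congrArg _ (Finset.sum_congr rfl fun a _ => ?_)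
  rw [nab_add a (Wrd81.sm_smul (F.sm_D hg a) hu x) (Wrd81.sm_smul hg (sm_nab hA a hu) x),
    nab_smul a (F.sm_D hg a x) (hu x), nab_smul a (hg x) (sm_nab hA a hu x)]
  simp only [Pre.D_def, smul_eq_mul]
  module

/-- **interior gradient estimate with weights** -/
theorem grad_w (hF : F.Tame C) (hA : ∀ a, F.Cb (A a)) {ρ : M → ℝ} {ψ : J → M → ℝ} {γ : J → M → V}
    (hρ : F.Cb ρ) (ρ0 : ∀ x, 0 ≤ ρ x) (sψ : ∀ j, Sm I (ψ j))
    (hψ : ∀ a, UB (fun _ => F.toPre) fun j => F.D a (ψ j)) (hγ : ∀ j, Sm I (γ j))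
    (hR : ∀ j x, ‖γ j x‖ ≤ R * Real.exp (ψ j x))
    (he : ∀ j x, ρ x ≠ 0 → γ j x + lap I F.e F.dv A (γ j) x = 0) :
    ∃ T, ∀ j x a, ρ x = 1 → ‖nab I F.e A a (γ j) x‖ ≤ T * Real.exp (ψ j x) := by
  let u : J → M → V := fun j x => Real.exp (-ψ j x) • γ j x
  have su : ∀ j, Sm I (u j) := fun j => (Real.contDiff_exp.contMDiff.comp (sψ j).neg).smul (hγ j)
  have sg : ∀ j, Sm I fun x => Real.exp (ψ j x) := fun j => Real.contDiff_exp.contMDiff.comp (sψ j)
  have e : ∀ j, γ j = fun x => Real.exp (ψ j x) • u j x := fun j => funext fun x => by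
    simp [u, smul_smul, ← Real.exp_add]
  have d : ∀ j a x, F.D a (fun x => Real.exp (ψ j x)) x = Real.exp (ψ j x) * F.D a (ψ j) x :=
    fun j a x => D_cmp (sψ j) (Real.hasDerivAt_exp _) a
  have hu : ∀ j x, ‖u j x‖ ≤ R := fun j x => by
    have := hR j x
    rw [e j, norm_smul, Real.norm_of_nonneg (Real.exp_pos _).le, mul_comm] at this
    exact le_of_mul_le_mul_right this (Real.exp_pos _)
  obtain ⟨T, hT⟩ := grad_int (u := u) (b := fun a j x => (2 : ℝ) • F.D a (ψ j) x) hF hA hρ ρ0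
    ((UB.sum fun a => ((hψ a).smul (hψ a)).add (((hψ a).D a).add
      ((ub_fx ⟨C, hF.dv a⟩).smul (hψ a)))).sub (UB.const 1)) (fun a => (UB.const 2).smul (hψ a))
    su hu fun j x hx => by
      have k := he j x hx
      rw [e j, lap_smul (fun a => cb_sm (hA a)) (sg j) (su j), Mp86.Lop_comp (Mp86.vf F.toPre x)
        (Mp86.cm2 (sψ j) x) (.of_forall Real.hasDerivAt_exp) (Real.hasDerivAt_exp _)] at k
      simp only [d, fun a => mul_left_comm 2 (Real.exp (ψ j x)) (F.D a (ψ j) x), mul_smul (Real.exp _),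
        ← Finset.smul_sum, ← mul_add, ← smul_sub, ← smul_add] at k
      have k2 := (smul_eq_zero.1 k).resolve_left (Real.exp_pos _).ne'
      rw [← sub_eq_zero, ← k2]
      simp only [Lop, smul_eq_mul, Finset.sum_add_distrib, sq, Pre.D_def]
      module
  choose K hK using fun a => cb_bdd (hA a)
  choose D hD using hψ
  refine ⟨T + ∑ a, (|K a| + |D a 0|) * |R|, fun j x a hx => ?_⟩
  rw [e j, nab_smul a (sg j x) (su j x), ← Pre.D_def, d, mul_smul, ← smul_add, norm_smul,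
    Real.norm_of_nonneg (Real.exp_pos _).le, mul_comm]
  refine mul_le_mul_of_nonneg_right ?_ (Real.exp_pos _).le
  have h1 := Finset.single_le_sum (f := fun a => (|K a| + |D a 0|) * |R|) (fun _ _ => by positivity)
    (Finset.mem_univ a)
  have h2 : ‖F.D a (ψ j) x • u j x‖ ≤ |D a 0| * |R| := (norm_smul _ _).trans_le (mul_le_mul
    (((hD a j).2 0 [] le_rfl x).trans (le_abs_self _)) ((hu j x).trans (le_abs_self _))
    (norm_nonneg _) (abs_nonneg _))
  have h3 : ‖A a x (u j x)‖ ≤ |K a| * |R| := ((A a x).le_opNorm _).trans (mul_le_mul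
    ((hK a x).trans (le_abs_self _)) ((hu j x).trans (le_abs_self _)) (norm_nonneg _) (abs_nonneg _))
  have h4 : ‖nab I F.e A a (u j) x‖ ≤ _ := (norm_add_le _ _).trans (add_le_add (hT j x a hx) h3)
  linarith [norm_add_le (F.D a (ψ j) x • u j x) (nab I F.e A a (u j) x)]

/-! ### the Hilbert-Schmidt norm of the adjoint -/

section hs
variable {κ : Type} [Fintype κ] [DecidableEq κ]

theorem bessel_ct {K T : Type} [NormedAddCommGroup K] [InnerProductSpace ℝ K] [Fintype T] {w : T → K}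
    (h : Orthonormal ℝ w) (v : Fm κ K) : ∑ i, ‖ct (w i) v‖ ^ 2 ≤ ‖v‖ ^ 2 := by
  simp only [PiLp.norm_sq_eq_of_L2, ct_apply]
  rw [Finset.sum_comm]
  exact Finset.sum_le_sum fun i _ => h.sum_inner_products_le _

theorem hs_flip {S : KK F.toPre κ →L[ℝ] KK F.toPre κ} {a : M → VV F.toPre κ} (h : FI F S a)
    (hc : HasCompactSupport a) {T : Type} [Fintype T] {Γ : T → M → VV F.toPre κ}
    (cΓ : ∀ t, Continuous (Γ t)) {D c : ℝ} (hΓ : LB F.μ (fun z => ∑ t, ‖Γ t z‖ ^ 2) D) (c0 : 0 < c)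
    (h1 : ∀ u w : Sec I (triv M (Eu κ)), ∫ z, ⟪w.1 z, ct (F.toH 0 _ u) (a z)⟫_ℝ ∂F.μ ≤
      c * ‖F.toH 0 _ u‖ ^ 2 + ∫ z, ∑ t, ‖ct (F.toH 0 _ w) (Γ t z)‖ ^ 2 ∂F.μ) :
    LB F.μ (fun z => ‖a z‖ ^ 2) (4 * c * D) := by
  have ca := h.sm.continuous
  have A : ∀ w : Sec I (triv M (Eu κ)), ‖adjoint S (F.toH 0 _ w)‖ ^ 2 ≤
      4 * c * ∫ z, ∑ t, ‖ct (F.toH 0 _ w) (Γ t z)‖ ^ 2 ∂F.μ := fun w => by
    have k : ∀ k, ⟪F.toH 0 _ w, S k⟫_ℝ ≤ c * ‖k‖ ^ 2 + ∫ z, ∑ t, ‖ct (F.toH 0 _ w) (Γ t z)‖ ^ 2 ∂F.μ :=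
      fun k => (F.dense_toH 0 _).induction_on k (isClosed_le (by fun_prop) (by fun_prop)) fun u => by
        rw [is_inner (h.is _)]; exact h1 u w
    have := k ((2 * c)⁻¹ • adjoint S (F.toH 0 _ w))
    rw [← ContinuousLinearMap.adjoint_inner_left, inner_smul_right, real_inner_self_eq_norm_sq,
      norm_smul, mul_pow, Real.norm_eq_abs, sq_abs] at this
    have e := mul_le_mul_of_nonneg_left this (show 0 ≤ 4 * c by positivity)
    field_simp at e
    nlinarith
  have i1 : ∀ k, Integrable (fun z => ∑ t, ‖ct k (Γ t z)‖ ^ 2) F.μ := fun k =>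
    ((hΓ.mul (sq_nonneg ‖k‖)).mono (Continuous.aestronglyMeasurable (by fun_prop))
      (fun z => by positivity) fun z => by
        rw [Finset.mul_sum]
        exact Finset.sum_le_sum fun t _ => by
          rw [← mul_pow]; exact pow_le_pow_left₀ (norm_nonneg _) (norm_ct _ _) 2).1
  obtain ⟨w, e, -⟩ := exists_hilbertBasis ℝ (KK F.toPre κ)
  let sec : w → Sec I (triv M (Eu κ)) := fun n => ⟨fun z => ct (e n) (a z), sm_ct h.sm _,
    hc.comp_left (map_zero _), fun _ => rfl⟩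
  have B : ∀ s : Finset w, ∑ n ∈ s, ‖S (e n)‖ ^ 2 ≤ 4 * c * D := fun s => by
    let W := Submodule.span ℝ (range fun n : s => S (e n))
    have : FiniteDimensional ℝ W := .span_of_finite ℝ (finite_range _)
    let b := stdOrthonormalBasis ℝ W
    have hW : W ≤ LinearMap.range (F.toH 0 (triv M (Eu κ))) := Submodule.span_le.2 (by
      rintro _ ⟨n, rfl⟩; exact ⟨sec n, (Is.toH (sec n)).unique (h.is _)⟩)
    choose u hu using fun i => hW (b i).2
    have o : Orthonormal ℝ fun i => (b i : KK F.toPre κ) := b.orthonormal.comp_linearIsometry W.subtypeₗᵢ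
    calc ∑ n ∈ s, ‖S (e n)‖ ^ 2 = ∑ n ∈ s, ∑ i, ‖⟪e n, adjoint S (b i)⟫_ℝ‖ ^ 2 :=
          Finset.sum_congr rfl fun n hn => by
            have := b.sum_sq_norm_inner_right ⟨S (e n), Submodule.subset_span ⟨⟨n, hn⟩, rfl⟩⟩
            simp only [ContinuousLinearMap.adjoint_inner_right, real_inner_comm (b _ : KK F.toPre κ)]
            exact this.symm
      _ ≤ ∑ i, 4 * c * ∫ z, ∑ t, ‖ct (b i : KK F.toPre κ) (Γ t z)‖ ^ 2 ∂F.μ := by
          rw [Finset.sum_comm]
          exact Finset.sum_le_sum fun i _ => (e.orthonormal.sum_inner_products_le _).trans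
            (by simpa only [hu] using A (u i))
      _ ≤ _ := by
          rw [← Finset.mul_sum, ← integral_finsetSum _ fun i _ => i1 _]
          refine mul_le_mul_of_nonneg_left ((integral_mono (integrable_finsetSum _ fun i _ => i1 _)
            hΓ.1 fun z => ?_).trans hΓ.2) (by positivity)
          beta_reduce
          rw [Finset.sum_comm]
          exact Finset.sum_le_sum fun t _ => bessel_ct o _
  have i2 : Integrable (fun z => ‖a z‖ ^ 2) F.μ := (ca.norm.pow 2).integrable_of_hasCompactSupport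
    (hc.mono fun y hy e => hy (by simp [e]))
  have i3 : ∀ n, Integrable (fun z => ‖(sec n).1 z‖ ^ 2) F.μ := fun n =>
    ((sec n).2.1.continuous.norm.pow 2).integrable_of_hasCompactSupport
      ((sec n).2.2.1.mono fun y hy e => hy (by simp [e]))
  refine ⟨i2, le_of_forall_pos_le_add fun δ hδ => ?_⟩
  set m := F.μ.real (tsupport a)
  have m0 : 0 ≤ m := measureReal_nonneg
  obtain ⟨s, hs⟩ := hc.isCompact.elim_directed_cover
    (fun s : Finset w => {z | ‖a z‖ ^ 2 - δ / (m + 1) < ∑ n ∈ s, ‖ct (e n) (a z)‖ ^ 2})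
    (fun s => isOpen_lt (by fun_prop) (by fun_prop))
    (fun z _ => mem_iUnion.2 ((hasSum_ct e (a z)).eventually
      (lt_mem_nhds (sub_lt_self _ (by positivity)))).exists)
    (Monotone.directed_le fun s t hst z hz => by
      rw [mem_ofPred_eq] at hz ⊢
      exact hz.trans_le (Finset.sum_le_sum_of_subset_of_nonneg hst fun _ _ _ => sq_nonneg _))
  have mK := (isClosed_tsupport a).measurableSet
  have i4 : Integrable ((tsupport a).indicator fun _ => δ / (m + 1)) F.μ :=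
    (integrable_indicator_iff mK).2 (integrableOn_const hc.isCompact.measure_lt_top.ne)
  refine (integral_mono i2 ((integrable_finsetSum s fun n _ => i3 n).add i4) fun z => ?_).trans ?_
  · by_cases hz : z ∈ tsupport a
    · simp only [Pi.add_apply, indicator_of_mem hz]
      exact (sub_lt_iff_lt_add.1 (hs hz)).le
    · simp only [Pi.add_apply, indicator_of_notMem hz, image_eq_zero_of_notMem_tsupport hz]
      simp only [norm_zero, add_zero, zero_pow two_ne_zero]; positivity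
  · simp only [Pi.add_apply]
    rw [integral_add (integrable_finsetSum s fun n _ => i3 n) i4, integral_finsetSum _ fun n _ => i3 n,
      integral_indicator_const _ mK, smul_eq_mul]
    refine add_le_add ((Finset.sum_congr rfl fun n _ => ?_).trans_le (B s)) ?_
    · rw [← sq_toH, (Is.toH (sec n)).unique (h.is _)]
    · rw [mul_div_assoc', div_le_iff₀ (by positivity)]; nlinarith

end hs

end Crest.Agent.X212.Cyc79
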