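import Crest.Agent.X212.End23.Prp
import Crest.Agent.X212.Ect9.Top
import Crest.Agent.X212.Gsl9.Main

/-!
# Row 212, EC-UC (helper79): estimates on one piece
-/

set_option autoImplicit false
set_option linter.unusedSectionVars false
noncomputable section
open scoped Manifold ContDiff Topology InnerProductSpace ENNReal
open MeasureTheory Set Function Filter

namespace Crest.Agent.X212.Cyc79.Uc
open An Cyf70 Sw Sw.En3 End23
open M (Mf)
open Cut71 (mem_img tm_tgt)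
open Sw88 (nm_nonneg)
open Pb50 (LA src la_ψ)
open Wz78 (nab SA)

theorem two_int {A B : Set ℝ} (hA : MeasurableSet A) (hB : MeasurableSet B)
    (e : volume A = volume B) (h0 : volume A ≠ 0) (h1 : volume A ≠ ⊤) {f : ℝ → ℝ≥0∞} {m : ℝ≥0∞}
    (hm : m ≠ ⊤) (h : ∀ t ∈ A, ∀ t' ∈ B, f t' ≤ m * f t) :
    ∫⁻ t in B, f t ≤ m * ∫⁻ t in A, f t := by
  rw [← ENNReal.mul_le_mul_iff_left h0 h1, ← setLIntegral_const, ← lintegral_const_mul' _ _ hm,
    ← lintegral_mul_const' _ _ h1]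
  refine setLIntegral_mono' hA fun t ht => ?_
  rw [e, ← setLIntegral_const]
  exact setLIntegral_mono' hB (h t ht)

variable {κ lam ν : Type} [Fintype κ] [Fintype lam] [Fintype ν] [DecidableEq ν]
  {X : Mf 4} {nc : ℕ}

theorem eD_sc {E : Type} [NormedAddCommGroup E] [NormedSpace ℝ E] [FiniteDimensional ℝ E]
    [MeasurableSpace E] [BorelSpace E] {H : Type} [TopologicalSpace H] {I : ModelWithCorners ℝ E H}
    {M : Type} [TopologicalSpace M] [ChartedSpace H M] [IsManifold I ∞ M] [MeasurableSpace M]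
    (b : Bg I M κ lam ν nc) (a : Option κ → M → ℝ) {φ : M → Eu ν} {x : M} (h : SA I φ x) (r : ℝ) :
    b.eD ⟨a, fun y => r • φ y⟩ x = r • b.eD ⟨a, φ⟩ x := by
  have k : ∀ i, Sob92.dv I (b.F.e i) (fun y => r • φ y) x = _ := fun i =>
    Sob92.dv_const_smul r h.md
  simp only [Bg.eD, Wz78.dir, nab, Bg.W, smul_add, Finset.smul_sum, map_add, map_smul, k]

section nk
variable {e : En3 κ lam ν} {b : Bg X.I X.M κ lam ν nc} (K : Nk e b) {s : Bool} {u v t : ℝ}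
  {c : Cfg X.M κ ν} {J : Set ℝ}

theorem open_col : IsOpen (col K s u v) := by cases s <;> exact isOpen_Ioo

theorem vol_col : volume (col K s u v) = ENNReal.ofReal (v - u) := by cases s <;> simp [col]

theorem col_mono {u' v' : ℝ} (hu : u' ≤ u) (hv : v ≤ v') : col K s u v ⊆ col K s u' v' := by
  cases s <;> exact Ioo_subset_Ioo (by linarith) (by linarith)

theorem cont_sl (ht : t ∈ K.J) (h : ∀ y, ContinuousAt c.Φ (K.ψ (y, t))) :
    Continuous fun y => ‖c.Φ (K.ψ (y, t))‖ ^ 2 :=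
  (continuous_iff_continuousAt.2 fun y => (h y).comp (f := fun y => K.ψ (y, t))
    ((K.ψ.continuousAt (src K ht y)).comp (f := fun y => (y, t)) (by fun_prop))).norm.pow 2

theorem lint_eq (hJ : IsOpen J) (h : J ⊆ K.J) (hc : ∀ x ∈ univ ×ˢ J, ContinuousAt c.Φ (K.ψ x)) :
    ∫⁻ x in K.ψ '' univ ×ˢ J, ‖c.Φ x‖ₑ ^ 2 ∂b.F.μ =
      ∫⁻ t in J, ENNReal.ofReal (nm (sl (K.pb c) t)) := by
  have hs : univ ×ˢ J ⊆ K.ψ.source := fun x hx => K.mem_src.2 (h hx.2)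
  have o := isOpen_univ (X := e.Y.M).prod hJ
  have hO := (K.ψ.isOpen_image_of_subset_source o hs).measurableSet
  have a := (K.ψ.continuousOn.mono hs).aemeasurable (μ := e.D.Z.μ) o.measurableSet
  have r : b.F.μ.restrict (K.ψ '' univ ×ˢ J) = (e.D.Z.μ.restrict (univ ×ˢ J)).map K.ψ := by
    rw [← inter_eq_left.2 (image_subset_iff.2 fun x hx => K.ψ.map_source (hs hx) :
      K.ψ '' _ ⊆ K.ψ.target), ← Measure.restrict_restrict hO, ← K.iso.μ,
      Measure.restrict_map_of_aemeasurable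
        (K.ψ.continuousOn.aemeasurable K.ψ.open_source.measurableSet) hO,
      Measure.restrict_restrict' K.ψ.open_source.measurableSet, K.ψ.injOn.preimage_image_inter hs]
  have m : AEMeasurable (fun x => ‖c.Φ x‖ₑ ^ 2) (b.F.μ.restrict (K.ψ '' univ ×ˢ J)) :=
    (ContinuousOn.aemeasurable (forall_mem_image.2 fun x hx => (hc x hx).continuousWithinAt)
      hO).enorm.pow_const 2
  rw [r] at m
  have m' := m.comp_aemeasurable a
  rw [r, lintegral_map' m a]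
  have e1 : e.D.Z.μ.restrict (univ ×ˢ J) = e.D.F.μ.prod (volume.restrict J) := by
    rw [← Measure.restrict_univ (μ := e.D.F.μ), Measure.prod_restrict]; rfl
  rw [e1] at m' ⊢
  refine (lintegral_prod_symm _ m').trans (setLIntegral_congr_fun hJ.measurableSet fun t ht => ?_)
  simp only [enorm_sq]
  exact (ofReal_integral_eq_lintegral_ofReal ((cont_sl K (h ht) fun y =>
    hc _ ⟨trivial, ht⟩).integrable_of_hasCompactSupport (.of_compactSpace _))
      (.of_forall fun _ => sq_nonneg _)).symm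

theorem nm_sc (a : Option κ → X.M → ℝ) (φ : X.M → Eu ν) (r t : ℝ) :
    nm (sl (K.pb ⟨a, fun y => r • φ y⟩) t) = r ^ 2 * nm (sl (K.pb ⟨a, φ⟩) t) := by
  simp only [nm, sl, Cfg.pb, norm_smul, mul_pow, Real.norm_eq_abs, sq_abs, integral_const_mul]

theorem fq_sc (ht : t ∈ K.J) (h : ∀ y, LA b c (K.ψ (y, t))) (r : ℝ) :
    fq 0 (sl (K.pb ⟨c.a, fun y => r • c.Φ y⟩) t) = r ^ 2 * fq 0 (sl (K.pb c) t) := by
  have k := (Pb50.sl_adm fun y => la_ψ K (src K ht y) (h y)).sΦ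
  rw [fq, fq, ← integral_const_mul]
  refine integral_congr_ae (.of_forall fun y => ?_)
  simp only [zero_smul, sub_zero, dr, norm_neg]
  rw [← sq_abs r, ← Real.norm_eq_abs, ← mul_pow, ← norm_smul, ← map_smul,
    ← eD_sc e.cyl _ (k (y, 0)) r]
  rfl

variable (e) in
/-- bounds on a slice -/
theorem fq_bd (he : e.OK) (hw : 0 < e.w) (B : ℝ) : ∃ Λ, ∀ (b : Bg X.I X.M κ lam ν nc) (K : Nk e b)
    (c : Cfg X.M κ ν) (J : Set ℝ) t, IsOpen J → J ⊆ K.J → t ∈ J →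
    (∀ x ∈ univ ×ˢ J, LA b c (K.ψ x)) → (∀ y, ‖c.Φ (K.ψ (y, t))‖ +
      ∑ k, ‖nab X.I b.F.e (b.W c) k c.Φ (K.ψ (y, t))‖ ≤ B) →
    fq 0 (sl (K.pb c) t) ≤ Λ ∧ nm (sl (K.pb c) t) ≤ Λ := by
  obtain ⟨A, h1, h2⟩ : ∃ K, (∀ i x, ‖e.cyl.m.ρ i x‖ ≤ K) ∧ ∀ x, ‖e.cyl.ms x‖ ≤ K := by
    choose A hA using he.cyl.cρ
    obtain ⟨B, hB⟩ := he.cyl.cms
    obtain ⟨R, hR⟩ := (finite_range fun i => A i 0).bddAbove
    exact ⟨max R (B 0), fun i x => ((Sob92.CB_bound ((hA i).2 0) x).trans (hR ⟨i, rfl⟩)).trans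
      (le_max_left _ _), fun x => (Sob92.CB_bound (hB.2 0) x).trans (le_max_right _ _)⟩
  have bd : ∀ {g : e.Y.M → ℝ} {a : ℝ}, (∀ y, 0 ≤ g y) → (∀ y, g y ≤ a) →
      ∫ y, g y ∂e.D.F.μ ≤ e.D.F.μ.real univ * a := fun h0 h1 =>
    (integral_mono_of_nonneg (.of_forall h0) (integrable_const _) (.of_forall h1)).trans_eq
      (integral_const _)
  refine ⟨max (A ^ 4 * (8 * Fintype.card (Option κ) + 2) * (e.D.F.μ.real univ *
    (e.w * B ^ 2 + e.w ^ 2 * (B ^ 2) ^ 2) + e.w * (e.D.F.μ.real univ * B ^ 2)) / e.w)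
    (e.D.F.μ.real univ * B ^ 2), fun b K c J t hJ sub ht h hB => ?_⟩
  have s0 := fun y => Finset.sum_nonneg (s := Finset.univ) fun k _ =>
    norm_nonneg (nab X.I b.F.e (b.W c) k c.Φ (K.ψ (y, t)))
  have k0 : ∀ y, ‖c.Φ (K.ψ (y, t))‖ ^ 2 ≤ B ^ 2 := fun y =>
    pow_le_pow_left₀ (norm_nonneg _) (by linarith [s0 y, hB y]) 2
  have k1 : nm (sl (K.pb c) t) ≤ e.D.F.μ.real univ * B ^ 2 := bd (fun _ => sq_nonneg _) k0
  refine ⟨le_max_of_le_left ?_, le_max_of_le_right k1⟩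
  rw [le_div_iff₀' hw]
  refine (Gsl9.fq_le he hJ (Pb50.admOn_of fun x hx => la_ψ K (K.mem_src.2 (sub hx.2)) (h x hx))
    h1 h2 ht).trans (mul_le_mul_of_nonneg_left (add_le_add (bd (fun _ => Gsl9.vv_nonneg he _)
      fun y => add_le_add (mul_le_mul_of_nonneg_left ?_ hw.le) (mul_le_mul_of_nonneg_left
        (pow_le_pow_left₀ (sq_nonneg _) (k0 y) 2) (sq_nonneg _)))
      (mul_le_mul_of_nonneg_left k1 hw.le)) (by positivity))
  simp only [← Pb50.nab_ψ K (src K (sub ht) y)]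
  exact (Finset.sum_sq_le_sq_sum_of_nonneg fun _ _ => norm_nonneg _).trans (pow_le_pow_left₀ (s0 y)
    (by linarith [hB y, norm_nonneg (c.Φ (K.ψ (y, t)))]) 2)

end nk

variable {N : Type} [Fintype N] {e : N → En3 κ lam ν} {P : Pz X nc e} {σ : N → Bool} {i : N}
  {K : Nk (e i) P.bg} {d d' C C' M Λ : ℝ} {x : X.M} {c : Cfg X.M κ ν} {φ : X.M → Eu ν}

theorem vx_mono (h : d ≤ d') : Vx P σ d ⊆ Vx P σ d' := fun _ hx i a K k => sd_mono h (hx i a K k)

theorem lc_mono {b : Bg X.I X.M κ lam ν nc} {O O' : Set X.M} (h : Lc b O C c φ) (hO : O' ⊆ O)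
    (hC : C ≤ C') : Lc b O' C' c φ :=
  have k : ∀ {c}, b.AdmOn c O → b.AdmOn c O' := fun h => ⟨fun i => (h.sa i).mono hO, h.sΦ.mono hO,
    fun i x hx => h.pa i x (hO hx), fun x hx => h.pΦ x (hO hx)⟩
  ⟨k h.adm, k h.adm', fun x hx => h.eD x (hO hx), fun w a x hx => (h.eC w a x (hO hx)).trans hC,
    fun x hx => (h.sup x (hO hx)).trans hC,
    (lintegral_mono_set hO).trans (h.fc.trans (ENNReal.ofReal_le_ofReal hC))⟩

theorem lc_sc {b : Bg X.I X.M κ lam ν nc} {O : Set X.M} (h : Lc b O C c φ) (hO : IsOpen O) (r : ℝ) :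
    Lc b O C c fun y => r • φ y :=
  ⟨h.adm, ⟨h.adm'.sa, (contDiff_const_smul r).contMDiff.comp_contMDiffOn h.adm'.sΦ, h.adm'.pa,
    fun x hx => (map_smul _ _ _).trans (congrArg _ (h.adm'.pΦ x hx))⟩, fun x hx => ⟨(h.eD x hx).1, by
      rw [eD_sc b _ (LA.of_on h.adm' hO hx).sΦ, (h.eD x hx).2, smul_zero]⟩, h.eC, h.sup, h.fc⟩

theorem lint_sc (μ : Measure X.M) (φ : X.M → Eu ν) (r : ℝ) :
    ∫⁻ x, ‖r • φ x‖ₑ ^ 2 ∂μ = ‖r‖ₑ ^ 2 * ∫⁻ x, ‖φ x‖ₑ ^ 2 ∂μ := by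
  simp only [enorm_smul, mul_pow]
  exact lintegral_const_mul' _ _ (by simp)

variable (hP : P.OK)
include hP

theorem open_vx (h0 : 0 < d) (h1 : d ≤ 1) : IsOpen (Vx P σ d) := (Ect9.vx σ hP ⟨h0, h1⟩).1

theorem adj_vx (h : Adj P σ i) (hK : K ∈ P.nk i) {u : ℝ} (hu : 0 ≤ u) (h0 : 0 < d) (h1 : d ≤ 1)
    {z : (e i).Y.M × ℝ} (hz : z.2 ∈ col K (σ i) u d) : z.2 ∈ K.J ∧ K.ψ z ∈ Vx P σ d := by
  have f : ¬K.Inf (σ i) := fun k => h.fin ⟨K, hK, k⟩
  have j := col_J f (col_mono K hu h1 hz)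
  have s := K.mem_src.2 j
  refine ⟨j, fun j hj K' hK' => ?_⟩
  by_cases k : j = i
  · subst k
    obtain rfl := Option.mem_unique hK' hK
    exact col_sd f ((K'.tm_ψ z s).symm ▸ hz)
  · rw [h.os hP hj k]
    exact hf_sd h0 (on_spec hP k hK' hK (K.ψ.map_source s))

theorem adj_of (hi : ¬P.Off i) (hK : K ∈ P.nk i) (h : x ∈ K.ψ.target) (h1 : d ≤ 1)
    (hx : x ∈ Vx P σ d) : Adj P σ i := by
  have a := adj_vt hP hi (s := σ i) fun ⟨K', a, b⟩ => sd_fin (hx i hi K' a) b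
  have e : ∀ j, ¬P.Off j → vt P i (σ i) j = σ j := fun j hj => by
    by_cases k : j = i
    · rw [k, vt_self]
    · obtain ⟨K', hK'⟩ := nk_of_act hj
      rw [vt_ne k]
      exact sd_eq (by linarith) (hf_sd one_pos (on_spec hP k hK' hK h)) (hx j hj K' hK')
  exact ⟨hi, fun K' a' y hy j hj K₁ k => e j hj ▸ a.2 K' a' (vt_self (P := P) ▸ hy) j hj K₁ k⟩

/-- the mass of the larger vertex -/
theorem mass_le (h : ∀ x ∈ Vx P σ (7 / 8), ContinuousAt c.Φ x)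
    (g : ∀ i, Adj P σ i → Gw P M c i (σ i)) : ∫⁻ x in Vx P σ (3 / 4), ‖c.Φ x‖ₑ ^ 2 ∂P.bg.F.μ ≤
      (1 + Fintype.card N * ENNReal.ofReal M) * ∫⁻ x in Vx P σ (2 / 3), ‖c.Φ x‖ₑ ^ 2 ∂P.bg.F.μ := by
  set D := fun j => {x | Adj P σ j ∧ ∃ K ∈ P.nk j, x ∈ K.ψ '' univ ×ˢ col K (σ j) (5 / 8) (3 / 4)}
  have cov : Vx P σ (3 / 4) ⊆ Vx P σ (2 / 3) ∪ ⋃ j, D j := fun x hx => by
    by_cases k : x ∈ Vx P σ (2 / 3)
    · exact .inl k
    simp only [Vx, mem_ofPred_eq, not_forall, exists_prop] at k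
    obtain ⟨j, hj, K, hK, k⟩ := k
    have k1 := hx j hj K hK
    have k2 : K.tm x ∈ col K (σ j) (5 / 8) (3 / 4) := by
      revert k k1
      rcases σ j with _ | _ <;> intro k k1
      · obtain ⟨a, ha, k1⟩ := sd_f.1 k1
        exact (col_f ha).2 ⟨by_contra fun n => k (sd_f.2 ⟨a, ha, by linarith⟩), k1⟩
      · obtain ⟨a, ha, k1⟩ := sd_t.1 k1
        exact (col_t ha).2 ⟨k1, by_contra fun n => k (sd_t.2 ⟨a, ha, by linarith⟩)⟩
    have k3 := (col_mono K (u := 5 / 8) (v := 3 / 4) (by norm_num) (by norm_num)).trans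
      (col_J (sd_fin k1))
    exact .inr (mem_iUnion.2 ⟨j, adj_of hP hj hK ((tm_tgt K).2 (k3 k2)) (by norm_num) hx, K, hK,
      (mem_img K k3).2 k2⟩)
  refine ((lintegral_mono_set cov).trans (lintegral_union_le _ _ _)).trans ?_
  rw [add_mul, one_mul, mul_assoc]
  refine add_le_add_right ((lintegral_iUnion_le _ _).trans ?_) _
  rw [tsum_fintype, ← nsmul_eq_mul, ← Finset.card_univ]
  refine Finset.sum_le_card_nsmul _ _ _ fun j _ => ?_
  by_cases a : Adj P σ j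
  swap
  · simp [D, a]
  obtain ⟨K, hK⟩ := nk_of_act a.1
  have k : ∀ u v, 0 ≤ u → 0 < v → v ≤ 7 / 8 → ∫⁻ x in K.ψ '' univ ×ˢ col K (σ j) u v,
      ‖c.Φ x‖ₑ ^ 2 ∂P.bg.F.μ = ∫⁻ t in col K (σ j) u v, ENNReal.ofReal (nm (sl (K.pb c) t)) :=
    fun u v h0 h1 h2 => lint_eq K (open_col K) (fun t ht => (adj_vx hP a hK h0 h1 (by linarith)
      (z := (Classical.arbitrary _, t)) ht).1) fun x hx =>
        h _ (vx_mono h2 (adj_vx hP a hK h0 h1 (by linarith) hx.2).2)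
  refine (lintegral_mono_set (show D j ⊆ K.ψ '' univ ×ˢ col K (σ j) (5 / 8) (3 / 4) from
    fun x ⟨_, K', b, hx⟩ => by cases hK.symm.trans b; exact hx)).trans ?_
  rw [k _ _ (by norm_num) (by norm_num) (by norm_num)]
  refine (two_int (open_col K (s := σ j) (u := 1 / 2) (v := 5 / 8)).measurableSet
    (open_col K).measurableSet (by norm_num [vol_col]) (by norm_num [vol_col]) (by simp [vol_col])
    ENNReal.ofReal_ne_top fun t ht t' ht' => (ENNReal.ofReal_le_ofReal (g j a K hK t ht t' ht')).trans_eq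
      (ENNReal.ofReal_mul' (nm_nonneg _))).trans (mul_le_mul_right ?_ _)
  rw [← k _ _ (by norm_num) (by norm_num) (by norm_num)]
  exact lintegral_mono_set (image_subset_iff.2 fun x hx => vx_mono (by norm_num)
    (adj_vx hP a hK (by norm_num) (by norm_num) (by norm_num) hx.2).2)

variable (h : P.bg.AdmOn c (Vx P σ (7 / 8))) (a : Adj P σ i)
include h a

theorem la_col (hK : K ∈ P.nk i) {z : (e i).Y.M × ℝ} (hz : z.2 ∈ col K (σ i) (3 / 8) (1 / 2)) :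
    z.2 ∈ K.J ∧ LA P.bg c (K.ψ z) :=
  have k := adj_vx hP a hK (by norm_num) (by norm_num) (by norm_num) hz
  ⟨k.1, .of_on h (open_vx hP (by norm_num) (by norm_num)) (vx_mono (by norm_num) k.2)⟩

theorem gs_sc {r : ℝ} (hr : r ≠ 0) (g : Gs P Λ (ms P σ fun y => r • c.Φ y) ⟨c.a, fun y => r • c.Φ y⟩
    i (σ i)) : Gs P Λ (ms P σ c.Φ) c i (σ i) := fun K hK => by
  obtain ⟨t, ht, g⟩ := g K hK
  have k := fun y => la_col hP h a hK (z := (y, t)) ht
  have r0 : 0 < r ^ 2 := by positivity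
  have e : (ms P σ fun y => r • c.Φ y) = r ^ 2 * ms P σ c.Φ := by
    simp only [ms, norm_smul, mul_pow, Real.norm_eq_abs, sq_abs, integral_const_mul]
  rw [fq_sc K (k (Classical.arbitrary _)).1 fun y => (k y).2, nm_sc, e, mul_left_comm Λ,
    mul_left_comm Λ, mul_le_mul_iff_right₀ r0, mul_le_mul_iff_right₀ r0,
    mul_le_mul_iff_right₀ r0] at g
  exact ⟨t, ht, g⟩

theorem gs_zero (z : ∫⁻ x in Vx P σ (2 / 3), ‖c.Φ x‖ₑ ^ 2 ∂P.bg.F.μ = 0) :
    Gs P Λ (ms P σ c.Φ) c i (σ i) := fun K hK => by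
  have o := open_vx hP (σ := σ) (d := 2 / 3) (by norm_num) (by norm_num)
  have c1 := h.sΦ.continuousOn.mono (vx_mono (by norm_num : (2 / 3 : ℝ) ≤ _))
  have := Sob92.openPos P.bg.F.toPre
  rw [lintegral_eq_zero_iff' ((c1.aemeasurable o.measurableSet).enorm.pow_const 2)] at z
  have z' := Measure.eqOn_open_of_ae_eq (g := fun _ => 0) (z.mono fun x hx => by simpa using hx) o c1
    continuousOn_const
  obtain ⟨t, ht⟩ := col_ne (K := K) (s := σ i) (by norm_num : (3 / 8 : ℝ) < 1 / 2)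
  have k := fun y => la_col hP h a hK (z := (y, t)) ht
  have e : sl (K.pb c) t = sl (K.pb ⟨c.a, fun y => (0 : ℝ) • c.Φ y⟩) t :=
    YC.ext rfl (funext fun y => (z' (vx_mono (by norm_num) (adj_vx hP a hK (by norm_num)
      (by norm_num) (by norm_num) (z := (y, t)) ht).2)).trans (zero_smul _ _).symm)
  have m : ms P σ c.Φ = 0 := setIntegral_eq_zero_of_forall_eq_zero fun x hx => by
    simp [z' (vx_mono (by norm_num) hx)]
  refine ⟨t, ht, ?_⟩
  rw [e, m, fq_sc K (k (Classical.arbitrary _)).1 fun y => (k y).2, nm_sc]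
  simp

end Crest.Agent.X212.Cyc79.Uc
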