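import Crest.Agent.X212.Cyc79.Qa
import Crest.Agent.X212.Loc74.SwD

/-!
# Row 212, EC-UC (helper79): vertices, measures and covariant derivatives in a family
-/

set_option autoImplicit false
set_option linter.unusedSectionVars false
noncomputable section
open scoped Manifold ContDiff Topology InnerProductSpace ENNReal
open MeasureTheory Set Function Filter

namespace Crest.Agent.X212.Cyc79.Uc
open An Cyf70 Sw Sw.En3 End23
open M (Mf)
open Nd18 (Dp)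
open Cut71 (tm_tgt)
open Loc74 (Mt Mv)
open Prm93 (SB toB fn_toB)
open Wz78 (nab)

variable {κ lam ν : Type} [Fintype κ] [Fintype lam] [Fintype ν] [DecidableEq ν]
  {X : Mf 4} {nc : ℕ} {d : Dt κ lam ν} {N : Type} [Fintype N] {ty : N → d.𝓔} {i : N}

/-- the two time functions have the same sides -/
theorem mt_lt [ConnectedSpace X.M] {b b₀ : Bg X.I X.M κ lam ν nc} {K : Nk (d.e (ty i)) b}
    {K₀ : Nk (d.e (ty i)) b₀} {g : ℝ → ℝ} (h : Mt i K K₀ g) {τ : ℝ} (hτ : τ ∈ K₀.J) (x : X.M) :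
    (K.tm x < g τ ↔ K₀.tm x < τ) ∧ (g τ < K.tm x ↔ τ < K₀.tm x) := by
  have c := Ect9.con K isOpen_univ isPreconnected_univ (subset_univ _) ((h.mem τ).2 hτ)
  have o1 : IsOpen {x | K₀.tm x < τ} := isOpen_lt K₀.cont continuous_const
  have o2 : IsOpen {x | τ < K₀.tm x} := isOpen_lt continuous_const K₀.cont
  have dj : Disjoint {x | K₀.tm x < τ} {x | τ < K₀.tm x} :=
    disjoint_left.2 fun x (a : K₀.tm x < τ) (b : τ < K₀.tm x) => by linarith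
  have ne : ∀ x, K.tm x ≠ g τ → x ∈ {x | K₀.tm x < τ} ∪ {x | τ < K₀.tm x} := fun x a =>
    lt_or_gt_of_ne fun k : K₀.tm x = τ => a (k ▸ h.tm ((tm_tgt K₀).2 (k ▸ hτ)))
  have J := Nd18.isOpen_Jv.mem_nhds hτ
  obtain ⟨a, a1, a2⟩ := Filter.nonempty_of_mem (inter_mem (nhdsWithin_le_nhds J)
    (self_mem_nhdsWithin (s := Iio τ)))
  obtain ⟨a', b1, b2⟩ := Filter.nonempty_of_mem (inter_mem (nhdsWithin_le_nhds J)
    (self_mem_nhdsWithin (s := Ioi τ)))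
  obtain ⟨y, y1, rfl⟩ := exists_tm a1
  obtain ⟨z, z1, rfl⟩ := exists_tm b1
  rw [univ_inter, univ_inter] at c
  have A : K.tm x < g τ → K₀.tm x < τ := fun k => c.1.subset_left_of_subset_union o1 o2 dj
    (fun x k => ne x (ne_of_lt k)) (nonempty_of_mem (x := y) ⟨(h.tm y1).trans_lt (h.mono a2), a2⟩) k
  have B : g τ < K.tm x → τ < K₀.tm x := fun k => c.2.subset_right_of_subset_union o1 o2 dj
    (fun x k => ne x (ne_of_gt k))
    (nonempty_of_mem (x := z) ⟨(h.mono b2).trans_eq (h.tm z1).symm, b2⟩) k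
  have E : K.tm x = g τ → K₀.tm x = τ := fun k => h.mono.injective
    ((h.tm (h.tgt ((tm_tgt K).2 (k ▸ (h.mem τ).2 hτ)))).symm.trans k)
  rcases lt_trichotomy (K.tm x) (g τ) with k | k | k
  · simp [k, A k, k.not_gt, (A k).not_gt]
  · simp [k, E k]
  · simp [k, B k, k.not_gt, (B k).not_gt]

variable {T : Type} [NormedAddCommGroup T] [NormedSpace ℝ T] [FiniteDimensional ℝ T]
  {s : Pz X 0 fun i => d.e (ty i)} {𝓕 : Fam s nc T} {t₀ : T}

section mv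
variable {K₀ : Nk (d.e (ty i)) (𝓕.P t₀).bg} {g : T × ℝ → ℝ} {V : Set T} (m : Mv 𝓕 t₀ i K₀ g V)
  {r r' τ : ℝ} {b : Bool}
include m

theorem mv_tend (h : τ ∈ Dp K₀.p K₀.q 0) : Tendsto (fun t => g (t, τ)) (𝓝 t₀) (𝓝 τ) := by
  have := (m.sm.continuousOn.continuousAt (x := (t₀, τ)) (prod_mem_nhds m.nhd univ_mem)).comp
    (f := fun t => (t, τ)) (by fun_prop)
  rwa [ContinuousAt, comp_apply, m.id τ h] at this

theorem mv_ev : ∀ᶠ t in 𝓝 t₀, ∀ K ∈ (𝓕.P t).nk i, Mt i K K₀ fun σ => g (t, σ) :=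
  mem_of_superset m.nhd fun t ht _ hK => let ⟨_, a, k⟩ := m.mt t ht; Option.mem_unique a hK ▸ k

omit m in
theorem dp_f {a : ℝ} (h : K₀.p = some a) (h0 : 0 ≤ r) (h1 : r ≤ 1) :
    a + r ∈ Dp K₀.p K₀.q 0 ∧ (0 < r → a + r ∈ K₀.J) :=
  ⟨⟨fun a' k => by cases h.symm.trans k; linarith, fun q k => by linarith [K₀.len a h q k]⟩,
    fun _ => ⟨fun a' k => by cases h.symm.trans k; linarith,
      fun q k => by linarith [K₀.len a h q k]⟩⟩

omit m in
theorem dp_t {a : ℝ} (h : K₀.q = some a) (h0 : 0 ≤ r) (h1 : r ≤ 1) :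
    a - r ∈ Dp K₀.p K₀.q 0 ∧ (0 < r → a - r ∈ K₀.J) :=
  ⟨⟨fun q k => by linarith [K₀.len q k a h], fun a' k => by cases h.symm.trans k; linarith⟩,
    fun _ => ⟨fun q k => by linarith [K₀.len q k a h],
      fun a' k => by cases h.symm.trans k; linarith⟩⟩

theorem sd_cmp [ConnectedSpace X.M] (h0 : 0 < r) (h : r < r') (h1 : r' ≤ 1) : ∀ᶠ t in 𝓝 t₀,
    ∀ K ∈ (𝓕.P t).nk i, sd K b r ⊆ sd K₀ b r' ∧ sd K₀ b r ⊆ sd K b r' := by
  cases b
  · rcases e : K₀.p with _ | a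
    · filter_upwards [mv_ev m] with t k K hK
      constructor <;> intro x hx <;> simp [sd_f, (k K hK).p, e] at hx
    have k0 := mv_tend m (add_zero a ▸ (dp_f e le_rfl zero_le_one).1)
    have k1 := dp_f e h0.le (h.le.trans h1)
    have k2 := dp_f e (h0.trans h).le h1
    filter_upwards [mv_ev m, (k0.add_const r).eventually_lt (mv_tend m k2.1) (by linarith),
      (mv_tend m k1.1).eventually_lt (k0.add_const r') (by linarith)] with t k l1 l2 K hK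
    have p : K.p = some (g (t, a)) := by rw [(k K hK).p, e]; rfl
    constructor <;> intro x hx <;> obtain ⟨_, h2, h3⟩ := sd_f.1 hx
    · cases p.symm.trans h2
      exact sd_f.2 ⟨a, e, (mt_lt (k K hK) (k2.2 (h0.trans h)) x).1.1 (h3.trans l1)⟩
    · cases e.symm.trans h2
      exact sd_f.2 ⟨_, p, ((mt_lt (k K hK) (k1.2 h0) x).1.2 h3).trans l2⟩
  · rcases e : K₀.q with _ | a
    · filter_upwards [mv_ev m] with t k K hK
      constructor <;> intro x hx <;> simp [sd_t, (k K hK).q, e] at hx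
    have k0 := mv_tend m (sub_zero a ▸ (dp_t e le_rfl zero_le_one).1)
    have k1 := dp_t e h0.le (h.le.trans h1)
    have k2 := dp_t e (h0.trans h).le h1
    filter_upwards [mv_ev m, (mv_tend m k2.1).eventually_lt (k0.sub_const r) (by linarith),
      (k0.sub_const r').eventually_lt (mv_tend m k1.1) (by linarith)] with t k l1 l2 K hK
    have p : K.q = some (g (t, a)) := by rw [(k K hK).q, e]; rfl
    constructor <;> intro x hx <;> obtain ⟨_, h2, h3⟩ := sd_t.1 hx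
    · cases p.symm.trans h2
      exact sd_t.2 ⟨a, e, (mt_lt (k K hK) (k2.2 (h0.trans h)) x).2.1 (l1.trans h3)⟩
    · cases e.symm.trans h2
      exact sd_t.2 ⟨_, p, l2.trans ((mt_lt (k K hK) (k1.2 h0) x).2.2 h3)⟩

theorem col_cmp (f : ¬K₀.Inf b) (h0 : 0 ≤ r) (h1 : r' ≤ 1) (h : τ ∈ col K₀ b r r') :
    ∀ᶠ t in 𝓝 t₀, ∀ K ∈ (𝓕.P t).nk i, g (t, τ) ∈ col K b r r' := by
  have J := col_J f (col_mono K₀ h0 h1 h)
  have k1 := mv_tend m (τ := τ) ⟨fun a k => by linarith [J.1 a k], fun a k => by linarith [J.2 a k]⟩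
  cases b
  · obtain ⟨a, e⟩ := fin_f f
    have k0 := mv_tend m (add_zero a ▸ (dp_f e le_rfl zero_le_one).1)
    rw [col_f e] at h
    filter_upwards [mv_ev m, (k0.add_const r).eventually_lt k1 h.1,
      k1.eventually_lt (k0.add_const r') h.2] with t k l1 l2 K hK
    exact (col_f (by rw [(k K hK).p, e]; rfl)).2 ⟨l1, l2⟩
  · obtain ⟨a, e⟩ := fin_t f
    have k0 := mv_tend m (sub_zero a ▸ (dp_t e le_rfl zero_le_one).1)
    rw [col_t e] at h
    filter_upwards [mv_ev m, (k0.sub_const r').eventually_lt k1 h.1,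
      k1.eventually_lt (k0.sub_const r) h.2] with t k l1 l2 K hK
    exact (col_t (by rw [(k K hK).q, e]; rfl)).2 ⟨l1, l2⟩

end mv

variable (hF : 𝓕.OK) (h₀ : t₀ ∈ 𝓕.Q)
include hF h₀

section seq
variable {ι : Type} {l : Filter ι} [l.NeBot] {t : ι → T} (ht : Tendsto t l (𝓝 t₀))
include ht

theorem ex_mv (h : ∀ᶠ n in l, ¬(𝓕.P (t n)).Off i) : ∃ K₀ g V, Mv 𝓕 t₀ i K₀ g V :=
  (Loc74.mv_cases hF h₀ i).resolve_left fun k =>
    let ⟨_, a, b⟩ := (h.and (ht.eventually k)).exists; a b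

theorem vx_cmp {S : Set N} (hS : ∀ᶠ n in l, ∀ j, ¬(𝓕.P (t n)).Off j ↔ j ∈ S) (σ : N → Bool)
    {r r' : ℝ} (h0 : 0 < r) (h : r < r') (h1 : r' ≤ 1) : ∃ A ∈ l, ∀ n ∈ A, ∀ m ∈ A,
      Vx (𝓕.P (t n)).toPz σ r ⊆ Vx (𝓕.P (t m)).toPz σ r' := by
  have := hF.site.con
  have k : ∀ j, ∃ D : Set X.M, ∀ᶠ n in l, j ∈ S → ∀ K ∈ (𝓕.P (t n)).nk j,
      sd K (σ j) r ⊆ D ∧ D ⊆ sd K (σ j) r' := fun j => by
    by_cases a : j ∈ S
    · obtain ⟨K₀, g, V, m⟩ := ex_mv hF h₀ ht (hS.mono fun n k => (k j).2 a)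
      refine ⟨sd K₀ (σ j) ((r + r') / 2), ?_⟩
      filter_upwards [ht.eventually (sd_cmp m (r' := (r + r') / 2) h0 (by linarith) (by linarith)),
        ht.eventually (sd_cmp m (r := (r + r') / 2) (by linarith) (by linarith) h1)] with n k k' _ K b
      exact ⟨(k K b).1, (k' K b).2⟩
    · exact ⟨∅, .of_forall fun _ b => (a b).elim⟩
  choose D hD using k
  refine ⟨_, hS.and (eventually_all.2 hD), fun n hn m hm x hx j hj K hK => ?_⟩
  have a := (hm.1 j).1 hj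
  obtain ⟨K', hK'⟩ := nk_of_act ((hn.1 j).2 a)
  exact (hm.2 j a K hK).2 ((hn.2 j a K' hK').1 (hx j ((hn.1 j).2 a) K' hK'))

end seq

section sb
variable {V : Type} [NormedAddCommGroup V] [NormedSpace ℝ V]

theorem sb_near {f : T → X.M → V} (h : SB s.bg.F.toPre 𝓕.Q f) {ε : ℝ} (hε : 0 < ε) :
    ∀ᶠ t in 𝓝 t₀, ∀ x, ‖f t x - f t₀ x‖ ≤ ε := by
  have o := hF.opn.mem_nhds h₀
  filter_upwards [((h.sm 0).continuousOn.continuousAt o).eventually
    (Metric.closedBall_mem_nhds _ hε), o] with t k ht x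
  have := Sob92.CB_bound (Prm93.B.CB (toB s.bg.F.toPre 0 (f t) - toB _ 0 (f t₀))) x
  rw [map_sub, fn_toB (h.cb t ht), fn_toB (h.cb t₀ h₀)] at this
  exact this.trans (mem_closedBall_iff_norm.1 k)

theorem sb_fin {α : Type} [Finite α] {f : α → T → X.M → V} (h : ∀ a, SB s.bg.F.toPre 𝓕.Q (f a)) :
    ∃ R ≥ 0, ∀ᶠ t in 𝓝 t₀, ∀ a x, ‖f a t x‖ ≤ R := by
  choose C hC using fun a => (h a).bound 0 h₀
  obtain ⟨R, hR⟩ := (finite_range C).bddAbove
  simp only [hF.opn.nhdsWithin_eq h₀] at hC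
  exact ⟨|R|, abs_nonneg _, (eventually_all.2 hC).mono fun t k a x =>
    (Sob92.CB_bound (k a) x).trans ((hR ⟨a, rfl⟩).trans (le_abs_self R))⟩

end sb

theorem meas_le {Z : Set X.M} (hZ : IsCompact Z) :
    ∃ B ≠ ⊤, ∀ᶠ t in 𝓝 t₀, (𝓕.P t).bg.F.μ Z ≤ B := by
  obtain ⟨h, h1, h2⟩ := hF.dens
  obtain ⟨R, -, hR⟩ := sb_fin hF h₀ (f := fun _ : Unit => h) fun _ => h1
  refine ⟨ENNReal.ofReal R * s.bg.F.μ Z, ENNReal.mul_ne_top ENNReal.ofReal_ne_top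
    hZ.measure_lt_top.ne, ?_⟩
  filter_upwards [hR, hF.opn.mem_nhds h₀] with t k ht
  rw [(h2 t ht).2, withDensity_apply _ hZ.measurableSet, ← setLIntegral_const]
  exact lintegral_mono fun x => ENNReal.ofReal_le_ofReal (le_of_abs_le (k () x))

theorem meas_ge {O : Set X.M} {z : X.M} (hO : O ∈ 𝓝 z) :
    ∃ δ > (0 : ℝ), ∀ᶠ t in 𝓝 t₀, ENNReal.ofReal δ ≤ (𝓕.P t).bg.F.μ O := by
  obtain ⟨h, h1, h2⟩ := hF.dens
  have p := (h2 t₀ h₀).1 z
  obtain ⟨U, u1, u2, u3⟩ := mem_nhds_iff.1 (inter_mem hO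
    ((Prm93.Cb.sm (h1.cb t₀ h₀)).continuous.continuousAt.eventually
      (lt_mem_nhds (show h t₀ z * (2 / 3) < _ by linarith))))
  have := Sob92.openPos s.bg.F.toPre
  obtain ⟨δ, d0, d1, d2⟩ := ENNReal.lt_iff_exists_real_btwn.1 (ENNReal.mul_pos
    (ENNReal.ofReal_pos.2 (show 0 < h t₀ z / 3 by linarith)).ne' (u2.measure_ne_zero s.bg.F.μ ⟨z, u3⟩))
  refine ⟨δ, ENNReal.ofReal_pos.1 d1, ?_⟩
  filter_upwards [sb_near hF h₀ h1 (show 0 < h t₀ z / 3 by linarith), hF.opn.mem_nhds h₀] with t k ht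
  refine d2.le.trans (le_trans ?_ (measure_mono fun x hx => (u1 hx).1))
  rw [(h2 t ht).2, withDensity_apply _ u2.measurableSet, ← setLIntegral_const]
  refine setLIntegral_mono' u2.measurableSet fun x hx => ENNReal.ofReal_le_ofReal ?_
  linarith [(abs_le.1 (k x)).1, show h t₀ z * (2 / 3) < h t₀ x from (u1 hx).2]

theorem nab_bd (B : ℝ) : ∃ B', ∀ᶠ t in 𝓝 t₀, ∀ (c : Cfg X.M κ ν) x,
    (∀ i, ∑ j, (𝓕.P t).bg.B.P i j x * c.a j x = c.a i x) → ‖𝓕.al t c x‖ ≤ B → ‖c.Φ x‖ ≤ B →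
    (∀ k, ‖s.bg.F.D k c.Φ x‖ ≤ B) →
    ∀ k, ‖nab X.I (𝓕.P t).bg.F.e ((𝓕.P t).bg.W c) k c.Φ x‖ ≤ B' := by
  obtain ⟨R, R0, hR⟩ := sb_fin hF h₀ (f := fun (a : _ × _) t x => 𝓕.S t x a.1 a.2)
    fun a => hF.sS a.1 a.2
  obtain ⟨A, A0, hA⟩ := sb_fin hF h₀ hF.sA
  obtain ⟨C, hC⟩ := hF.site.bg.cp
  refine ⟨Fintype.card (Option κ) * (R * B) +
    (A + Fintype.card (Option κ) * (R * B) * (‖s.bg.m.J‖ * C 0)) * B, ?_⟩
  filter_upwards [hR, hA, hF.opn.mem_nhds h₀] with t k1 k2 ht c x h1 h2 h3 h4 k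
  have sm : ∀ {V : Type} [NormedAddCommGroup V] [NormedSpace ℝ V] (v : Option κ → V),
      (∀ b, ‖v b‖ ≤ B) → ‖∑ b, 𝓕.S t x k b • v b‖ ≤ Fintype.card (Option κ) * (R * B) := fun v h => by
    rw [← nsmul_eq_mul, ← Finset.card_univ]
    exact (norm_sum_le _ _).trans (Finset.sum_le_card_nsmul _ _ _ fun b _ =>
      (norm_smul_le _ _).trans (mul_le_mul (k1 (k, b) x) (h b) (norm_nonneg _) R0))
  have e1 : c.a k x = ∑ b, 𝓕.S t x k b • 𝓕.al t c x b := by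
    simp only [Fam.al, smul_eq_mul, Finset.mul_sum, ← mul_assoc]
    rw [Finset.sum_comm, ← h1 k, hF.B t ht]
    simp only [← Finset.sum_mul, hF.SSi t ht]
  have e2 : ‖(𝓕.P t).bg.jp x‖ ≤ ‖s.bg.m.J‖ * C 0 := by
    rw [Bg.jp, hF.m t ht]
    exact (norm_mul_le _ _).trans
      (mul_le_mul_of_nonneg_left (Sob92.CB_bound (hC.2 0) x) (norm_nonneg _))
  have e3 := sm _ fun b => (PiLp.norm_apply_le (𝓕.al t c x) b).trans h2
  have e4 : ‖(𝓕.P t).bg.W c k x‖ ≤ A + Fintype.card (Option κ) * (R * B) * (‖s.bg.m.J‖ * C 0) :=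
    (norm_add_le _ _).trans (add_le_add (k2 k x) ((norm_smul_le _ _).trans
      (mul_le_mul (e1 ▸ e3) e2 (norm_nonneg _) ((norm_nonneg _).trans e3))))
  exact (norm_add_le _ _).trans (add_le_add ((congrArg norm (congrFun ((hF.mix t ht).D k c.Φ)
    x)).trans_le (sm _ h4)) ((ContinuousLinearMap.le_opNorm _ _).trans
      (mul_le_mul e4 h3 (norm_nonneg _) ((norm_nonneg _).trans e4))))

end Crest.Agent.X212.Cyc79.Uc
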