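import Crest.Agent.X212.Cyc79.Qb

/-!
# Row 212, EC-UC (helper79): quantitative unique continuation in compact families
-/

set_option autoImplicit false
set_option linter.unusedSectionVars false
noncomputable section
open scoped Manifold ContDiff Topology InnerProductSpace ENNReal
open MeasureTheory Set Function Filter

namespace Crest.Agent.X212.Cyc79.Uc
open An Cyf70 Sw Sw.En3 End23
open M (Mf)
open Pb50 (LA LG)
open Wz78 (nab)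

variable {κ lam ν : Type} [Fintype κ] [Fintype lam] [Fintype ν] [DecidableEq ν]
  {X : Mf 4} {nc : ℕ} {d : Dt κ lam ν} {N : Type} [Fintype N] {ty : N → d.𝓔}
  {T : Type} [NormedAddCommGroup T] [NormedSpace ℝ T] [FiniteDimensional ℝ T]

theorem low_of {Z ι : Type} [TopologicalSpace Z] {l : Filter ι} [l.NeBot] {F : ι → Z → ℝ}
    {f : Z → ℝ} {W O : Set Z} (hW : IsOpen W) (h : TendstoLocallyUniformlyOn F f l W)
    (hc : ∀ᶠ n in l, ContinuousOn (F n) W ∧ ∀ x, 0 ≤ F n x) (n : ∀ z ∈ W, ¬f =ᶠ[𝓝 z] 0)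
    (hO : IsOpen O) (sub : O ⊆ W) (ne : O.Nonempty) :
    ∃ z ∈ O, ∃ δ > 0, ∃ U ∈ 𝓝 z, ∀ᶠ n in l, ∀ x ∈ U, δ ≤ F n x := by
  obtain ⟨z, hz, k⟩ : ∃ z ∈ O, f z ≠ 0 := by
    by_contra! k
    exact n _ (sub ne.some_mem) (mem_of_superset (hO.mem_nhds ne.some_mem) k)
  have w := hW.mem_nhds (sub hz)
  have p : 0 < f z := k.symm.lt_of_le (ge_of_tendsto (h.tendsto_at (sub hz)) (hc.mono fun _ a => a.2 z))
  obtain ⟨U, u1, u2⟩ := Metric.tendstoLocallyUniformlyOn_iff.1 h (f z / 3) (by linarith) z (sub hz)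
  rw [nhdsWithin_eq_nhds.2 w] at u1
  refine ⟨z, hz, f z / 3, by linarith, _, inter_mem u1 (((h.continuousOn
    (hc.mono fun _ a => a.1).frequently).continuousAt w).eventually
      (lt_mem_nhds (show f z * (2 / 3) < f z by linarith))), u2.mono fun n a x hx => ?_⟩
  linarith [(abs_lt.1 (a x hx.1)).2, show f z * (2 / 3) < f x from hx.2]

theorem bd_cpt {Z ι : Type} [TopologicalSpace Z] {l : Filter ι} {F : ι → Z → ℝ} {K : Set Z}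
    (hK : IsCompact K) (h : ∀ z ∈ K, ∃ V ∈ 𝓝 z, ∃ B, ∀ᶠ n in l, ∀ x ∈ V, F n x ≤ B) :
    ∃ B, ∀ᶠ n in l, ∀ x ∈ K, F n x ≤ B :=
  hK.induction_on (p := fun S => ∃ B, ∀ᶠ n in l, ∀ x ∈ S, F n x ≤ B)
    ⟨0, by simp⟩ (fun _ _ a ⟨B, k⟩ => ⟨B, k.mono fun _ k x hx => k x (a hx)⟩)
    (fun _ _ ⟨B, k⟩ ⟨B', k'⟩ => ⟨max B B', (k.and k').mono fun _ k x hx => hx.elim
      (fun a => le_max_of_le_left (k.1 x a)) fun a => le_max_of_le_right (k.2 x a)⟩)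
    fun z hz => let ⟨V, h1, h2⟩ := h z hz; ⟨V, nhdsWithin_le_nhds h1, h2⟩

variable (hA : LocaStmt d ty X nc T) (hU : LocuStmt d ty X nc T)
include hA hU

section seq
variable {s : Pz X 0 fun i => d.e (ty i)} {𝓕 : Fam s nc T} (hF : 𝓕.OK) {t₀ : T} (h₀ : t₀ ∈ 𝓕.Q)
  {ι : Type} {𝒰 : Ultrafilter ι} {t : ι → T} (ht : Tendsto t 𝒰 (𝓝 t₀))
  {c : ι → Cfg X.M κ ν} {φ : ι → X.M → Eu ν} {C : ℝ}
include hF h₀ ht

theorem loc {W : Set X.M} (hW : IsOpen W) (h : ∀ᶠ n in (𝒰 : Filter ι),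
    Lc (𝓕.P (t n)).bg W C (c n) (φ n) ∧
      ∫⁻ x in W, ‖φ n x‖ₑ ^ 2 ∂(𝓕.P (t n)).bg.F.μ ≤ ENNReal.ofReal C) :
    ∃ f : X.M → ℝ, TendstoLocallyUniformlyOn (fun n x => ‖φ n x‖) f 𝒰 W ∧
      (∀ z ∈ W, z ∈ closure {y | f =ᶠ[𝓝 y] 0} → f =ᶠ[𝓝 z] 0) ∧ ∀ Z ⊆ W, IsCompact Z →
      ∃ B, ∀ᶠ n in (𝒰 : Filter ι), ∀ x ∈ Z, ‖φ n x‖ + ∑ k, ‖nab X.I (𝓕.P (t n)).bg.F.e
        ((𝓕.P (t n)).bg.W ⟨(c n).a, φ n⟩) k (φ n) x‖ ≤ B := by
  set f := fun x => limUnder 𝒰 fun n => ‖φ n x‖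
  have key : ∀ z ∈ W, ∃ V ∈ 𝓝 z, TendstoLocallyUniformlyOn (fun n x => ‖φ n x‖) f 𝒰 V ∧
      (z ∈ closure {y | f =ᶠ[𝓝 y] 0} → f =ᶠ[𝓝 z] 0) ∧
      ∃ B, ∀ᶠ n in (𝒰 : Filter ι), ∀ x ∈ V, ‖φ n x‖ + ∑ k, ‖nab X.I (𝓕.P (t n)).bg.F.e
        ((𝓕.P (t n)).bg.W ⟨(c n).a, φ n⟩) k (φ n) x‖ ≤ B := fun z hz => by
    obtain ⟨V, o, zV, sub, u, hu, hB⟩ := hA s 𝓕 hF ι 𝒰 t c φ t₀ C W h₀ ht hW h z hz
    have la : ∀ᶠ n in (𝒰 : Filter ι), (𝓕.P (t n)).bg.OK ∧ ∀ x ∈ V,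
        LA (𝓕.P (t n)).bg ⟨(c n).a, φ n⟩ x ∧ LG X.I (u n) x := by
      filter_upwards [h, hu, ht.eventually (hF.opn.mem_nhds h₀)] with n k1 k2 k3
      exact ⟨(hF.ok _ k3).bg, fun x hx => ⟨.of_on k1.1.adm' hW (sub hx), .of_on k2 o hx⟩⟩
    obtain ⟨g, h1, h2⟩ := hU s 𝓕 hF ι 𝒰 t _ t₀ V h₀ ht o hB ((la.and h).mono fun n k x hx => by
      rw [Pb50.eD_act k.1.1 (k.1.2 x hx).1 (k.1.2 x hx).2, (k.2.1.eD x (sub hx)).2]
      exact map_zero (Pb50.cB _ _))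
    have e := la.mono fun n k x hx => Pb50.norm_act (c := ⟨(c n).a, φ n⟩) k.1
      (k.2 x hx).2.one.self_of_nhds
    have h3 : TendstoLocallyUniformlyOn (fun n x => ‖φ n x‖) g 𝒰 V := fun r hr x hx =>
      let ⟨U, a, b⟩ := h1 r hr x hx
      ⟨_, inter_mem a self_mem_nhdsWithin, (b.and e).mono fun n k y hy =>
        (congrArg (fun a => (g y, a) ∈ r) (k.2 y hy.2)).mp (k.1 y hy.1)⟩
    have h4 : EqOn g f V := fun x hx => (h3.tendsto_at hx).limUnder_eq.symm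
    have h5 : g =ᶠ[𝓝 z] f := mem_of_superset (o.mem_nhds zV) h4
    refine ⟨V, o.mem_nhds zV, h3.congr_right h4, fun k => h5.symm.trans (h2 z zV
      (mem_closure_iff_frequently.2 ((mem_closure_iff_frequently.1 k).mp
        (h5.eventuallyEq_nhds.mono fun y a b => a.trans b)))), ?_⟩
    obtain ⟨B, hB⟩ := hB
    obtain ⟨B', hB'⟩ := nab_bd hF h₀ B
    refine ⟨B + Fintype.card (Option κ) • B', ?_⟩
    filter_upwards [la, e, hB, ht.eventually hB'] with n k1 k2 k3 k4 x hx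
    have k5 := k3.2 [] (by simp) x hx
    refine add_le_add ((k2 x hx).symm.trans_le k5.2) (Finset.sum_le_card_nsmul _ _ _ fun k _ => ?_)
    rw [← Pb50.norm_cs k1.1.m.Jsq k1.1.m.Jsk (k1.2 x hx).2.one.self_of_nhds]
    exact (congrArg _ (Pb50.nab_act k1.1 (k1.2 x hx).1 (k1.2 x hx).2 k)).symm.trans_le
      (k4 _ x (fun i => k3.1.pa i x hx) k5.1 k5.2 (fun k => (k3.2 [k] (by simp) x hx).2) k)
  refine ⟨f, fun r hr z hz => ?_, fun z hz => let ⟨_, _, k⟩ := key z hz; k.2.1, fun Z sub hZ => ?_⟩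
  · obtain ⟨V, h1, h2, -⟩ := key z hz
    obtain ⟨U, a, b⟩ := h2 r hr z (mem_of_mem_nhds h1)
    exact ⟨U, nhdsWithin_le_nhds (nhdsWithin_eq_nhds.2 h1 ▸ a), b⟩
  · exact bd_cpt hZ fun z hz => let ⟨V, h1, _, _, h2⟩ := key z (sub hz); ⟨V, h1, h2⟩

theorem core {S : Set N} {σ : N → Bool} {i : N} {B : ℝ}
    (hS : ∀ᶠ n in (𝒰 : Filter ι), ∀ j, ¬(𝓕.P (t n)).Off j ↔ j ∈ S)
    (h : ∀ᶠ n in (𝒰 : Filter ι), Adj (𝓕.P (t n)).toPz σ i ∧
      Lc (𝓕.P (t n)).bg (Vx (𝓕.P (t n)).toPz σ (7 / 8)) C (c n) (φ n) ∧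
      ∫⁻ x in Vx (𝓕.P (t n)).toPz σ (2 / 3), ‖φ n x‖ₑ ^ 2 ∂(𝓕.P (t n)).bg.F.μ = 1 ∧
      ∫⁻ x in Vx (𝓕.P (t n)).toPz σ (3 / 4), ‖φ n x‖ₑ ^ 2 ∂(𝓕.P (t n)).bg.F.μ ≤ ENNReal.ofReal B) :
    ∃ Λ, ∀ᶠ n in (𝒰 : Filter ι),
      Gs (𝓕.P (t n)).toPz Λ (ms (𝓕.P (t n)).toPz σ (φ n)) ⟨(c n).a, φ n⟩ i (σ i) := by
  have ok := (ht.eventually (hF.opn.mem_nhds h₀)).mono fun n k => (hF.ok _ k).toOK
  obtain ⟨A₁, a1, b1⟩ := vx_cmp hF h₀ ht hS σ (r := 2 / 3) (r' := 7 / 10) (by norm_num) (by norm_num)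
    (by norm_num)
  obtain ⟨A₂, a2, b2⟩ := vx_cmp hF h₀ ht hS σ (r := 5 / 7) (r' := 3 / 4) (by norm_num) (by norm_num)
    (by norm_num)
  obtain ⟨A₃, a3, b3⟩ := vx_cmp hF h₀ ht hS σ (r := 1 / 3) (r' := 1 / 2) (by norm_num) (by norm_num)
    (by norm_num)
  obtain ⟨m, ⟨m1, m2, m3⟩, m4, m5, -⟩ :=
    ((show ∀ᶠ n in (𝒰 : Filter ι), n ∈ A₁ ∧ n ∈ A₂ ∧ n ∈ A₃ from inter_mem a1 (inter_mem a2 a3)).and
      (ok.and h)).exists
  obtain ⟨oW, cW, -, sW⟩ := Ect9.vx σ m4 (r := 5 / 7) (by norm_num)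
  have cZ := (Ect9.vx σ m4 (r := 7 / 10) (by norm_num)).2.2.1
  replace sW := sW (7 / 10) (by norm_num)
  have hW : ∀ᶠ n in (𝒰 : Filter ι), Lc (𝓕.P (t n)).bg _ (max C B) (c n) (φ n) ∧ _ :=
    (h.and a2).mono fun n k => ⟨lc_mono k.1.2.1 ((b2 m m2 n k.2).trans (vx_mono (by norm_num)))
      (le_max_left C B), (lintegral_mono_set (b2 m m2 n k.2)).trans (k.1.2.2.2.trans
        (ENNReal.ofReal_le_ofReal (le_max_right C B)))⟩
  obtain ⟨f, f1, f2, f3⟩ := loc hA hU hF h₀ ht oW hW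
  have nz : ∀ z ∈ Vx (𝓕.P (t m)).toPz σ (5 / 7), ¬f =ᶠ[𝓝 z] 0 := fun z hz k => by
    have e := cW.subset_of_closure_inter_subset isOpen_setOfPred_eventually_nhds ⟨z, hz, k⟩
      fun y hy => f2 y hy.2 hy.1
    obtain ⟨R, R0, hR⟩ := meas_le hF h₀ cZ
    obtain ⟨ε, e0, e1⟩ := ENNReal.exists_nnreal_pos_mul_lt R0 one_ne_zero
    obtain ⟨n, ⟨n1, n2⟩, n3, n4⟩ := (((Metric.tendstoUniformlyOn_iff.1
      ((tendstoLocallyUniformlyOn_iff_tendstoUniformlyOn_of_compact cZ).1 (f1.mono sW)) √ε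
        (by positivity)).and (ht.eventually hR)).and (h.and a1)).exists
    refine (e1.trans_le (n3.2.2.1.symm.trans_le ((lintegral_mono_set ((b1 n n4 m m1).trans
      subset_closure)).trans ((setLIntegral_mono' cZ.measurableSet (g := fun _ => ε)
        fun x hx => ?_).trans ((setLIntegral_const _ _).trans_le (mul_le_mul_right n2 _)))))).false
    have := n1 x hx
    rw [(e (sW hx)).self_of_nhds, Pi.zero_apply, dist_zero_left, norm_norm] at this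
    rw [enorm_sq, ← ENNReal.ofReal_coe_nnreal]
    exact ENNReal.ofReal_le_ofReal ((Real.le_sqrt (norm_nonneg _) ε.2).1 this.le)
  have low := fun O => low_of (O := O) oW f1
    (hW.mono fun n k => ⟨k.1.adm'.sΦ.continuousOn.norm, fun _ => norm_nonneg _⟩) nz
  obtain ⟨K₀, g, V, mv⟩ := ex_mv hF h₀ ht (h.mono fun n k => k.1.1)
  have ev := ht.eventually (mv_ev mv)
  have f0 : ¬K₀.Inf (σ i) := fun k => by
    obtain ⟨n, n1, n2⟩ := (ev.and h).exists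
    obtain ⟨K, hK⟩ := nk_of_act n2.1.1
    refine n2.1.fin ⟨K, hK, ?_⟩
    revert k
    cases σ i <;> simp +contextual [Nk.Inf, (n1 K hK).p, (n1 K hK).q]
  have J : col K₀ (σ i) (3 / 8) (1 / 2) ⊆ K₀.J :=
    (col_mono K₀ (by norm_num) (by norm_num)).trans (col_J f0)
  have cl := fun τ k => ht.eventually
    (col_cmp mv (r := 3 / 8) (r' := 1 / 2) (τ := τ) f0 (by norm_num) (by norm_num) k)
  have sub : K₀.ψ '' univ ×ˢ col K₀ (σ i) (3 / 8) (1 / 2) ⊆ Vx (𝓕.P (t m)).toPz σ (5 / 7) :=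
      image_subset_iff.2 fun x hx => by
    obtain ⟨n, ⟨n1, n2⟩, n3, n4, n5⟩ := ((ev.and (cl _ hx.2)).and (ok.and (h.and a1))).exists
    obtain ⟨K, hK⟩ := nk_of_act n4.1.1
    have := (adj_vx n3 n4.1 hK (by norm_num) (by norm_num) (by norm_num) (z := (x.1, _)) (n2 K hK)).2
    rw [(n1 K hK).ψ _ _ (J hx.2)] at this
    exact sW (subset_closure (b1 n n5 m m1 (vx_mono (by norm_num) this)))
  obtain ⟨_, ⟨⟨y, τ⟩, ⟨-, hτ⟩, rfl⟩, δ, d0, U, u1, u2⟩ := low _ (K₀.ψ.isOpen_image_of_subset_source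
    (isOpen_univ.prod (open_col K₀)) fun x hx => K₀.mem_src.2 (J hx.2)) sub
    ((univ_nonempty.prod (col_ne (by norm_num))).image _)
  have c0 : Continuous fun y => K₀.ψ (y, τ) :=
    K₀.ψ.continuousOn.comp_continuous (by fun_prop) (Pb50.src K₀ (J hτ))
  obtain ⟨R, hR⟩ := f3 _ (range_subset_iff.2 fun y => sub ⟨(y, τ), ⟨trivial, hτ⟩, rfl⟩)
    (isCompact_range c0)
  obtain ⟨K, hK⟩ := nk_of_act m5.1
  obtain ⟨Λ, hΛ⟩ := fq_bd (X := X) (nc := nc) _ (hF.site.en i) (by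
    obtain ⟨n, n1, n2⟩ := (h.and (ht.eventually (hF.opn.mem_nhds h₀))).exists
    obtain ⟨K, -⟩ := nk_of_act n1.1.1
    exact K.hw ▸ hF.w _ n2 ▸ hF.w0) R
  obtain ⟨r, hr⟩ := col_ne (K := K) (s := σ i) (by norm_num : (0 : ℝ) < 1 / 3)
  have o3 := open_vx m4 (σ := σ) (d := 1 / 3) (by norm_num) (by norm_num)
  obtain ⟨z, hz, δ', d1, U', v1, v2⟩ := low _ o3 (vx_mono (by norm_num))
    ⟨_, (adj_vx m4 m5 hK le_rfl (by norm_num) (by norm_num) (z := (y, r)) hr).2⟩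
  obtain ⟨O, o1, o2, o4⟩ := mem_nhds_iff.1 (inter_mem v1 (o3.mem_nhds hz))
  obtain ⟨η, e0, e1⟩ := meas_ge hF h₀ (o2.mem_nhds o4)
  have := Sob92.openPos (d.e (ty i)).D.F.toPre
  have p0 : 0 < δ ^ 2 * (d.e (ty i)).D.F.μ.real ((fun y => K₀.ψ (y, τ)) ⁻¹' U) :=
    mul_pos (by positivity) (ENNReal.toReal_pos (Measure.measure_pos_of_mem_nhds _
      (c0.continuousAt u1)).ne' (measure_ne_top _ _))
  set ν₀ := δ ^ 2 * (d.e (ty i)).D.F.μ.real ((fun y => K₀.ψ (y, τ)) ⁻¹' U)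
  refine ⟨(|Λ| + 1) / ν₀ + |Λ| / (δ' ^ 2 * η), ?_⟩
  filter_upwards [h, ok, ev, cl τ hτ, u2, v2, hR, ht.eventually e1, a3] with n n1 n2 n3 n4 n5 n6 n7 n8
    n9 K hK
  have la := fun z => la_col n2 n1.2.1.adm' n1.1 hK (z := z)
  have e := fun y => (n3 K hK).ψ y τ (J hτ)
  obtain ⟨k1, k2⟩ := hΛ _ K ⟨(c n).a, φ n⟩ _ _ (open_col K) (fun r hr => (la (y, r) hr).1) (n4 K hK)
    (fun x hx => (la x hx.2).2) fun y => by rw [e y]; exact n7 _ ⟨y, rfl⟩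
  have k3 : ν₀ ≤ nm (sl (K.pb ⟨(c n).a, φ n⟩) (g (t n, τ))) := le_trans (mul_le_mul_of_nonneg_left
    (measureReal_mono fun y hy => pow_le_pow_left₀ d0.le (by rw [e y]; exact n5 _ hy) 2) (sq_nonneg _))
    (mul_meas_ge_le_integral_of_nonneg (.of_forall fun _ => sq_nonneg _) ((cont_sl K (la (y, _)
      (n4 K hK)).1 fun y => (la (y, _) (n4 K hK)).2.sΦ.continuousAt).integrable_of_hasCompactSupport
        (.of_compactSpace _)) _)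
  have o := open_vx n2 (σ := σ) (d := 1 / 2) (by norm_num) (by norm_num)
  have l1 := (lintegral_mono_set (vx_mono (by norm_num : (1 / 2 : ℝ) ≤ 2 / 3))).trans_eq n1.2.2.1
  have l2 : ms (𝓕.P (t n)).toPz σ (φ n) = (∫⁻ x in Vx (𝓕.P (t n)).toPz σ (1 / 2), ‖φ n x‖ₑ ^ 2
      ∂(𝓕.P (t n)).bg.F.μ).toReal := by
    simp only [enorm_sq]
    exact integral_eq_lintegral_of_nonneg_ae (.of_forall fun _ => sq_nonneg _)
      (((n1.2.1.adm'.sΦ.continuousOn.mono (vx_mono (by norm_num))).norm.pow 2).aestronglyMeasurable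
        o.measurableSet)
  have k4 : ms (𝓕.P (t n)).toPz σ (φ n) ≤ 1 := l2 ▸ ENNReal.toReal_le_of_le_ofReal zero_le_one
    (l1.trans_eq ENNReal.ofReal_one.symm)
  have k5 : δ' ^ 2 * η ≤ ms (𝓕.P (t n)).toPz σ (φ n) := by
    rw [l2, ← ENNReal.ofReal_le_iff_le_toReal (ne_top_of_le_ne_top ENNReal.one_ne_top l1),
      ENNReal.ofReal_mul (sq_nonneg _)]
    refine ((mul_le_mul_right n8 _).trans_eq (setLIntegral_const _ _).symm).trans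
      ((setLIntegral_mono' o2.measurableSet fun x hx => ?_).trans
        (lintegral_mono_set fun x hx => b3 m m3 n n9 (o1 hx).2))
    rw [enorm_sq]
    exact ENNReal.ofReal_le_ofReal (pow_le_pow_left₀ d1.le (n6 x (o1 hx).1) 2)
  have q0 : 0 < δ' ^ 2 * η := by positivity
  have q1 : |Λ| + 1 ≤ _ := (div_mul_cancel₀ _ p0.ne').ge.trans (mul_le_mul
    (le_add_of_nonneg_right (show 0 ≤ |Λ| / (δ' ^ 2 * η) by positivity)) k3 p0.le (by positivity))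
  have q2 : |Λ| ≤ _ := (div_mul_cancel₀ _ q0.ne').ge.trans (mul_le_mul
    (le_add_of_nonneg_left (show 0 ≤ (|Λ| + 1) / ν₀ by positivity)) k5 q0.le (by positivity))
  exact ⟨_, n4 K hK, by linarith [le_abs_self Λ], by linarith [abs_nonneg Λ],
    by linarith [le_abs_self Λ]⟩

end seq

/-- **EC-UC** -/
theorem ucStmt : UcStmt d ty X nc T := fun s 𝓕 hF T₀ sub hT C M => by
  by_contra! n
  simp only [Uc, not_forall, exists_prop] at n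
  choose t ht σ c φ h1 h2 i h3 h4 using fun k : ℕ => n k
  have ok := fun k => (hF.ok _ (sub (ht k))).toOK
  obtain ⟨t₀, h₀, h⟩ := hT.ultrafilter_le_nhds' ((hyperfilter ℕ).map t)
    (Ultrafilter.mem_map.2 (univ_mem' ht))
  obtain ⟨⟨σ₀, i₀, S⟩, e⟩ := ((hyperfilter ℕ).map fun k =>
    (σ k, i k, {j | ¬(𝓕.P (t k)).Off j})).eq_pure_of_finite
  replace e : ∀ᶠ k in (hyperfilter ℕ : Filter ℕ), (σ k, i k, {j | ¬(𝓕.P (t k)).Off j}) = (σ₀, i₀, S) :=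
    (congrArg ({(σ₀, i₀, S)} ∈ ·) e).mpr (Ultrafilter.mem_pure.2 rfl)
  set m := fun k => ∫⁻ x in Vx (𝓕.P (t k)).toPz (σ k) (2 / 3), ‖φ k x‖ₑ ^ 2 ∂(𝓕.P (t k)).bg.F.μ
  have o := fun k => open_vx (ok k) (σ := σ k) (d := 7 / 8) (by norm_num) (by norm_num)
  have m0 : ∀ k, m k ≠ 0 := fun k z => h4 k
    (gs_zero (c := ⟨(c k).a, φ k⟩) (ok k) (h1 k).adm' (h3 k) z)
  have m1 : ∀ k, m k ≠ ⊤ := fun k => by
    obtain ⟨-, -, -, v⟩ := Ect9.vx (σ k) (ok k) (r := 7 / 8) (by norm_num)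
    have z := (Ect9.vx (σ k) (ok k) (r := 2 / 3) (by norm_num)).2.2.1
    obtain ⟨B, hB⟩ := z.exists_bound_of_continuousOn
      ((h1 k).adm'.sΦ.continuousOn.mono (v _ (by norm_num)))
    refine ne_top_of_le_ne_top ?_ ((lintegral_mono_set subset_closure).trans ((setLIntegral_mono'
      z.measurableSet (g := fun _ => ENNReal.ofReal B ^ 2) fun x hx => ?_).trans_eq
        (setLIntegral_const _ _)))
    · exact ENNReal.mul_ne_top (by simp) z.measure_lt_top.ne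
    · rw [← ofReal_norm]
      exact pow_le_pow_left' (ENNReal.ofReal_le_ofReal (hB x hx)) 2
  have p := fun k => ENNReal.toReal_pos (m0 k) (m1 k)
  have r : ∀ k, ‖(√(m k).toReal)⁻¹‖ₑ ^ 2 * m k = 1 := fun k => by
    rw [← ofReal_norm, ← ENNReal.ofReal_pow (norm_nonneg _), Real.norm_eq_abs, sq_abs, inv_pow,
      Real.sq_sqrt (p k).le, ENNReal.ofReal_inv_of_pos (p k), ENNReal.ofReal_toReal (m1 k),
      ENNReal.inv_mul_cancel (m0 k) (m1 k)]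
  obtain ⟨Λ, hΛ⟩ := core hA hU hF (sub h₀) (𝒰 := hyperfilter ℕ) (t := t) h (c := c) (C := C)
    (φ := fun k x => (√(m k).toReal)⁻¹ • φ k x) (S := S) (σ := σ₀) (i := i₀)
    (B := (1 + Fintype.card N * ENNReal.ofReal M).toReal)
    (e.mono fun k a j => by cases a; rfl) (e.mono fun k a => by
      cases a
      refine ⟨h3 k, lc_sc (h1 k) (o k) _, (lint_sc _ _ _).trans (r k), ?_⟩
      rw [lint_sc, ENNReal.ofReal_toReal (by finiteness)]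
      refine (mul_le_mul_right (mass_le (ok k) (c := ⟨(c k).a, φ k⟩) (fun x hx =>
        (h1 k).adm'.sΦ.continuousOn.continuousAt ((o k).mem_nhds hx)) (h2 k)) _).trans_eq ?_
      rw [mul_left_comm, r k, mul_one])
  obtain ⟨k, ⟨a, b⟩, k3⟩ := ((e.and hΛ).and (Nat.hyperfilter_le_atTop
    (tendsto_natCast_atTop_atTop.eventually_ge_atTop Λ))).exists
  cases a
  refine h4 k fun K hK => ?_
  obtain ⟨τ, a, b1, b2, b3⟩ := gs_sc (c := ⟨(c k).a, φ k⟩) (ok k) (h1 k).adm' (h3 k)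
    (inv_pos.2 (Real.sqrt_pos.2 (p k))).ne' b K hK
  exact ⟨τ, a, b1.trans (mul_le_mul_of_nonneg_right k3 (Sw88.nm_nonneg _)),
    b2.trans (mul_le_mul_of_nonneg_right k3 (Sw88.nm_nonneg _)),
    b3.trans (mul_le_mul_of_nonneg_right k3 (ms_nonneg _ _))⟩

end Crest.Agent.X212.Cyc79.Uc
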