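import Crest.Agent.X212.Cyc79.Lp

/-!
# Row 212, CYC (helper79): the second order expansion with a constant which does not see the weight
-/

set_option autoImplicit false
set_option linter.unusedSectionVars false
noncomputable section
open scoped Manifold ContDiff Topology InnerProductSpace
open MeasureTheory Set Function Filter

namespace Crest.Agent.X212.Cyc79
open An Sob92 Wz78 Dgr80
open Mp86 (Lop)

variable {E : Type} [NormedAddCommGroup E] [NormedSpace ℝ E] [FiniteDimensional ℝ E]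
  [MeasurableSpace E] [BorelSpace E]
  {HM : Type} [TopologicalSpace HM] {I : ModelWithCorners ℝ E HM} [I.Boundaryless]
  {M : Type} [TopologicalSpace M] [ChartedSpace HM M] [IsManifold I ∞ M]
  [MeasurableSpace M] [T2Space M] [BorelSpace M] [SecondCountableTopology M]
  {ι : Type} [Fintype ι] {F : Fr I M ι} {J : Type} {ψ : M → ℝ} {σ : ℝ}
  {N : Type} [NormedAddCommGroup N] [InnerProductSpace ℝ N]

/-- the weight `exp (2 (σ ψ + c))` -/
def ww (ψ : M → ℝ) (σ c : ℝ) (x : M) : ℝ := Real.exp (σ * ψ x + c) ^ 2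

theorem ww_pos (c : ℝ) (x : M) : 0 < ww ψ σ c x := pow_pos (Real.exp_pos _) _

theorem ww_inv (c : ℝ) (x : M) : ww ψ σ c x * ww ψ (-σ) (-c) x = 1 := by
  rw [ww, ww, ← mul_pow, ← Real.exp_add, neg_mul, ← neg_add, add_neg_cancel, Real.exp_zero, one_pow]

theorem ww_zero (x : M) : ww ψ 0 0 x = 1 := by simp [ww]

variable (F ψ) in
/-- an exhausting function -/
structure Xw : Prop where
  tame : ∃ C, F.Tame C
  sm : Sm I ψ
  cb : ∀ a, F.Cb (F.D a ψ)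
  gr : ∀ x, ∑ a, F.D a ψ x ^ 2 ≤ 1 / 256
  lop : ∀ x, |Lop I F.e F.dv ψ x| ≤ 1 / 32
  int : Integrable (ww ψ (-1) 0) F.μ
  pos : ∀ x, 0 ≤ ψ x

theorem o2_of {X : Cx F J} {N : Type} [NormedAddCommGroup N] {v : J → M → N}
    (hc : ∀ j, Continuous (v j)) (h : ∀ j, LB F.μ (fun x => X.W j x * ‖v j x‖ ^ 2) (X.D j)) :
    X.O2 v := ⟨hc, 1, zero_le_one, by simpa only [one_mul] using h⟩

namespace Xw
variable (h : Xw F ψ) (hσ : |σ| ≤ 1)
include h hσ

theorem wg (c : ℝ) : Wg F (ww ψ σ c) := by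
  have d := fun r => ((((hasDerivAt_id r).const_mul σ).add_const c).exp).fun_pow 2
  refine ⟨(Real.contDiff_exp.contMDiff.comp ((contMDiff_const.mul h.sm).add contMDiff_const)).pow 2,
    ww_pos c, fun x => ?_⟩
  have e := sum_cmp (F := F) h.sm (d (ψ x))
  have s : σ ^ 2 ≤ 1 := (sq_le_one_iff_abs_le_one σ).2 hσ
  simp only [id] at e
  refine (congrArg (4 * ·) e).trans_le ?_
  have := mul_le_mul s (h.gr x) (gr_nn F ψ x) zero_le_one
  have := mul_le_mul_of_nonneg_left this (sq_nonneg (ww ψ σ c x))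
  simp only [ww] at this ⊢
  push_cast
  nlinarith [sq_nonneg (Real.exp (σ * ψ x + c) ^ 2)]

/-- the weights `exp (2 (σ ψ + c j))` -/
def cx (c D : J → ℝ) (D0 : ∀ j, 0 ≤ D j) : Cx F J :=
  ⟨ww ψ (-1) 0, fun j => ww ψ σ (c j), D, amb_of_tame h.tame.choose_spec (h.wg (by simp) 0) h.int,
    fun j => h.wg hσ (c j), D0⟩

theorem ex (c D : J → ℝ) (D0 : ∀ j, 0 ≤ D j) : ∃ ψ k, Ex (h.cx hσ c D D0) ψ k := by
  have d := fun j r => ((hasDerivAt_id r).const_mul σ).add_const (c j)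
  have s : σ ^ 2 ≤ 1 := (sq_le_one_iff_abs_le_one σ).2 hσ
  refine ⟨fun j x => σ * ψ x + c j, 1, fun j => (contMDiff_const.mul h.sm).add contMDiff_const,
    fun a => ?_, fun j x => ?_, fun j x => ?_, fun j x => (one_mul _).ge, fun j x => (one_mul _).ge⟩
  · have := ub_fx (J := J) (Cb_smul (Cb_const σ) (h.cb a))
    exact cast (congrArg _ (funext₂ fun j x => by
      simpa using (D_cmp (F := F) h.sm (d j (ψ x)) a).symm)) this
  · refine (sum_cmp (F := F) h.sm (d j (ψ x))).trans_le ?_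
    nlinarith [h.gr x, gr_nn F ψ x]
  · rw [Mp86.Lop_add (Mp86.vf F.toPre x) (u := fun x => σ * ψ x)
      (Mp86.cm2 (contMDiff_const.mul h.sm) x) contMDiffAt_const,
      Mp86.Lop_const, Mp86.Lop_mul σ (Mp86.vf F.toPre x) (Mp86.cm2 h.sm x), add_zero]
    exact (le_abs_self _).trans ((abs_mul _ _).trans_le
      ((mul_le_of_le_one_left (abs_nonneg _) hσ).trans (h.lop x)))

omit hσ in
theorem big (D : J → ℝ) (D0 : ∀ j, 0 ≤ D j) : (h.cx abs_one.le (fun _ => 0) D D0).Big :=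
  ⟨fun _ x => by simpa only [neg_zero, cx] using (ww_inv (ψ := ψ) (σ := 1) 0 x).ge, 1, fun x =>
    pow_le_one₀ (Real.exp_pos _).le (Real.exp_le_one_iff.2 (by linarith [h.pos x]))⟩

end Xw

variable (F) in
/-- a density `f` on the space `S` of fields with the gradient `g` -/
structure Var (S : Submodule ℝ (M → N)) (f : (M → N) → M → ℝ) (g : (M → N) → M → N) : Prop where
  ct : ∀ u ∈ S, Continuous u
  lg : ∀ {J : Type} (X : Cx F J), (∃ ψ k, Ex X ψ k) → ∀ u ∈ S, ∀ v : J → M → N, (∀ j, v j ∈ S) →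
    X.O2 v → (X.O2 fun j x => f (u + v j) x - f u x) ∧ (X.O2 fun j x => g (u + v j) x - g u x) ∧
      X.Lw (g u) ∧ (X.Big → X.O1 fun j => ∫ x, (f (u + v j) x - f u x) ∂F.μ -
        ∫ x, ⟪v j x, g u x⟫_ℝ ∂F.μ) ∧ Continuous (f u)

/-- finite weighted norm -/
def Fw (F : Fr I M ι) (ψ : M → ℝ) (u : M → N) : Prop :=
  Integrable (fun x => ww ψ 1 0 x * ‖u x‖ ^ 2) F.μ

theorem lb_smul {W : M → ℝ} {u : M → N} {a : ℝ} (h : LB F.μ (fun x => W x * ‖u x‖ ^ 2) a) (s : ℝ) :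
    LB F.μ (fun x => W x * ‖(s • u) x‖ ^ 2) (s ^ 2 * a) := by
  simpa only [Pi.smul_apply, norm_smul, mul_pow, Real.norm_eq_abs, sq_abs, mul_left_comm] using
    h.mul (sq_nonneg s)

theorem Fw.smul {u : M → N} (h : Fw F ψ u) (s : ℝ) : Fw F ψ (s • u) := (lb_smul ⟨h, le_rfl⟩ s).1

theorem Fw.sq {u : M → N} (h : Fw F ψ u) (k : Xw F ψ) (hu : Continuous u) :
    Integrable (fun x => ‖u x‖ ^ 2) F.μ :=
  (LB.mono ⟨h, le_rfl⟩ (hu.norm.pow 2).aestronglyMeasurable (fun _ => sq_nonneg _) fun x =>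
    le_mul_of_one_le_left (sq_nonneg _)
      (one_le_pow₀ (Real.one_le_exp (by linarith [k.pos x])))).1

theorem abs_int_le {μ : Measure M} {f b : M → ℝ} {a : ℝ} (h : LB μ b a) (k : ∀ x, |f x| ≤ b x) :
    |∫ x, f x ∂μ| ≤ a :=
  (abs_integral_le_integral_abs.trans (integral_mono_of_nonneg (.of_forall fun _ => abs_nonneg _)
    h.1 (.of_forall k))).trans h.2

namespace Var
variable {S : Submodule ℝ (M → N)} {f : (M → N) → M → ℝ} {g : (M → N) → M → N} {u v : M → N}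
  (H : Var F S f g) (h : Xw F ψ)
include H h

theorem cont (hu : u ∈ S) : Continuous (f u) ∧ Continuous (g u) :=
  let ⟨_, _, a, _, b⟩ := H.lg _ (h.ex abs_one.le (fun _ : Empty => 0) (fun _ => 0) fun _ => le_rfl)
    u hu (fun _ => 0) (fun _ => S.zero_mem) Cx.o2_zero
  ⟨b, a.1⟩

theorem int (hu : u ∈ S) (hv : v ∈ S) (i : Fw F ψ v) :
    Integrable (fun x => f (u + v) x - f u x) F.μ ∧ Integrable (fun x => ⟪v x, g u x⟫_ℝ) F.μ := by
  have D0 : ∀ _ : Unit, 0 ≤ ∫ x, ww ψ 1 0 x * ‖v x‖ ^ 2 ∂F.μ := fun _ =>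
    integral_nonneg fun x => mul_nonneg (ww_pos _ x).le (sq_nonneg _)
  have o := o2_of (X := h.cx abs_one.le (fun _ => 0) _ D0) (fun _ => H.ct v hv) fun _ => ⟨i, le_rfl⟩
  obtain ⟨a, -, b, -⟩ := H.lg _ (h.ex _ _ _ D0) u hu _ (fun _ => hv) o
  exact ⟨a.int (h.big _ D0) () (Cx.lw_bd (v := fun _ => (1 : ℝ)) continuous_const ⟨1, by simp⟩)
    (a.1 ()) (K := 1) (by simp), o.inner (h.big _ D0) () b⟩

theorem der (hu : u ∈ S) (i : Fw F ψ u) (s : ℝ) :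
    HasDerivAt (fun s : ℝ => ∫ x, (f (s • u) x - f 0 x) ∂F.μ) (∫ x, ⟪u x, g (s • u) x⟫_ℝ ∂F.μ) s := by
  have D0 : ∀ ε : ℝ, 0 ≤ ε ^ 2 * ∫ x, ww ψ 1 0 x * ‖u x‖ ^ 2 ∂F.μ := fun _ => mul_nonneg (sq_nonneg _)
    (integral_nonneg fun x => mul_nonneg (ww_pos _ x).le (sq_nonneg _))
  obtain ⟨C, -, hC⟩ := (H.lg _ (h.ex _ _ _ D0) _ (S.smul_mem s hu) (fun ε => ε • u)
    (fun ε => S.smul_mem ε hu) (o2_of (fun ε => H.ct _ (S.smul_mem ε hu)) fun ε =>
      lb_smul ⟨i, le_rfl⟩ ε)).2.2.2.1 (h.big _ D0)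
  have i0 := fun t : ℝ => (H.int h S.zero_mem (S.smul_mem t hu) (i.smul t)).1
  simp only [zero_add] at i0
  refine hasDerivAt_iff_isLittleO_nhds_zero.2 ((Asymptotics.IsBigO.of_bound
    (C * ∫ x, ww ψ 1 0 x * ‖u x‖ ^ 2 ∂F.μ) (.of_forall fun ε => ?_)).trans_isLittleO
    (Asymptotics.isLittleO_pow_id one_lt_two))
  have := hC ε
  simp only [← add_smul, Pi.smul_apply, real_inner_smul_left, integral_const_mul] at this
  rw [← integral_sub (i0 _) (i0 _), Real.norm_of_nonneg (sq_nonneg ε)]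
  simp only [sub_sub_sub_cancel_right]
  exact this.trans_eq (by simp only [Xw.cx]; ring)

theorem lip : ∃ C, 0 ≤ C ∧ ∀ u ∈ S, Integrable (fun x => ‖u x‖ ^ 2) F.μ →
    LB F.μ (fun x => ‖g u x - g 0 x‖ ^ 2) (C * ∫ x, ‖u x‖ ^ 2 ∂F.μ) := by
  let J := {u : M → N // u ∈ S ∧ Integrable (fun x => ‖u x‖ ^ 2) F.μ}
  have D0 : ∀ j : J, 0 ≤ ∫ x, ‖j.1 x‖ ^ 2 ∂F.μ := fun _ => integral_nonneg fun x => sq_nonneg _
  obtain ⟨-, C, C0, hC⟩ := (H.lg _ (h.ex (σ := 0) (by simp) (fun _ => 0) _ D0) _ S.zero_mem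
    (fun j : J => j.1) (fun j => j.2.1) (o2_of (fun j => H.ct _ j.2.1) fun j => by
      simp only [Xw.cx, ww_zero, one_mul]; exact ⟨j.2.2, le_rfl⟩)).2.1
  exact ⟨C, C0, fun u hu i => by simpa only [Xw.cx, ww_zero, one_mul, zero_add] using hC ⟨u, hu, i⟩⟩

/-- **second order expansion** -/
theorem taylor : ∃ C, 0 ≤ C ∧ ∀ u ∈ S, Fw F ψ u →
    |∫ x, (f u x - f 0 x) ∂F.μ - ∫ x, ⟪u x, g 0 x⟫_ℝ ∂F.μ| ≤ C * ∫ x, ‖u x‖ ^ 2 ∂F.μ := by
  obtain ⟨C, C0, hC⟩ := H.lip h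
  refine ⟨1 + C, by positivity, fun u hu i => ?_⟩
  have i2 := i.sq h (H.ct u hu)
  have p : 0 ≤ ∫ x, ‖u x‖ ^ 2 ∂F.μ := integral_nonneg fun x => sq_nonneg _
  have key := norm_image_sub_le_of_norm_deriv_le_segment_01'
    (f := fun s : ℝ => ∫ x, (f (s • u) x - f 0 x) ∂F.μ - s * ∫ x, ⟪u x, g 0 x⟫_ℝ ∂F.μ)
    (fun s _ => ((H.der h hu i s).sub (hasDerivAt_mul_const _)).hasDerivWithinAt)
    (C := (1 + C) * ∫ x, ‖u x‖ ^ 2 ∂F.μ) fun s hs => ?_
  · simpa using key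
  have l := hC _ (S.smul_mem s hu) ((i.smul s).sq h (H.ct _ (S.smul_mem s hu)))
  simp only [Pi.smul_apply, norm_smul, mul_pow, Real.norm_eq_abs, sq_abs, integral_const_mul] at l
  rw [← integral_sub (H.int h (S.smul_mem s hu) hu i).2 (H.int h S.zero_mem hu i).2]
  refine (abs_int_le (LB.add ⟨i2, le_rfl⟩ l) fun x => ?_).trans ?_
  · rw [← inner_sub_right]
    nlinarith [abs_real_inner_le_norm (u x) (g (s • u) x - g 0 x), norm_nonneg (u x),
      sq_nonneg (‖u x‖ - ‖g (s • u) x - g 0 x‖), norm_nonneg (g (s • u) x - g 0 x)]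
  · nlinarith [mul_le_mul_of_nonneg_right (pow_le_one₀ hs.1 hs.2.le : s ^ 2 ≤ 1) (mul_nonneg C0 p)]

/-- the density of a weighted small variation, tested against a function -/
theorem test (hσ : |σ| ≤ 1) (hu : u ∈ S) {v : J → M → N} (hv : ∀ j, v j ∈ S) {c : J → ℝ} {m : ℝ}
    (h1 : ∀ j, LB F.μ (fun x => ww ψ σ (c j) x * ‖v j x‖ ^ 2) m) {θ : J → M → ℝ}
    (cθ : ∀ j, Continuous (θ j)) (h2 : ∀ j, LB F.μ (fun x => ww ψ (-σ) (-c j) x * θ j x ^ 2) m) :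
    ∃ K, ∀ j, Integrable (fun x => θ j x * (f (u + v j) x - f u x)) F.μ ∧
      |∫ x, θ j x * (f (u + v j) x - f u x) ∂F.μ| ≤ K := by
  have D0 : ∀ j, 0 ≤ (fun _ => m) j := fun j =>
    (h1 j).nonneg fun x => mul_nonneg (ww_pos _ x).le (sq_nonneg _)
  obtain ⟨ct, C, -, hC⟩ := (H.lg _ (h.ex hσ c _ D0) _ hu v hv (o2_of (fun j => H.ct _ (hv j)) h1)).1
  have b : ∀ j x, |θ j x * (f (u + v j) x - f u x)| ≤ ww ψ (-σ) (-c j) x * θ j x ^ 2 +
      ww ψ σ (c j) x * ‖f (u + v j) x - f u x‖ ^ 2 := fun j x => by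
    have p := ww_pos (ψ := ψ) (σ := σ) (c j) x
    have e := ww_inv (ψ := ψ) (σ := σ) (c j) x
    rw [abs_mul, ← sq_abs (θ j x), Real.norm_eq_abs]
    refine le_of_mul_le_mul_left ?_ p
    rw [mul_add, ← mul_assoc _ (ww ψ (-σ) _ x), e]
    nlinarith [sq_nonneg (|θ j x| - ww ψ σ (c j) x * |f (u + v j) x - f u x|), mul_nonneg p.le
      (mul_nonneg (abs_nonneg (θ j x)) (abs_nonneg (f (u + v j) x - f u x)))]
  exact ⟨m + C * m, fun j => ⟨((h2 j).add (hC j)).1.mono' ((cθ j).mul (ct j)).aestronglyMeasurable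
    (.of_forall (b j)), abs_int_le ((h2 j).add (hC j)) (b j)⟩⟩

/-- cutting a bounded field off changes the functional by a bounded amount -/
theorem cutoff (hu : u ∈ S) (b : Bd u) {θ : J → M → ℝ} (cθ : ∀ j, Continuous (θ j))
    (hθ : ∀ j, (fun x => θ j x • u x) ∈ S) {c : J → ℝ} {m : ℝ}
    (h1 : ∀ j, LB F.μ (fun x => ww ψ 1 (c j) x * θ j x ^ 2) m)
    (h2 : ∀ j, LB F.μ (fun x => ww ψ (-1) (-c j) x * (1 - θ j x) ^ 2) m)
    (i : ∀ j, Integrable (fun x => θ j x * (f u x - f 0 x)) F.μ) :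
    ∃ K, ∀ j, |∫ x, (f (fun x => θ j x • u x) x - f 0 x) ∂F.μ -
      ∫ x, θ j x * (f u x - f 0 x) ∂F.μ| ≤ K := by
  obtain ⟨R, hR⟩ := b
  have k : ∀ {τ : M → ℝ} {σ c : ℝ}, Continuous τ → LB F.μ (fun x => ww ψ σ c x * τ x ^ 2) m →
      LB F.μ (fun x => ww ψ σ c x * τ x ^ 2) ((1 + R ^ 2) * m) ∧
      LB F.μ (fun x => ww ψ σ c x * ‖τ x • u x‖ ^ 2) ((1 + R ^ 2) * m) := fun {τ σ c} hτ l => by
    have p := fun x => mul_nonneg (ww_pos (ψ := ψ) (σ := σ) c x).le (sq_nonneg (τ x))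
    have m0 := l.nonneg p
    refine ⟨l.le (by nlinarith [sq_nonneg R]), LB.le ?_ (show R ^ 2 * m ≤ _ by linarith)⟩
    simpa only [norm_smul, mul_pow, Real.norm_eq_abs, sq_abs, mul_assoc] using l.bdd p
      ((H.ct u hu).norm.fun_pow 2) (fun _ => sq_nonneg _) (sq_nonneg R)
      fun x => pow_le_pow_left₀ (norm_nonneg _) (hR x) 2
  have c1 : ∀ j, Continuous fun x => 1 - θ j x := fun j => continuous_const.sub (cθ j)
  obtain ⟨K1, a1⟩ := H.test h abs_one.le S.zero_mem hθ (fun j => (k (cθ j) (h1 j)).2) c1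
    fun j => (k (c1 j) (h2 j)).1
  obtain ⟨K2, a2⟩ := H.test h (σ := -1) (by simp) hu (v := fun j => (fun x => θ j x • u x) - u)
    (fun j => S.sub_mem (hθ j) hu) (c := fun j => -c j) (fun j => by
      simpa only [sub_smul, one_smul, norm_sub_rev (u _), Pi.sub_apply] using (k (c1 j) (h2 j)).2)
    cθ fun j => by simpa only [neg_neg] using (k (cθ j) (h1 j)).1
  simp only [zero_add, add_sub_cancel] at a1 a2
  refine ⟨K1 + K2, fun j => ?_⟩
  have e := integral_add (((a1 j).1.fun_add (a2 j).1)) (i j)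
  rw [integral_add (a1 j).1 (a2 j).1] at e
  rw [(integral_congr_ae (.of_forall fun x => by ring)).trans e, add_sub_cancel_right]
  exact (abs_add_le _ _).trans (add_le_add (a1 j).2 (a2 j).2)

end Var

end Crest.Agent.X212.Cyc79
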