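import Crest.Agent.X212.Cyc79.Defs
import Crest.Agent.X212.Sob92.Bas
import Crest.Agent.X212.Sob92.Lim

/-!
# Row 212, CYC (helper79): weakly smooth maps into a Hilbert space are smooth
-/

set_option autoImplicit false
set_option linter.unusedSectionVars false
noncomputable section
open scoped Manifold ContDiff Topology InnerProductSpace
open MeasureTheory Set Function Filter Metric

namespace Crest.Agent.X212.Cyc79
open An Sob92

section flat
variable {E K : Type*} [NormedAddCommGroup E] [NormedSpace ℝ E] [FiniteDimensional ℝ E]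
  [NormedAddCommGroup K] [InnerProductSpace ℝ K] [CompleteSpace K] {U : Set E} {f : E → K}

/-- a weakly bounded family is bounded -/
theorem bdd_of_weak {J : Type*} {v : J → K} (h : ∀ k : K, ∃ C, ∀ j, |⟪k, v j⟫_ℝ| ≤ C) :
    ∃ C, 0 ≤ C ∧ ∀ j, ‖v j‖ ≤ C := by
  obtain ⟨C, hC⟩ := banach_steinhaus (g := fun j => innerSL ℝ (v j)) fun k => by
    obtain ⟨C, hC⟩ := h k
    exact ⟨C, fun j => by simpa [real_inner_comm] using hC j⟩
  exact ⟨|C|, abs_nonneg _, fun j => by simpa using (hC j).trans (le_abs_self C)⟩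

theorem ws_lip (hU : IsOpen U) (hf : ∀ k, ContDiffOn ℝ ∞ (fun x => ⟪k, f x⟫_ℝ) U) {x₀ : E}
    (hx : x₀ ∈ U) : ∃ r > 0, ∃ C, 0 ≤ C ∧ closedBall x₀ r ⊆ U ∧
      ∀ x ∈ closedBall x₀ r, ∀ y ∈ closedBall x₀ r, ‖f x - f y‖ ≤ C * ‖x - y‖ := by
  obtain ⟨r, hr, hs⟩ := nhds_basis_closedBall.mem_iff.1 (hU.mem_nhds hx)
  have := FiniteDimensional.proper_real E
  obtain ⟨C, hC0, hC⟩ := bdd_of_weak
    (v := fun p : closedBall x₀ r × closedBall x₀ r => ‖p.1.1 - p.2.1‖⁻¹ • (f p.1.1 - f p.2.1))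
    fun k => by
      have hc : ContinuousOn (fderiv ℝ fun x => ⟪k, f x⟫_ℝ) (closedBall x₀ r) :=
        ((hf k).continuousOn_fderiv_of_isOpen hU (by simp)).mono hs
      obtain ⟨C, hC⟩ := (isCompact_closedBall x₀ r).exists_bound_of_continuousOn hc
      refine ⟨|C|, fun p => ?_⟩
      have := (convex_closedBall x₀ r).norm_image_sub_le_of_norm_fderiv_le
        (f := fun x => ⟪k, f x⟫_ℝ) (C := |C|)
        (fun x hx => ((hf k).contDiffAt (hU.mem_nhds (hs hx))).differentiableAt (by simp))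
        (fun x hx => (hC x hx).trans (le_abs_self C)) p.2.2 p.1.2
      rw [inner_smul_right, inner_sub_right, abs_mul, abs_inv, abs_norm]
      rcases (norm_nonneg (p.1.1 - p.2.1)).eq_or_lt with h | h
      · rw [← h]; simp
      · rw [inv_mul_le_iff₀ h, mul_comm]; exact this
  refine ⟨r, hr, C, hC0, hs, fun x hx y hy => ?_⟩
  have := hC (⟨x, hx⟩, ⟨y, hy⟩)
  rcases (norm_nonneg (x - y)).eq_or_lt with h | h
  · rw [sub_eq_zero.1 (norm_eq_zero.1 h.symm)]; simp
  · rwa [norm_smul, norm_inv, norm_norm, inv_mul_le_iff₀ h, mul_comm] at this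

theorem ws_cont (hU : IsOpen U) (hf : ∀ k, ContDiffOn ℝ ∞ (fun x => ⟪k, f x⟫_ℝ) U) :
    ContinuousOn f U := fun x₀ hx => by
  obtain ⟨r, hr, C, h0, -, h⟩ := ws_lip hU hf hx
  have : LipschitzOnWith C.toNNReal f (closedBall x₀ r) :=
    LipschitzOnWith.of_dist_le' fun x hx y hy => by simpa [dist_eq_norm] using h x hx y hy
  exact (this.continuousOn.continuousAt (closedBall_mem_nhds x₀ hr)).continuousWithinAt

theorem ws_der (hU : IsOpen U) (hf : ∀ k, ContDiffOn ℝ ∞ (fun x => ⟪k, f x⟫_ℝ) U) {x : E}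
    (hx : x ∈ U) : ∃ g : E →L[ℝ] K, ∀ k v, ⟪k, g v⟫_ℝ = fderiv ℝ (fun x => ⟪k, f x⟫_ℝ) x v := by
  obtain ⟨r, hr, C, h0, -, h⟩ := ws_lip hU hf hx
  have hd : ∀ k, DifferentiableAt ℝ (fun x => ⟪k, f x⟫_ℝ) x := fun k =>
    ((hf k).contDiffAt (hU.mem_nhds hx)).differentiableAt (by simp)
  let L : K →ₗ[ℝ] E →L[ℝ] ℝ :=
    { toFun := fun k => fderiv ℝ (fun x => ⟪k, f x⟫_ℝ) x
      map_add' := fun k l => by
        simp only [inner_add_left]; exact fderiv_fun_add (hd k) (hd l)
      map_smul' := fun t k => by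
        simp only [real_inner_smul_left, RingHom.id_apply]
        exact fderiv_fun_const_smul (hd k) t }
  have hb : ∀ k, ‖L k‖ ≤ C * ‖k‖ := fun k => by
    refine norm_fderiv_le_of_lip' ℝ (by positivity) ?_
    filter_upwards [closedBall_mem_nhds x hr] with y hy
    rw [← inner_sub_right]
    refine (norm_inner_le_norm _ _).trans ?_
    have := h y hy x (mem_closedBall_self hr.le)
    calc ‖k‖ * ‖f y - f x‖ ≤ ‖k‖ * (C * ‖y - x‖) := by gcongr
      _ = C * ‖k‖ * ‖y - x‖ := by ring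
  refine ⟨(InnerProductSpace.toDual ℝ K).symm.toContinuousLinearEquiv.toContinuousLinearMap ∘L
    (L.mkContinuous C hb).flip, fun k v => ?_⟩
  rw [real_inner_comm]
  exact InnerProductSpace.toDual_symm_apply

theorem ws_nat (hU : IsOpen U) (n : ℕ) : ∀ {f : E → K},
    (∀ k, ContDiffOn ℝ ∞ (fun x => ⟪k, f x⟫_ℝ) U) → ContDiffOn ℝ n f U := by
  induction n with
  | zero => exact fun hf => contDiffOn_zero.2 (ws_cont hU hf)
  | succ n ih =>
    intro f hf
    choose! g hg using fun x hx => ws_der hU hf (x := x) hx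
    have hw : ∀ v k, ContDiffOn ℝ ∞ (fun x => ⟪k, g x v⟫_ℝ) U := fun v k =>
      ((((hf k).fderiv_of_isOpen hU (m := ∞) (by simp)).clm_apply
        (contDiffOn_const (c := v)))).congr fun x hx => hg x hx k v
    have hc : ContinuousOn g U := continuousOn_clm_apply.2 fun v => ws_cont hU (hw v)
    have hd : ∀ x ∈ U, HasFDerivAt f (g x) x := fun x hx => by
      rw [hasFDerivAt_iff_isLittleO, Asymptotics.isLittleO_iff]
      intro ε hε
      have h1 : ∀ᶠ y in 𝓝 x, y ∈ U ∧ ‖g y - g x‖ ≤ ε := by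
        filter_upwards [hU.mem_nhds hx, (hc.continuousAt (hU.mem_nhds hx)).eventually
          (closedBall_mem_nhds (g x) hε)] with y h1 h2 using ⟨h1, by simpa [dist_eq_norm] using h2⟩
      obtain ⟨r, hr, hs⟩ := nhds_basis_ball.eventually_iff.1 h1
      filter_upwards [ball_mem_nhds x hr] with y hy
      set k := f y - f x - g x (y - x)
      have := (convex_ball x r).norm_image_sub_le_of_norm_hasFDerivWithin_le'
        (f := fun x => ⟪k, f x⟫_ℝ) (f' := fun z => innerSL ℝ k ∘L g z) (φ := innerSL ℝ k ∘L g x)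
        (C := ‖k‖ * ε) (fun z hz => by
          have : innerSL ℝ k ∘L g z = fderiv ℝ (fun x => ⟪k, f x⟫_ℝ) z :=
            ContinuousLinearMap.ext fun v => hg z (hs hz).1 k v
          rw [this]
          exact (((hf k).contDiffAt (hU.mem_nhds (hs hz).1)).differentiableAt
            (by simp)).hasFDerivAt.hasFDerivWithinAt)
        (fun z hz => by
          rw [← ContinuousLinearMap.comp_sub]
          refine (ContinuousLinearMap.opNorm_comp_le _ _).trans ?_
          rw [innerSL_apply_norm]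
          exact mul_le_mul_of_nonneg_left (hs hz).2 (norm_nonneg _)) (mem_ball_self hr) hy
      rw [ContinuousLinearMap.comp_apply, innerSL_apply_apply, ← inner_sub_right,
        ← inner_sub_right, real_inner_self_eq_norm_sq, Real.norm_eq_abs, abs_of_nonneg (sq_nonneg _),
        sq, mul_assoc] at this
      rcases (norm_nonneg k).eq_or_lt with h | h
      · rw [← h]; positivity
      · exact le_of_mul_le_mul_left this h
    rw [Nat.cast_succ, contDiffOn_succ_iff_fderiv_of_isOpen hU]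
    refine ⟨fun x hx => (hd x hx).differentiableAt.differentiableWithinAt, by simp, ?_⟩
    exact (contDiffOn_clm_apply.2 fun v => ih (hw v)).congr fun x hx => (hd x hx).fderiv

/-- **weakly smooth maps are smooth** -/
theorem ws_on (hU : IsOpen U) (hf : ∀ k, ContDiffOn ℝ ∞ (fun x => ⟪k, f x⟫_ℝ) U) :
    ContDiffOn ℝ ∞ f U := contDiffOn_infty.2 fun n => ws_nat hU n hf

end flat

variable {E : Type} [NormedAddCommGroup E] [NormedSpace ℝ E] [FiniteDimensional ℝ E]
  [MeasurableSpace E] [BorelSpace E]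
  {HM : Type} [TopologicalSpace HM] {I : ModelWithCorners ℝ E HM} [I.Boundaryless]
  {M : Type} [TopologicalSpace M] [ChartedSpace HM M] [IsManifold I ∞ M]
  [MeasurableSpace M] {ι : Type} [Fintype ι]
  {K : Type} [NormedAddCommGroup K] [InnerProductSpace ℝ K] [CompleteSpace K]

theorem sm_of_weak {f : M → K} (hf : ∀ k, Sm I fun x => ⟪k, f x⟫_ℝ) : Sm I f := fun x₀ => by
  have h : ContDiffOn ℝ ∞ (f ∘ (extChartAt I x₀).symm) (extChartAt I x₀).target :=
    ws_on (isOpen_extChartAt_target x₀) fun k =>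
      ((hf k).comp_contMDiffOn (contMDiffOn_extChartAt_symm x₀)).contDiffOn
  have h1 := (h.contDiffAt (extChartAt_target_mem_nhds x₀)).contMDiffAt
  exact (h1.comp x₀ contMDiffAt_extChartAt).congr_of_eventuallyEq
    (eq_comp_chart (mem_chart_source HM x₀) f)

omit [I.Boundaryless] in
theorem D_clm (F : Pre I M ι) {N N' : Type} [NormedAddCommGroup N] [NormedSpace ℝ N]
    [NormedAddCommGroup N'] [NormedSpace ℝ N'] (L : N →L[ℝ] N') {f : M → N} (hf : Sm I f) (a : ι) :
    F.D a (fun x => L (f x)) = fun x => L (F.D a f x) :=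
  funext fun _ => dv_clm L (hf.mdifferentiableAt (by simp))

omit [I.Boundaryless] in
theorem Dw_clm (F : Pre I M ι) {N N' : Type} [NormedAddCommGroup N] [NormedSpace ℝ N]
    [NormedAddCommGroup N'] [NormedSpace ℝ N'] (L : N →L[ℝ] N') (w : List ι) :
    ∀ {f : M → N}, Sm I f → F.Dw w (fun x => L (f x)) = fun x => L (F.Dw w f x) := by
  induction w with
  | nil => exact fun _ => rfl
  | cons a w ih => intro f hf; rw [Pre.Dw, D_clm F L hf, ih (F.sm_D hf a)]; rfl

theorem cb_of_weak {F : Pre I M ι} {f : M → K} (hf : ∀ k, F.Cb fun x => ⟪k, f x⟫_ℝ) : F.Cb f := by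
  have hs : Sm I f := sm_of_weak fun k => (hf k).choose_spec.1
  have : ∀ n : ℕ, ∃ C, F.CB n f C := fun n => by
    obtain ⟨C, -, hC⟩ := bdd_of_weak
      (v := fun p : {w : List ι // w.length ≤ n} × M => F.Dw p.1.1 f p.2) fun k => by
        obtain ⟨C, hC⟩ := hf k
        refine ⟨C n, fun p => ?_⟩
        have := hC.2 n p.1.1 p.1.2 p.2
        rwa [show (fun x => ⟪k, f x⟫_ℝ) = fun x => innerSL ℝ k (f x) from rfl, Dw_clm F _ _ hs]
          at this
    exact ⟨C, fun w hw x => hC (⟨w, hw⟩, x)⟩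
  choose C hC using this
  exact ⟨C, hs, hC⟩

variable {κ : Type} [Fintype κ]

theorem inner_fm (η v : Fm κ K) :
    ⟪η, v⟫_ℝ = ∑ i, PiLp.proj (𝕜 := ℝ) 2 (fun _ : κ => ℝ) i (ct (η i) v) := PiLp.inner_apply η v

theorem sm_of_ct {α : M → Fm κ K} (h : ∀ k, Sm I fun x => ct k (α x)) : Sm I α :=
  sm_of_weak fun η => by
    simp only [inner_fm]
    exact contMDiff_finsetSum fun i _ => (ContinuousLinearMap.contMDiff _).comp (h (η i))

theorem cb_of_ct {F : Pre I M ι} {α : M → Fm κ K} (h : ∀ k, F.Cb fun x => ct k (α x)) : F.Cb α :=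
  cb_of_weak fun η => by
    simp only [inner_fm]
    exact Cb_sum _ fun i _ => Cb_clm _ (h (η i))

theorem ext_ct {v w : Fm κ K} (h : ∀ k, ct k v = ct k w) : v = w := by
  ext i
  exact ext_inner_left ℝ fun k => congrArg (fun y : Eu κ => y i) (h k)

end Crest.Agent.X212.Cyc79
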