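import Crest.Agent.X212.Msi61.Tw
import Crest.Agent.X212.Eqv71.Nek

/-!
# Row 212, MS-AFT (helper79): a variable phase is a gauge transformation of the spinor words
-/

set_option autoImplicit false
set_option linter.unusedSectionVars false
noncomputable section
open scoped Manifold ContDiff Topology InnerProductSpace
open MeasureTheory Set Function Filter

namespace Crest.Agent.X212.Cyc79.Af
open An Wz78 Sob92 Mp86 Dgr80 Eqv71 Msi61
open Wrd81 (wd)
open ContinuousLinearMap (adjoint)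

section ph
variable {κ : Type} [Fintype κ] [DecidableEq κ] {J S : En κ} {s t : ℝ}

/-- the phase -/
abbrev ph (J : En κ) (s : ℝ) : En κ := csL J (Circle.exp s)

theorem ph_eq (J : En κ) (s : ℝ) : ph J s = Real.cos s • (1 : En κ) + Real.sin s • J := by
  simp [csL, Circle.coe_exp, Complex.exp_ofReal_mul_I_re, Complex.exp_ofReal_mul_I_im]

theorem ph_ph (h : J * J = -1) (a : Eu κ) : ph J s (ph J t a) = ph J (s + t) a := by
  simp only [csL_apply, cs_cs h, Circle.exp_add]

theorem ph_neg (h : J * J = -1) (a : Eu κ) : ph J (-s) (ph J s a) = a := by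
  rw [ph_ph h, neg_add_cancel, csL_apply, Circle.exp_zero, Circle.coe_one, cs_one]

theorem neg_ph (h : J * J = -1) (a : Eu κ) : ph J s (ph J (-s) a) = a := by
  simpa only [neg_neg] using ph_neg (s := -s) h a

theorem conj_exp (s : ℝ) : starRingEnd ℂ (Circle.exp s) = Circle.exp (-s) := by
  rw [Circle.exp_neg, Circle.coe_inv_eq_conj]

theorem trn_ph (k : Skw J) : trn (ph J s) = ph J (-s) := by rw [trn_csL k, conj_exp]

theorem inner_ph (h : J * J = -1) (k : Skw J) (a b : Eu κ) :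
    ⟪ph J s a, ph J s b⟫_ℝ = ⟪a, b⟫_ℝ := by rw [← inner_trn', trn_ph k, ph_neg h]

theorem norm_ph (h : J * J = -1) (k : Skw J) (a : Eu κ) : ‖ph J s a‖ = ‖a‖ := by
  rw [norm_eq_sqrt_real_inner, inner_ph h k, ← norm_eq_sqrt_real_inner]

theorem ph_comm (h : J * S = S * J) (a : Eu κ) : S (ph J s a) = ph J s (S a) :=
  map_cs h.symm _ a

theorem ph_anti (h : S * J = -(J * S)) (a : Eu κ) : S (ph J s a) = ph J (-s) (S a) := by
  rw [csL_apply, map_cs_anti h, conj_exp]; rfl

theorem deriv_ph (h : J * J = -1) : deriv (ph J) s = J * ph J s := by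
  rw [funext (ph_eq J), (((Real.hasDerivAt_cos s).smul_const _).fun_add
    ((Real.hasDerivAt_sin s).smul_const J)).deriv]
  simp only [mul_add, mul_smul_comm, h, mul_one, smul_neg, neg_smul, add_comm]

theorem contDiff_ph (J : En κ) : ContDiff ℝ ∞ (ph J) := by
  rw [funext (ph_eq J)]
  exact (Real.contDiff_cos.smul contDiff_const).add (Real.contDiff_sin.smul contDiff_const)

end ph

variable {E : Type} [NormedAddCommGroup E] [NormedSpace ℝ E] [FiniteDimensional ℝ E]
  [MeasurableSpace E] [BorelSpace E]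
  {HM : Type} [TopologicalSpace HM] {I : ModelWithCorners ℝ E HM} [I.Boundaryless]
  {M : Type} [TopologicalSpace M] [ChartedSpace HM M] [IsManifold I ∞ M]
  [MeasurableSpace M] [T2Space M] [BorelSpace M] [SecondCountableTopology M]
  {ι lam : Type} [Fintype ι] [Fintype lam] {r : ℕ} {F : Fr I M ι}

section eng
variable {V U : Type} [NormedAddCommGroup V] [InnerProductSpace ℝ V] [CompleteSpace V]
  [NormedAddCommGroup U] [InnerProductSpace ℝ U] [CompleteSpace U]
  {A A' : ι → M → CL V V} {T : M → CL V V}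

variable (F A A' T) in
/-- a gauge transformation -/
structure Gt : Prop where
  res : ∀ s, F.res A' (fun x => T x (s x)) = fun x => T x (F.res A s x)
  nab : ∀ a s, Sm I s → ∀ x, nab I F.e A' a (fun x => T x (s x)) x = T x (nab I F.e A a s x)

variable (T) in
/-- letters which commute with it -/
def Cm : SL M V → Prop
  | .op S => ∀ x v, S x (T x v) = T x (S x v) ∧ adjoint (S x) (T x v) = T x (adjoint (S x) v)
  | .G => True

namespace Gt
variable (h : Gt F A A' T)
include h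

theorem wd (s : M → V) : ∀ {w : List (SL M V)}, (∀ a ∈ w, Cm T a) →
    wd (sl F A') (fun x => T x (s x)) w = fun x => T x (wd (sl F A) s w x)
  | [], _ => rfl
  | .op S :: w, hw => by
    rw [Wrd81.wd_cons, Wrd81.wd_cons, wd s fun b hb => hw b (by simp [hb])]
    exact funext fun x => (hw (.op S) (by simp) x _).1
  | .G :: w, hw => by
    rw [Wrd81.wd_cons, Wrd81.wd_cons, wd s fun b hb => hw b (by simp [hb])]
    exact h.res _

theorem bk : ∀ {w : List (SL M V)} (l : M → V), (∀ a ∈ w, Cm T a) →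
    bk F A' w (fun x => T x (l x)) = fun x => T x (bk F A w l x)
  | [], _, _ => rfl
  | .op S :: w, l, hw => by
    simp only [Dgr80.bk, slT, fun x v => (hw (.op S) (by simp) x v).2]
    exact bk _ fun b hb => hw b (by simp [hb])
  | .G :: w, l, hw => by
    simp only [Dgr80.bk, slT, h.res]
    exact bk _ fun b hb => hw b (by simp [hb])

theorem gc {ρ : CL U (CL V V)} {S : M → CL U U}
    (hr : ∀ x a b, tp ρ (T x a) (T x b) = S x (tp ρ a b)) (s : M → V) (x : M) (a : ι) :
    ∀ {w : List (SL M V)} (l : M → V), (∀ a ∈ w, Cm T a) →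
      gc F A' ρ (fun x => T x (s x)) w (fun x => T x (l x)) x a = S x (gc F A ρ s w l x a)
  | [], _, _ => (map_zero _).symm
  | .op S :: w, l, hw => by
    simp only [Dgr80.gc, slT, fun x v => (hw (.op S) (by simp) x v).2]
    exact gc hr s x a _ fun b hb => hw b (by simp [hb])
  | .G :: w, l, hw => by
    have k : ∀ b ∈ w, Cm T b := fun b hb => hw b (by simp [hb])
    simp only [Dgr80.gc, h.res, h.wd s k, PiLp.sub_apply, gc hr s x a _ k, cur,
      h.nab a _ (sm_res _ _ _), hr, map_sub, map_add]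

end Gt
end eng

variable {B : Base M ι lam} {G : Geo I M ι lam} {θ : M → ℝ} {c : Cfg M ι lam r}

variable (F θ c) in
/-- the connection in the rotating gauge -/
@[reducible] def gau : Cfg M ι lam r := ⟨c.m, fun a x => c.W a x + F.D a θ x • c.m.J, c.Φ, c.z⟩

theorem skw_gau (k : Skw c.m.J) {a : ι} {x : M} (h : Skw (c.W a x)) : Skw ((gau F θ c).W a x) :=
  fun v w => by
    simp only [add_apply, smul_apply, inner_add_left, inner_add_right, real_inner_smul_left,
      real_inner_smul_right, h v w, k v w]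
    ring

variable (θ c) in
/-- seeds which do not see the spinor -/
def SI (S : Sed M ι lam r) : Prop := S.s (rot θ c) = S.s c ∧ S.sA (rot θ c) = S.sA c

theorem la_rot : (rot θ c).la F = c.la F := funext fun t => by cases t <;> rfl

theorem si_cy (d : Cy M) : SI θ c (d.sed F) := by
  have e1 : bf F (rot θ c) = bf F c := by unfold bf; rw [la_rot]
  have e2 : AA F (rot θ c) = AA F c := by unfold AA; rfl
  have e3 : rr F (rot θ c) = rr F c := by unfold rr; rfl
  have e4 : wv F (rot θ c) = wv F c := by unfold wv; rw [e2]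
  have e5 : adl F (rot θ c) = adl F c := by unfold adl; rw [e3]
  have e6 : gh F (rot θ c) = gh F c := by unfold gh; rw [e1, e2, e3, e4]
  simp only [SI, Cy.sed, Cy.al, Cy.be, e1, e3, e4, e5, e6, and_self]

theorem SI.wd {S : Sed M ι lam r} (h : SI θ c S) (w : List (La M)) : SI θ c (S.wd F w) := by
  have e : laS (rot θ c) = laS c := funext fun t => by cases t <;> rfl
  simp only [SI, Sed.wd, h.1, h.2, la_rot, e, and_self]

theorem SI.den {S S' : Sed M ι lam r} (h : SI θ c S) (k : SI θ c S') :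
    (Den.sed S S').h (rot θ c) = (Den.sed S S').h c ∧
      (Den.sed S S').gA (rot θ c) = (Den.sed S S').gA c := by
  simp only [Den.sed, h.1, h.2, k.1, k.2, and_self]

section nat
variable (hb : Bumps I G.F.e G.F.dv) (hθ : Sm I θ) (h : Ad0 c B G)
include hθ h

theorem itw (x : M) : Itw I G.F.e (gau G.F θ c).W c.W (fun x => ph c.m.J (θ x)) x ∧
    Itw I G.F.e c.W (gau G.F θ c).W (fun x => ph c.m.J (-θ x)) x := by
  have e := fun a => congrFun (Nka63.D_time (F := G.F.toPre) hθ (contDiff_ph c.m.J) a) x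
  have e' := fun a => congrFun (Nka63.D_time (F := G.F.toPre) hθ.neg (contDiff_ph c.m.J) a) x
  have n : ∀ a, G.F.D a (fun x => -θ x) x = -G.F.D a θ x := fun a => dv_neg θ x
  simp only [deriv_ph h.ok.Jsq, Pre.D_def] at e e' n
  refine ⟨fun a => ?_, fun a => ?_⟩
  · rw [e]
    ext1 v
    simp only [add_apply, smul_apply, ContinuousLinearMap.comp_apply, mul_apply_eq_comp, map_add,
      map_smul, ph_comm (h.conn.J a x), ph_comm (rfl : c.m.J * c.m.J = _), Pre.D_def, add_comm]
  · erw [e', n]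
    ext1 v
    simp only [add_apply, smul_apply, ContinuousLinearMap.comp_apply, mul_apply_eq_comp,
      ph_comm (h.conn.J a x), Pre.D_def, neg_smul, neg_apply]
    abel

theorem mc_gau : Mc I (gau G.F θ c).W :=
  ⟨fun a => ((Eqv71.mc_W h.conn).sm a).add ((G.F.sm_D hθ a).smul contMDiff_const),
    fun a x => skw_gau h.ok.Jsk (h.conn.sk a x)⟩

theorem nab_rot (a : ι) {s : M → c.m.V} (hs : Sm I s) (x : M) :
    nab I G.F.e c.W a (fun x => ph c.m.J (θ x) (s x)) x =
      ph c.m.J (θ x) (nab I G.F.e (gau G.F θ c).W a s x) :=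
  (itw hθ h x).1.nab ((sm_csL _ hθ).mdifferentiableAt (by simp)) (hs.mdifferentiableAt (by simp)) a

omit hθ in
theorem cm_lt (u : SW M) : ∀ a ∈ u.map (ltS G.F c), Cm (fun x => ph c.m.J (θ x)) a :=
  List.forall_mem_map.2 fun t _ => by
    have k : ∀ (f : ι → ℝ) x, c.m.J * ∑ a, f a • c.m.ρ a x = (∑ a, f a • c.m.ρ a x) * c.m.J :=
      fun f x => by simp only [Finset.mul_sum, Finset.sum_mul, mul_smul_comm, smul_mul_assoc, h.ok.Jρ]
    cases t with
    | mul f => exact fun x v => ⟨(map_smul (ph c.m.J (θ x)) (f x) v).symm, by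
        rw [adj_smul_one, adj_smul_one, map_smul]⟩
    | cl g => exact fun x v => ⟨ph_comm (k _ x) v, by
        simp only [adj_cl h.ok, map_smul, ph_comm (k _ x)]⟩
    | im => exact fun x v => ⟨ph_comm rfl v, by
        simp only [adj_J h.ok, map_smul, ph_comm (rfl : c.m.J * c.m.J = _)]⟩
    | G => trivial

omit hθ in
theorem nP_rot : nP (rot θ c) = fun x => ph c.m.J (θ x) (nP c x) := funext fun x => by
  simp only [nP, ← csL_apply, norm_ph h.ok.Jsq h.ok.Jsk, map_smul]

omit hθ in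
theorem pg_cj (s : ℝ) (x : M) (ξ : c.m.A) : c.m.pg x (cj (ph c.m.J s) ξ) = c.m.pg x ξ := by
  rw [← sub_eq_zero, ← map_sub]
  refine pg_eq_zero fun η hη => ?_
  rw [inner_sub_right, real_inner_comm, inner_cj, trn_ph h.ok.Jsk, cj_apply, trn_ph h.ok.Jsk,
    neg_neg, real_inner_comm, sub_eq_zero]
  congr 1
  refine (congrArg hsL (ContinuousLinearMap.ext fun v => ?_)).trans (Eqv71.hsL_opL η)
  simp only [ContinuousLinearMap.comp_apply, ph_comm (g_J hη), ph_neg h.ok.Jsq]

include hb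

theorem gt : Gt G.F (gau G.F θ c).W c.W fun x => ph c.m.J (θ x) :=
  have b : ∀ θ : M → ℝ, ∃ C, ∀ x, ‖ph c.m.J (θ x)‖ ≤ C := fun _ => ⟨1, fun _ =>
    ContinuousLinearMap.opNorm_le_bound _ zero_le_one fun v => by
      rw [norm_ph h.ok.Jsq h.ok.Jsk, one_mul]⟩
  ⟨fun _ => res_map hb (mc_gau hθ h).sm (Eqv71.mc_W h.conn) (sm_csL _ hθ) (sm_csL _ hθ.neg) (b _) (b _)
    (fun x => (itw hθ h x).1) (fun x => (itw hθ h x).2) fun _ => ph_neg h.ok.Jsq _,
    fun a _ hs => nab_rot hθ h a hs⟩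

theorem nw_rot (u : SW M) (x : M) :
    nw G.F (rot θ c) u x = ph c.m.J (θ x) (nw G.F (gau G.F θ c) u x) := by
  rw [nw_eq, nw_eq, nP_rot h]
  exact congrFun ((gt hb hθ h).wd _ (cm_lt h u)) x

theorem swP_rot (u : SW M) (l : M → c.m.V) (x : M) :
    swP G.F (rot θ c) u (fun x => ph c.m.J (θ x) (l x)) x =
      ph c.m.J (θ x) (swP G.F (gau G.F θ c) u l x) := by
  have := (gt hb hθ h).bk l (cm_lt h u)
  rw [swP, swP]
  erw [this]
  simp only [dn, ← csL_apply, norm_ph h.ok.Jsq h.ok.Jsk, inner_ph h.ok.Jsq h.ok.Jsk, map_sub,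
    map_smul]
  rfl

theorem swA_rot (u : SW M) (l : M → c.m.V) (x : M) (a : ι) :
    c.m.pg x (swA G.F (rot θ c) u (fun x => ph c.m.J (θ x) (l x)) x a) =
      c.m.pg x (swA G.F (gau G.F θ c) u l x a) := by
  rw [swA, swA, nP_rot h, ← pg_cj h (θ x) x (gc _ (gau G.F θ c).W _ _ _ _ _ _)]
  exact congrArg _ ((gt hb hθ h).gc (S := fun x => cj (ph c.m.J (θ x)))
    (fun x a b => rr_opL (O := univ) (fun x => ph c.m.J (θ x)) x trivial a b (by
      rw [show adjoint (ph c.m.J (θ x)) = _ from trn_ph h.ok.Jsk, ph_neg h.ok.Jsq])) _ x a l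
    (cm_lt h u))

variable {u v : SW M}

theorem sw_rot (f : M → ℝ) (x : M) :
    (Den.sw G.F .one u v).h (rot θ c) x = (Den.sw G.F .one u v).h (gau G.F θ c) x ∧
    ph c.m.J (-θ x) ((Den.sw G.F .one u v).gP (rot θ c) f x) =
      (Den.sw G.F .one u v).gP (gau G.F θ c) f x ∧
    ∀ a, c.m.pg x ((Den.sw G.F .one u v).gA (rot θ c) f x a) =
      c.m.pg x ((Den.sw G.F .one u v).gA (gau G.F θ c) f x a) := by
  have e : ∀ u, (fun y => f y • pk (rot θ c) .one y (nw G.F (rot θ c) u y)) = fun y =>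
      ph c.m.J (θ y) (f y • pk (gau G.F θ c) .one y (nw G.F (gau G.F θ c) u y)) := fun u =>
    funext fun y => by rw [nw_rot hb hθ h, map_smul]; rfl
  simp only [Den.sw]
  rw [e, e]
  simp only [swP_rot hb hθ h, map_add, ph_neg h.ok.Jsq, PiLp.add_apply,
    swA_rot hb hθ h, nw_rot hb hθ h, implies_true, and_true]
  exact inner_ph h.ok.Jsq h.ok.Jsk _ _

omit hb hθ h in
variable (F c) in
/-- the test section of a complex density -/
def l2 (s : M → Eu lam) (a : M → ℂ) (v : SW M) (y : M) : c.m.V :=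
  cs c.m.J (a y) (c.m.j y (s y) (nw F c v y))

omit hb hθ h in
/-- the phase of weight two -/
abbrev zz (s : ℝ) : ℂ := (Circle.exp s : ℂ) ^ 2

variable {s : M → Eu lam}

theorem l2_rot (a : M → ℂ) (v : SW M) : l2 G.F (rot θ c) s a v = fun y => ph c.m.J (θ y)
    (l2 G.F (gau G.F θ c) s (fun y => starRingEnd ℂ (zz (θ y)) * a y) v y) := funext fun y => by
  rw [l2, l2, nw_rot hb hθ h, ph_anti (h.ok.jJ y _), csL_apply, csL_apply, cs_mul h.ok.Jsq,
    cs_mul h.ok.Jsq, map_pow, conj_exp, Circle.exp_neg, Circle.coe_inv]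
  congr 1
  field_simp

theorem h2_rot (x : M) : starRingEnd ℂ (zz (θ x)) *
    ⟨(Den.sw G.F (.re s) u v).h (rot θ c) x, (Den.sw G.F (.im s) u v).h (rot θ c) x⟩ =
    ⟨(Den.sw G.F (.re s) u v).h (gau G.F θ c) x, (Den.sw G.F (.im s) u v).h (gau G.F θ c) x⟩ := by
  have e := hm_cs_left h.ok.Jsq h.ok.Jsk (zz (θ x))
    (c.m.j x (s x) (nw G.F (rot θ c) u x)) (nw G.F (rot θ c) v x)
  have k : cs c.m.J (zz (θ x)) (c.m.j x (s x) (nw G.F (rot θ c) u x)) =
      ph c.m.J (θ x) (c.m.j x (s x) (nw G.F (gau G.F θ c) u x)) := by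
    rw [nw_rot hb hθ h, ph_anti (h.ok.jJ x _), csL_apply, csL_apply, cs_mul h.ok.Jsq,
      Circle.exp_neg, Circle.coe_inv]
    congr 1
    field_simp
  rw [k, nw_rot hb hθ h v, hm, ph_comm (rfl : c.m.J * c.m.J = _), inner_ph h.ok.Jsq h.ok.Jsk,
    inner_ph h.ok.Jsq h.ok.Jsk, ← nw_rot hb hθ h v] at e
  simpa only [Den.sw, pk, mul_apply_eq_comp, hm, h.ok.Jsk _] using e.symm

theorem g2_rot (hB : B.OK I) {C : ℕ → ℝ} (hT : G.F.Tame C) (hu : ∀ t ∈ u, Ltb G.F t)
    (hv : ∀ t ∈ v, Ltb G.F t) (hs : Sb I s) {f g : M → ℝ} (hf : Sb I f) (hg : Sb I g) {a : M → ℂ}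
    (ha : a = fun y => starRingEnd ℂ (zz (θ y)) * ⟨f y, g y⟩) (x : M) :
    ph c.m.J (-θ x) ((Den.sw G.F (.re s) u v).gP (rot θ c) f x +
        (Den.sw G.F (.im s) u v).gP (rot θ c) g x) =
      swP G.F (gau G.F θ c) u (l2 G.F (gau G.F θ c) s a v) x +
        swP G.F (gau G.F θ c) v (l2 G.F (gau G.F θ c) s a u) x ∧
    ∀ e, c.m.pg x (((Den.sw G.F (.re s) u v).gA (rot θ c) f x +
        (Den.sw G.F (.im s) u v).gA (rot θ c) g x) e) =
      c.m.pg x (swA G.F (gau G.F θ c) u (l2 G.F (gau G.F θ c) s a v) x e +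
        swA G.F (gau G.F θ c) v (l2 G.F (gau G.F θ c) s a u) x e) := by
  have k := ad0_rot hθ h
  have w := Eqv71.mc_W h.conn
  have ex : ExV G.F (rot θ c) := fun _ hs => Mon62.exists_res_sm hT w.sm w.sk hs.sm hs.bd
  have p1 := pair_add hB k hb ex hu hv hs hf hg x
  have p2 := pair_add hB k hb ex hv hu hs hf hg x
  have e := fun v => l2_rot (s := s) hb hθ h (fun y => ⟨f y, g y⟩) v
  unfold l2 at e
  subst ha
  simp only [Den.sw]
  rw [add_add_add_comm, p1.2, p2.2, add_add_add_comm, p1.1, p2.1, e, e]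
  simp only [swP_rot hb hθ h, map_add, ph_neg h.ok.Jsq, PiLp.add_apply, swA_rot hb hθ h]
  exact ⟨rfl, fun _ => rfl⟩

end nat

end Crest.Agent.X212.Cyc79.Af
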