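import Crest.Agent.X212.Mon62.NkZ
import Crest.Agent.X212.Eqv71.Eng

/-!
# Row 212, MS-AFT (helper79): operators which are local up to pure families, twisted by a phase
-/

set_option autoImplicit false
set_option linter.unusedSectionVars false
set_option maxSynthPendingDepth 3
noncomputable section
open scoped Manifold ContDiff Topology InnerProductSpace
open MeasureTheory Set Function Filter Matrix

namespace Crest.Agent.X212.Cyc79.Af
open An Mon62 Mon62.Dm
open Eqv71 (Sb)
open Ell97 (UB)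

variable {E : Type} [NormedAddCommGroup E] [NormedSpace ℝ E] [FiniteDimensional ℝ E]
  [MeasurableSpace E] [BorelSpace E]
  {HM : Type} [TopologicalSpace HM] {I : ModelWithCorners ℝ E HM} [I.Boundaryless]
  {M : Type} [TopologicalSpace M] [ChartedSpace HM M] [IsManifold I ∞ M]
  [MeasurableSpace M] [T2Space M] [BorelSpace M] [SecondCountableTopology M] {ι : Type} [Fintype ι]
  {J : Type} {X Y : J → Type} [∀ i, NormedAddCommGroup (X i)] [∀ i, NormedSpace ℝ (X i)]
  {D : Dm I M ι X Y} {χ : J → M → ℝ} {j : ℕ} {θ f g w : ∀ i, Y i → M → ℝ} {t : ∀ i, Y i → ℝ}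
  {L : ∀ i, Y i → (M → ℝ) → M → ℝ}

variable (D χ j θ t) in
/-- an angle which is `0` at one end and `t` at the other end -/
structure Two : Prop where
  hj : 8 ≤ j
  ub : UB D.P χ
  sc : D.Sc t
  sm : ∀ i y, Sm I (θ i y)
  bd : ∀ i y, ∃ C, ∀ x, ‖θ i y x‖ ≤ C
  pu : ∀ g : ℝ → ℝ, ContDiff ℝ ∞ g →
    D.A0 True j fun i y x => g (θ i y x) - ((1 - χ i x) * g 0 + χ i x * g (t i y))

variable (D χ j L) in
/-- linear operators which do not carry anything from one end to the other -/
structure WL : Prop where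
  add : ∀ i y u v, Sb I u → Sb I v → ∀ x, L i y (fun x => u x + v x) x = L i y u x + L i y v x
  smul : ∀ i y (c : ℝ) u x, L i y (fun x => c * u x) x = c * L i y u x
  a0 : ∀ ε w, D.A0 ε j w → D.A0 ε j fun i y => L i y (w i y)
  c1 : ∀ w, D.A0 False j w → D.A0 True j fun i y x => χ i x * L i y (fun z => (1 - χ i z) * w i y z) x
  c2 : ∀ w, D.A0 False j w → D.A0 True j fun i y x => (1 - χ i x) * L i y (fun z => χ i z * w i y z) x

theorem sb_a0 {ε : Prop} (h : D.A0 ε j w) (i : J) (y : Y i) : Sb I (w i y) :=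
  Sb.of_cb (F := D.F i) (h.sz.cb i y)

theorem sb_mul {u v : M → ℝ} (h : Sb I u) (k : Sb I v) : Sb I fun x => u x * v x := h.smul k

theorem WL.sum (hL : WL D χ j L) (i : J) (y : Y i) {α : Type} (s : Finset α) {u : α → M → ℝ}
    (hu : ∀ a, Sb I (u a)) (x : M) : L i y (fun x => ∑ a ∈ s, u a x) x = ∑ a ∈ s, L i y (u a) x := by
  classical
  induction s using Finset.induction_on with
  | empty => simpa using hL.smul i y 0 (fun _ => 0) x
  | insert a s ha ih =>
    simp only [Finset.sum_insert ha]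
    rw [hL.add i y _ _ (hu a) (Sb.sum s fun b _ => hu b), ih]

namespace Two
variable (h : Two D χ j θ t) {ε : Prop} {p q : ℝ → ℝ}
include h

theorem sb (hp : ContDiff ℝ ∞ p) (i : J) (y : Y i) : Sb I fun x => p (θ i y x) :=
  let ⟨C, hC⟩ := h.bd i y
  let ⟨K, hK⟩ := (isCompact_closedBall (0 : ℝ) C).exists_bound_of_continuousOn
    hp.continuous.continuousOn
  ⟨hp.comp_contMDiff (h.sm i y), K, fun x => hK _ (mem_closedBall_zero_iff.2 (hC x))⟩

theorem hi (hw : D.A0 ε j w) : D.A0 ε j fun i y x => χ i x * w i y x :=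
  ((A0.fixed h.ub).mul (by have := h.hj; omega) hw).imp Or.inr

theorem lo (hw : D.A0 ε j w) : D.A0 ε j fun i y x => (1 - χ i x) * w i y x :=
  (hw.sub (by have := h.hj; omega) (h.hi hw)).congr fun _ _ _ => by ring

theorem cst (c : ℝ) (hw : D.A0 ε j w) : D.A0 ε j fun i y x => c * w i y x :=
  hw.clm (by have := h.hj; omega) (ContinuousLinearMap.mul ℝ ℝ c)

theorem pure (hp : ContDiff ℝ ∞ p) (hw : D.A0 True j w) :
    D.A0 True j fun i y x => p (θ i y x) * w i y x :=
  (((((h.pu p hp).mul (by have := h.hj; omega) hw).imp Or.inl).add (h.cst (p 0) (h.lo hw))).add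
    ((h.hi hw).smulc (h.sc.comp hp))).congr fun _ _ _ => by simp only [smul_eq_mul]; ring

variable (hL : WL D χ j L)
include hL

theorem tw0 (hp : ContDiff ℝ ∞ p) (hq : ContDiff ℝ ∞ q) (hw : D.A0 False j w) :
    D.A0 True j fun i y x => p (θ i y x) * L i y (fun z => q (θ i y z) * w i y z) x -
      (p 0 * q 0 * ((1 - χ i x) * L i y (fun z => (1 - χ i z) * w i y z) x) +
        p (t i y) * q (t i y) * (χ i x * L i y (fun z => χ i z * w i y z) x)) := by
  have h7 : 7 ≤ j := by have := h.hj; omega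
  have a := h.lo hw
  have b := h.hi hw
  have c := ((h.pu q hq).mul h7 hw).imp Or.inl
  have k1 := h.pure hp (hL.a0 _ _ c)
  have k2 := h.cst (q 0) (((h.pu p hp).mul h7 (hL.a0 _ _ a)).imp Or.inl)
  have k3 := (((h.pu p hp).mul h7 (hL.a0 _ _ b)).imp Or.inl).smulc (ε := True) (h.sc.comp hq)
  have k4 := (h.cst (p 0) (hL.c2 _ hw)).smulc (ε := True) (h.sc.comp hq)
  have k5 := (h.cst (q 0) (hL.c1 _ hw)).smulc (ε := True) (h.sc.comp hp)
  refine ((((k1.add k2).add k3).add k4).add k5).congr fun i y x => ?_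
  have e : (fun z => q (θ i y z) * w i y z) = fun z => (q (θ i y z) - ((1 - χ i z) * q 0 +
      χ i z * q (t i y))) * w i y z + (q 0 * ((1 - χ i z) * w i y z) +
        q (t i y) * (χ i z * w i y z)) := funext fun z => by ring
  have s1 := sb_mul (Eqv71.sb_const (q 0)) (sb_a0 a i y)
  have s2 := sb_mul (Eqv71.sb_const (q (t i y))) (sb_a0 b i y)
  rw [e, hL.add i y _ _ (sb_a0 c i y) (s1.add s2), hL.add i y _ _ s1 s2, hL.smul, hL.smul]
  simp only [smul_eq_mul]
  ring

/-- **twisted operators** -/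
theorem twv {α : Type} [Fintype α] [DecidableEq α] {R : ℝ → Matrix α α ℝ}
    (hR : ∀ a b, ContDiff ℝ ∞ fun s => R s a b) (ho : ∀ s, (R s)ᵀ * R s = 1)
    {w : α → ∀ i, Y i → M → ℝ}
    (hw : ∀ a, D.A0 False j fun i y x => ((R (θ i y x))ᵀ *ᵥ fun b => w b i y x) a) (a : α) :
    D.A0 False j fun i y x => ((R (θ i y x))ᵀ *ᵥ fun b => L i y (w b i y) x) a := by
  set v := fun a i y x => ((R (θ i y x))ᵀ *ᵥ fun b => w b i y x) a with hv
  have k := fun m l => h.tw0 hL (hR l a) (hR l m) (hw m)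
  refine ((A0.fsum Finset.univ fun m _ => A0.fsum Finset.univ fun l _ => (k m l).aff).add
    ((h.lo (hL.a0 _ _ (h.lo (hw a)))).add (h.hi (hL.a0 _ _ (h.hi (hw a)))))).congr fun i y x => ?_
  have e : ∀ l, w l i y = fun z => ∑ m, R (θ i y z) l m * v m i y z := fun l => funext fun z => by
    have := congrFun (mulVec_mulVec (fun b => w b i y z) (R (θ i y z)) (R (θ i y z))ᵀ) l
    rw [mul_eq_one_comm.1 (ho _), one_mulVec] at this
    exact this.symm
  have o : ∀ s m, ∑ l, R s l a * R s l m = if a = m then 1 else 0 := fun s m => by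
    simpa only [mul_apply, transpose_apply, one_apply] using congrFun (congrFun (ho s) a) m
  simp only [Finset.sum_sub_distrib, Finset.sum_add_distrib, ← Finset.sum_mul, o, ite_mul, one_mul,
    zero_mul, Finset.sum_ite_eq, Finset.mem_univ, if_true, sub_add_cancel]
  rw [Finset.sum_comm]
  refine Finset.sum_congr rfl fun l _ => ?_
  rw [← Finset.mul_sum, ← hL.sum i y _ fun m => sb_mul (h.sb (hR l m) i y) (sb_a0 (hw m) i y), ← e]
  rfl

end Two

end Crest.Agent.X212.Cyc79.Af
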