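import Crest.Agent.X212.Cyc79.Wa
import Crest.Agent.X212.Cyc79.Wb

/-!
# Row 212, MS-AFT (helper79): the twisted gradient term lies in the calculus
-/

set_option autoImplicit false
set_option linter.unusedSectionVars false
set_option maxSynthPendingDepth 3
noncomputable section
open scoped Manifold ContDiff Topology InnerProductSpace
open MeasureTheory Set Function Filter Matrix

namespace Crest.Agent.X212.Cyc79.Af
open An Wz78 Dgr80 Nd18 Mon62 Mon62.Dm Msi61
open Eqv71 (Sb rotM rotM_T rotM_mulVec rotM_orth inv_rot ltb_map dgk)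
open Ell97 (UB)

section alg
variable {α : Type} [Fintype α] [DecidableEq α]

theorem grad_rot {φ : (α → ℝ) → ℝ} (hφ : ContDiff ℝ ∞ φ) {R : Matrix α α ℝ} (ho : Rᵀ * R = 1)
    (hi : ∀ y, φ (Rᵀ *ᵥ y) = φ y) (y : α → ℝ) (k : α) :
    (Rᵀ *ᵥ fun l => fderiv ℝ φ y (Pi.single l 1)) k = fderiv ℝ φ (Rᵀ *ᵥ y) (Pi.single k 1) := by
  let L : (α → ℝ) →L[ℝ] α → ℝ := LinearMap.toContinuousLinearMap (Matrix.toLin' Rᵀ)
  have h1 : φ = φ ∘ L := funext fun y => (hi y).symm
  have h2 : (Rᵀ *ᵥ fun l => fderiv ℝ φ y (Pi.single l 1)) k =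
      fderiv ℝ φ y (R *ᵥ Pi.single k 1) := by
    rw [show R *ᵥ Pi.single k 1 = ∑ l, R l k • Pi.single l (1 : ℝ) by
      ext i; simp [Pi.single_apply]]
    simp only [map_sum, map_smul, smul_eq_mul, mulVec, dotProduct, transpose_apply]
  rw [h2, h1, fderiv_comp _ (hφ.differentiable (by simp) _) L.differentiableAt, L.fderiv, ← h1]
  change fderiv ℝ φ (Rᵀ *ᵥ y) (Rᵀ *ᵥ _) = _
  rw [mulVec_mulVec, ho, one_mulVec]

theorem contDiff_zz : ContDiff ℝ ∞ zz := by
  unfold zz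
  simp only [Circle.coe_exp]
  exact (Complex.contDiff_exp.comp (Complex.ofRealCLM.contDiff.mul contDiff_const)).pow 2

variable {β : Type} [Fintype β] [DecidableEq β]

theorem contDiff_rot (a b : α ⊕ β ⊕ β) : ContDiff ℝ ∞ fun s => rotM α β (zz s) a b := by
  have e : ∀ s, rotM α β (zz s) a b = (rotM α β (zz s) *ᵥ Pi.single b 1) a := fun s => by simp
  simp only [e, rotM_mulVec]
  rcases a with a | a | a
  exacts [contDiff_const, Complex.reCLM.contDiff.comp (contDiff_zz.mul contDiff_const),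
    Complex.imCLM.contDiff.comp (contDiff_zz.mul contDiff_const)]

theorem orth_rot (s : ℝ) : (rotM α β (zz s))ᵀ * rotM α β (zz s) = 1 := by
  have := rotM_orth (J0 := α) (J2 := β) (Circle.exp s ^ 2)
  rwa [Circle.coe_pow] at this

end alg

variable {E3 : Type} [NormedAddCommGroup E3] [NormedSpace ℝ E3] [FiniteDimensional ℝ E3]
  [MeasurableSpace E3] [BorelSpace E3]
  {H3 : Type} [TopologicalSpace H3] {I3 : ModelWithCorners ℝ E3 H3} [I3.Boundaryless]
  {Y : Type} [TopologicalSpace Y] [ChartedSpace H3 Y] [IsManifold I3 ∞ Y] [T2Space Y]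
  [MeasurableSpace Y] [BorelSpace Y] [SecondCountableTopology Y] [CompactSpace Y]
  {κ : Type} [Fintype κ] {lam : Type} [Fintype lam]
  {E : Type} [NormedAddCommGroup E] [NormedSpace ℝ E] [FiniteDimensional ℝ E]
  [MeasurableSpace E] [BorelSpace E]
  {HM : Type} [TopologicalSpace HM] {I : ModelWithCorners ℝ E HM} [I.Boundaryless]
  {M : Type} [TopologicalSpace M] [ChartedSpace HM M] [IsManifold I ∞ M] [MeasurableSpace M]
  [T2Space M] [BorelSpace M] [SecondCountableTopology M] {DY : YD I3 Y κ lam}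
  {J : Type} {X Q : J → Type} [∀ i, NormedAddCommGroup (X i)] [∀ i, NormedSpace ℝ (X i)]
  {D : Dm I M (Option κ) X Q} {μ : MF M (Option κ) lam J} {r n : ℕ} {c : CF D μ r}
  {B : J → Base M (Option κ) lam} {a : ∀ i, Q i → Option κ → M → En lam}
  {K : ∀ i y, Nk DY (B i) ⟨c.F i y, a i y⟩} {j : ℕ} {N : ND Y lam}
  {χ : J → M → ℝ} {θ : ∀ i, Q i → M → ℝ} {t : ∀ i, Q i → ℝ}

theorem dcut_one {χ : M → ℝ} (h : ∀ x, χ x = 1) (d : Den M (Option κ) lam r) : dcut χ d = d := by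
  simp only [dcut, h, one_mul, mul_one]

variable (c θ) in
/-- the family in the rotating gauge -/
def gauF : CF D μ r :=
  ⟨c.G, fun i y e x => c.W i y e x + (c.F i y).D e (θ i y) x • μ.Jc, c.Φ, c.z⟩

variable (c θ) in
/-- the rotated configurations -/
abbrev cR (i : J) (y : Q i) : Cfg M (Option κ) lam r := rot (θ i y) (c.c i y)

variable (K N χ θ t j) in
/-- the hypotheses -/
structure TH : Prop where
  o : c.OK False j
  h : NH K N.δ j
  hN : N.OK DY
  hC : NC K j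
  two : Two D χ j θ t
  wl : WL D χ j fun i y w x => wn (c.F i y).μ (K i y).τ N.δ w ((K i y).τ x)
  cd : c.Cd j θ
  hB : ∀ i, (B i).OK I
  adm : ∀ i y, Eqv71.Ad0 (c.c i y) (B i) ⟨c.F i y, a i y⟩
  tame : ∀ i y, ∃ C, (c.F i y).Tame C
  one : ∀ i y d s, (K i y).cut d s = 1

namespace TH
variable (H : TH K j N χ θ t)
include H

theorem o' : (gauF c θ).OK False j :=
  have o := H.o
  ⟨o.hj, o.F, o.bV, o.bA, o.eV, o.eA, fun e => ((o.W e).add (A0.smul o.lev o.h4 (H.cd e)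
    (A0.fixed (UB.const (hsL μ.Jc)))).aff).congr fun _ _ _ => by
      simp only [gauF, map_add, map_smul],
    fun i y _ _ => skw_gau (F := c.F i y) (c := c.c i y) (H.adm i y).ok.Jsk (o.sk i y _ _), o.Φ, o.z,
    o.ρ, o.j, o.pg⟩

theorem h' : NH (c := gauF c θ) K N.δ j := ⟨H.h.ext, H.h.exl, H.h.dτ, H.h.cut, H.h.win⟩

theorem dc (i : J) (y : Q i) (d : Den M (Option κ) lam r) : dcut (K i y).χ d = d :=
  dcut_one (fun _ => H.one i y _ _) d

theorem d2 (i : J) (y : Q i) (k : N.J2) :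
    (N.dg (r := r) (K i y)).d (.inr (.inl k)) = Den.sw (c.F i y) (.re ((K i y).ext (N.d2 k).s))
      ((N.d2 k).u.map (K i y).lt) ((N.d2 k).v.map (K i y).lt) ∧
    (N.dg (r := r) (K i y)).d (.inr (.inr k)) = Den.sw (c.F i y) (.im ((K i y).ext (N.d2 k).s))
      ((N.d2 k).u.map (K i y).lt) ((N.d2 k).v.map (K i y).lt) := ⟨H.dc i y _, H.dc i y _⟩

theorem d0 (k : N.J0) :
    (D.A0 False j fun i y => ((K i y).den (N.d0 k)).h (cR c θ i y)) ∧ ∀ f, D.A0 False j f →
      (D.A0 False j (V := μ.V) fun i y x =>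
        ph μ.Jc (-θ i y x) (((K i y).den (N.d0 k)).gP (cR c θ i y) (f i y) x)) ∧
      ∀ e, D.A0 False j (V := μ.A) fun i y x =>
        μ.pg i x (((K i y).den (N.d0 k)).gA (cR c θ i y) (f i y) x e) := by
  have o := H.o
  have p := fun {u : ∀ i, Q i → M → Fm (Option κ) μ.A} (hu : D.A0 False j u) e =>
    (hu.clm o.h4 (PiLp.proj 2 (fun _ : Option κ => μ.A) e)).app o.h4 o.pg
  have := H.hN.d0 k
  generalize N.d0 k = d at this
  cases d with
  | sw u v =>
    have s := H.o'.denSw H.o'.pk_one (H.h'.sw H.o' this.1) (H.h'.sw H.o' this.2)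
    have e := fun i y => sw_rot (G := ⟨c.F i y, a i y⟩) (u := u.map (K i y).lt)
      (v := v.map (K i y).lt) (o.F.bump i y) (H.two.sm i y) (H.adm i y)
    simp only [Nk.den, H.dc]
    exact ⟨s.h.congr fun i y x => (e i y 0 x).1, fun f hf =>
      ⟨(s.gP _ _ hf).congr fun i y x => (e i y _ x).2.1,
        fun b => (p (s.gA _ _ hf) b).congr fun i y x => (e i y _ x).2.2 b⟩⟩
  | cy d w d' w' =>
    have s := CF.DenS.sed o.h7 (o.sedWd (H.hC d this.1) (H.h.las o this.2.1))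
      (o.sedWd (H.hC d' this.2.2.1) (H.h.las o this.2.2.2))
    have e := fun i y => ((si_cy (F := c.F i y) (θ := θ i y) (c := c.c i y) ((K i y).cyc d)).wd
      (F := c.F i y) (w.map (K i y).la)).den ((si_cy (F := c.F i y) ((K i y).cyc d')).wd (F := c.F i y)
        (w'.map (K i y).la))
    simp only [Nk.den, H.dc, fun i y => (e i y).1, fun i y => (e i y).2]
    exact ⟨s.h, fun f hf => ⟨A0.zero.congr fun i y x => (congrArg _ (add_zero 0)).trans (map_zero _),
      fun b => p (s.gA _ _ hf) b⟩⟩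

/-- the densities -/
theorem den (k : N.J) : D.A0 False j fun i y x => ((rotM N.J0 N.J2 (zz (θ i y x)))ᵀ *ᵥ
    fun l => ((N.dg (K i y)).d l).h (cR c θ i y) x) k := by
  have e := fun (k : N.J2) i y => h2_rot (G := ⟨c.F i y, a i y⟩) (u := (N.d2 k).u.map (K i y).lt)
    (v := (N.d2 k).v.map (K i y).lt) (s := (K i y).ext (N.d2 k).s) (H.o.F.bump i y) (H.two.sm i y)
    (H.adm i y)
  simp only [rotM_T, rotM_mulVec, H.d2, e]
  rcases k with k | k | k
  · exact (H.d0 k).1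
  all_goals obtain ⟨h1, h2, h3⟩ := H.hN.d2 k
  · exact (H.o'.denSw (H.o'.pk_re (H.h.exl _ h1)) (H.h'.sw H.o' h2) (H.h'.sw H.o' h3)).h
  · exact (H.o'.denSw (H.o'.pk_im (H.h.exl _ h1)) (H.h'.sw H.o' h2) (H.h'.sw H.o' h3)).h

/-- the coefficients -/
theorem β (k : N.J) : D.A0 False j fun i y x => ((rotM N.J0 N.J2 (zz (θ i y x)))ᵀ *ᵥ
    fun l => (N.dg (K i y)).β (c.F i y) (cR c θ i y) l ((K i y).τ x)) k := by
  have sm := H.hN.sm.comp (contDiff_cx N)
  have h1 := H.two.twv H.wl contDiff_rot orth_rot H.den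
  have h2 := fun k => A0.compF H.o.hj ((Sob92.sm_fderiv sm).clm_apply (contDiff_const (c := Pi.single k 1))) h1
  have h3 := H.two.twv H.wl contDiff_rot orth_rot (w := fun l i y x => (K i y).cut 3 ((K i y).τ x) *
    fderiv ℝ (N.φ ∘ N.cx) ((N.dg (K i y)).Iv (c.F i y) (cR c θ i y) ((K i y).τ x)) (Pi.single l 1))
    (fun k => (h2 k).congr fun i y x => by
      simp only [H.one, one_mul]
      exact grad_rot sm (orth_rot _) (inv_rot H.hN _) _ k) k
  refine (H.two.cst (Nka63.vY DY)⁻¹ h3).congr fun i y x => ?_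
  rw [← smul_eq_mul, ← Pi.smul_apply, ← mulVec_smul]
  refine congrArg (fun v => (_ *ᵥ v) k) (funext fun l => ?_)
  have := cv_eq (K i y) N.δ (fun s => fderiv ℝ (N.φ ∘ N.cx)
    ((N.dg (K i y)).Iv (c.F i y) (cR c θ i y) s) (Pi.single l 1)) x
  simp only [Nk.χ, add_zero] at this
  rw [H.one i y 1, mul_one, mul_one] at this
  exact this

/-- the gradient -/
theorem grad : (D.A0 False j (V := μ.V) fun i y x =>
      ph μ.Jc (-θ i y x) ((N.dg (K i y)).gP (c.F i y) (cR c θ i y) x)) ∧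
    ∀ e, D.A0 False j (V := μ.A) fun i y x =>
      μ.pg i x ((N.dg (K i y)).gA (c.F i y) (cR c θ i y) x e) := by
  have o := H.o'
  have b := H.β
  simp only [rotM_T, rotM_mulVec] at b
  set f := fun l i y x => (N.dg (K i y)).β (c.F i y) (cR c θ i y) l ((K i y).τ x) with hf
  have sb : ∀ l i y, Sb I (f l i y) := fun l i y =>
    (dgk (K i y) (H.hB i) (ad0_rot (H.two.sm i y) (H.adm i y)) H.hN).β l
  have k0 := fun k => (H.d0 k).2 _ (b (.inl k))
  have e := fun (k : N.J2) i y => g2_rot (G := ⟨c.F i y, a i y⟩) (H.o.F.bump i y) (H.two.sm i y)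
    (H.adm i y) (H.hB i) (H.tame i y).choose_spec (ltb_map (K i y) (H.hN.d2 k).2.1)
    (ltb_map (K i y) (H.hN.d2 k).2.2) (.of_cb ((K i y).cb_ext (H.hN.d2 k).1))
    (sb (.inr (.inl k)) i y) (sb (.inr (.inr k)) i y) rfl
  have l : ∀ (k : N.J2) {v : List (YL Y)}, (∀ t ∈ v, YL.OK I3 t) → D.A0 False j (V := μ.V) fun i y =>
      l2 (c.F i y) ((gauF c θ).c i y) ((K i y).ext (N.d2 k).s) (fun x => starRingEnd ℂ
        (zz (θ i y x)) * ⟨f (.inr (.inl k)) i y x, f (.inr (.inr k)) i y x⟩) (v.map (K i y).lt) :=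
    fun k v hv =>
      have s := H.h.exl _ (H.hN.d2 k).1
      have w := o.nw (H.h'.sw o hv)
      (A0.smul o.lev o.h4 (b (.inr (.inl k))) (o.pk_re s _ _ w)).aff.add
        (A0.smul o.lev o.h4 (b (.inr (.inr k))) (o.pk_im s _ _ w)).aff
  have lt := fun {v : List (YL Y)} (hv : ∀ t ∈ v, YL.OK I3 t) => o.ltS (H.h'.sw o hv)
  have p := fun {u : ∀ i, Q i → M → Fm (Option κ) μ.A} (hu : D.A0 False j u) e =>
    hu.clm o.h4 (PiLp.proj 2 (fun _ : Option κ => μ.A) e)
  refine ⟨((A0.fsum Finset.univ fun k _ => (k0 k).1).add (A0.fsum Finset.univ fun k _ =>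
    (o.dn (o.engV.bk (lt (H.hN.d2 k).2.1) (l k (H.hN.d2 k).2.2))).add
      (o.dn (o.engV.bk (lt (H.hN.d2 k).2.2) (l k (H.hN.d2 k).2.1))))).congr fun i y x => ?_,
    fun s => ((A0.fsum Finset.univ fun k _ => (k0 k).2 s).add (A0.fsum Finset.univ fun k _ =>
      ((p (o.engV.gc opL o.nP (lt (H.hN.d2 k).2.1) (l k (H.hN.d2 k).2.2)) s).add
        (p (o.engV.gc opL o.nP (lt (H.hN.d2 k).2.2) (l k (H.hN.d2 k).2.1)) s)).app o.h4
          o.pg)).congr fun i y x => ?_⟩
  · rw [DG.gP, Fintype.sum_sum_type, Fintype.sum_sum_type, ← Finset.sum_add_distrib, map_add, map_sum,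
      map_sum]
    refine congrArg₂ _ rfl (Finset.sum_congr rfl fun k _ => ?_)
    rw [(H.d2 i y k).1, (H.d2 i y k).2]
    exact (e k i y x).1
  · rw [DG.gA, Fintype.sum_sum_type, Fintype.sum_sum_type, ← Finset.sum_add_distrib, PiLp.add_apply,
      map_add, WithLp.ofLp_sum, WithLp.ofLp_sum, Finset.sum_apply, Finset.sum_apply, map_sum, map_sum]
    refine congrArg₂ _ rfl (Finset.sum_congr rfl fun k _ => ?_)
    rw [(H.d2 i y k).1, (H.d2 i y k).2]
    exact (e k i y x).2 s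

/-- the Dirac row -/
theorem q1D (hB : UB D.P (μ.pp B)) : D.A0 False j (V := μ.V) fun i y =>
    (twP (θ i y) (px 0 (N.q1 (n := n) (K i y)))).D (c.c i y) :=
  have o := H.o
  ((A0.fsum Finset.univ fun e _ => (A0.smul o.lev o.h4 (H.h.dτ e)
    ((H.grad.1.app o.h4 hB).app o.h4 (o.ρ e))).aff).neg o.h4).congr fun i y x => by
      have k := (H.adm i y).ok
      simp only [ph_comm (J_pp k x), ph_comm (k.Jρ _ x)]
      simp only [← map_smul (ph _ _), ← map_sum, ← map_neg]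
      rfl

/-- the curvature row -/
theorem q1C (hB : UB D.P (μ.p2 B)) : D.A0 False j (V := Fm (Option κ × Option κ) μ.A) fun i y =>
    (twP (θ i y) (px 0 (N.q1 (n := n) (K i y)))).C (c.c i y) :=
  have o := H.o
  (((A0.toLp o.h4 fun s => (A0.smul o.lev o.h4 (H.h.dτ s.1) (H.grad.2 s.2)).aff).app o.h4 hB).clm
    o.h4 ((-8 : ℝ) • ContinuousLinearMap.id ℝ _)).congr fun i y x => by
      refine congrArg ((-8 : ℝ) • ·) (PiLp.ext fun s => (Wz78.idx_apply _ _ _ _).trans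
        (Eq.trans ?_ (Wz78.idx_apply _ _ _ _).symm))
      simp only [map_smul]
      refine Finset.sum_congr rfl fun u _ => congrArg (_ • _ • ·) (Wz78.pg_pg _ _).symm

end TH

end Crest.Agent.X212.Cyc79.Af
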