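import Crest.Agent.X212.Prm93.Fam
import Crest.Agent.X212.Eqv71.Dg
import Crest.Agent.X212.Wz78.Sd

/-!
# Row 212, LV-EXT-F (helper79), general part

Differentials of finitely many compactly supported functions span the cotangent spaces over a
compact set; locally uniform bounds for smooth families in a family of frames.
-/

set_option autoImplicit false
set_option linter.unusedSectionVars false
noncomputable section
open scoped Manifold ContDiff Topology InnerProductSpace NNReal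
open MeasureTheory Set Function Filter Module

namespace Crest.Agent.X212.Cyc79
open An An.Pre Sob92 Met55 Pj41 Prm93

variable {E : Type} [NormedAddCommGroup E] [NormedSpace ℝ E] [FiniteDimensional ℝ E]
  [MeasurableSpace E] [BorelSpace E]
  {HM : Type} [TopologicalSpace HM] {I : ModelWithCorners ℝ E HM} [I.Boundaryless]
  {M : Type} [TopologicalSpace M] [ChartedSpace HM M] [IsManifold I ∞ M]
  [MeasurableSpace M] [T2Space M] [BorelSpace M] [SecondCountableTopology M]
  {ι lam : Type} [Fintype ι] [Fintype lam]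

/-- coordinates near a point -/
theorem xf_loc (F : Fr I M ι) (p : M) : ∃ O, IsOpen O ∧ p ∈ O ∧
    ∃ (y : Fin (finrank ℝ E) → M → ℝ) (R : Fin (finrank ℝ E) → ι → M → ℝ),
      (∀ i, y i ∈ Sec I (triv M ℝ)) ∧ (∀ i a, ∀ x ∈ O, FSm I (R i a) x) ∧
      ∀ x ∈ O, ∀ a b, ∑ i, R i a x * F.D b (y i) x = F.P a b x := by
  obtain ⟨χ⟩ : Nonempty (SmoothBumpFunction I p) := inferInstance
  let L : Fin (finrank ℝ E) → E →L[ℝ] ℝ := fun i => ((finBasis ℝ E).coord i).toContinuousLinearMap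
  refine ⟨interior {x | χ x = 1} ∩ (chartAt HM p).source,
    isOpen_interior.inter (chartAt HM p).open_source,
    ⟨mem_interior_iff_mem_nhds.2 χ.eventuallyEq_one, mem_chart_source _ _⟩,
    fun i x => χ x • L i (extChartAt I p x), fun i a x => ri (finBasis ℝ E) (inc I p F.e x) a i,
    fun i => ⟨χ.contMDiff_smul ((L i).contMDiff.comp_contMDiffOn contMDiffOn_extChartAt),
      χ.hasCompactSupport.smul_right, fun _ => rfl⟩,
    fun i a x hx => msm_ri hx.2 (fun a => F.sm a x) (pre_sp F.toPre x) a i, fun x hx a b => ?_⟩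
  have e : ∀ i, F.D b (fun x => χ x • L i (extChartAt I p x)) x =
      fm (finBasis ℝ E) (inc I p F.e x) i b := fun i => by
    have h : (fun x => χ x • L i (extChartAt I p x)) =ᶠ[𝓝 x] fun x => L i (extChartAt I p x) :=
      Filter.mem_of_superset (mem_interior_iff_mem_nhds.1 hx.1) fun y (hy : χ y = 1) => by
        simp only [mem_ofPred_eq, hy, one_smul]
    rw [D_def, dv_congr h, dv_clm (L i) ((contMDiffAt_extChartAt' (n := ∞) hx.2).mdifferentiableAt
      (by simp))]
    rfl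
  simp only [e]
  rw [fr_P, fP_chart hx.2 (pre_sp F.toPre x), prj, Matrix.mul_apply]

/-- coordinates over a compact set -/
theorem xf_glob (F : Fr I M ι) {K : Set M} (hK : IsCompact K) : ∃ (J : Type) (_ : Fintype J)
    (y : J → M → ℝ) (R : J → ι → M → ℝ), (∀ i, y i ∈ Sec I (triv M ℝ)) ∧ (∀ i a, Sm I (R i a)) ∧
      ∀ x ∈ K, ∀ a b, ∑ i, R i a x * F.D b (y i) x = F.P a b x := by
  choose O hO hp y R hy hR hs using xf_loc F
  obtain ⟨t, ht⟩ := hK.elim_finite_subcover O hO fun x _ => mem_iUnion.2 ⟨x, hp x⟩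
  have : LocallyCompactSpace M := Manifold.locallyCompact_of_finiteDimensional I
  obtain ⟨ρ, hρ⟩ := SmoothPartitionOfUnity.exists_isSubordinate I hK.isClosed (fun p : t => O p)
    (fun p => hO p) (by simpa only [iUnion_subtype] using ht)
  refine ⟨t × Fin (finrank ℝ E), inferInstance, fun i => y i.1 i.2,
    fun i a x => ρ i.1 x • R i.1 i.2 a x, fun i => hy _ _, fun i a => ρ.contMDiff_smul fun x hx =>
      hR _ _ _ x (hρ _ hx), fun x hx a b => ?_⟩
  have e : ∀ p : t, ∑ i, ρ p x • R p i a x * F.D b (y p i) x = ρ p x * F.P a b x := fun p => by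
    by_cases h : ρ p x = 0
    · simp [h]
    · rw [← hs p x (hρ p (subset_tsupport _ h)) a b, Finset.mul_sum]
      exact Finset.sum_congr rfl fun _ _ => mul_assoc _ _ _
  rw [Fintype.sum_prod_type]
  simp only [e]
  rw [← Finset.sum_mul, ← finsum_eq_sum_of_fintype, ρ.sum_eq_one hx, one_mul]

theorem xf_alg {J : Type} [Fintype J] {B : Base M ι lam} (hB : B.OK I) (x : M) {R D : J → ι → ℝ}
    (h : ∀ a b, ∑ i, R i a * D i b = B.P a b x) (u : ι × ι → ℝ) (s : ι × ι) :
    ∑ t, B.sd x s t * ∑ i : J × J, (∑ r, u r * R i.1 r.1 * R i.2 r.2) * D i.1 t.1 * D i.2 t.2 =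
      ∑ t, B.sd x s t * u t := by
  have e : ∀ t : ι × ι, ∑ i : J × J, (∑ r, u r * R i.1 r.1 * R i.2 r.2) * D i.1 t.1 * D i.2 t.2 =
      ∑ r, u r * Eqv71.sq2 (fun a b => B.P a b x) r t := fun t => by
    simp only [Eqv71.sq2, ← h, Finset.sum_mul, Finset.mul_sum]
    rw [Finset.sum_comm]
    refine Finset.sum_congr rfl fun r _ => ?_
    rw [Fintype.sum_prod_type_right]
    exact Finset.sum_congr rfl fun _ _ => Finset.sum_congr rfl fun _ _ => by ring
  simp only [e, Finset.mul_sum]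
  rw [Finset.sum_comm]
  refine Finset.sum_congr rfl fun r _ => ?_
  rw [Wz78.sd_symm hB x s r, ← Eqv71.P2_sd hB x r s, Finset.sum_mul]
  exact Finset.sum_congr rfl fun t _ => by rw [Wz78.sd_symm hB x s t]; ring

theorem cb_sd {F : Pre I M ι} {B : Base M ι lam} (hP : ∀ a b, F.Cb (B.P a b))
    (ho : ∀ a b c d, F.Cb (B.o a b c d)) (s t : ι × ι) : F.Cb fun x => B.sd x s t := by
  have m := fun a b c d => Cb_smul (hP a b) (hP c d)
  have := Cb_smul (Cb_const (1 / 2 : ℝ)) (Cb_add (Cb_smul (Cb_const (1 / 2 : ℝ))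
    (Cb_sub (m s.1 t.1 s.2 t.2) (m s.1 t.2 s.2 t.1)))
    (Cb_smul (Cb_const (1 / 2 : ℝ)) (ho s.1 s.2 t.1 t.2)))
  convert this using 2 with x
  simp only [Base.sd, Base.a2, Base.st, Pi.add_apply, Pi.sub_apply, smul_eq_mul]
  ring

variable {V : Type} [NormedAddCommGroup V] [InnerProductSpace ℝ V]

theorem nrm_le_supp (F : Pre I M ι) {K : Set M} (hK : IsCompact K) {u : M → V} {C : ℝ}
    (h0 : ∀ x ∉ K, u x = 0) (hC : ∀ x, ‖u x‖ ≤ C) : F.nrm 0 u ≤ √(F.μ.real K * C ^ 2) := by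
  refine Real.sqrt_le_sqrt ?_
  have hm := hK.measurableSet
  rw [← smul_eq_mul, ← integral_indicator_const _ hm]
  refine integral_mono_of_nonneg (.of_forall fun x => real_inner_self_nonneg)
    ((integrable_indicator_iff hm).2 (integrableOn_const hK.measure_lt_top.ne))
    (.of_forall fun x => ?_)
  by_cases hx : x ∈ K
  · simp only [indicator_of_mem hx, real_inner_self_eq_norm_sq]
    exact pow_le_pow_left₀ (norm_nonneg _) (hC x) 2
  · simp [indicator_of_notMem hx, h0 x hx]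

variable {T : Type} [NormedAddCommGroup T] [NormedSpace ℝ T]

/-- uniform bounds on compact sets of parameters -/
theorem xf_bd {F : Pre I M ι} {G : T → Pre I M ι} {A : ι → ι → T → M → ℝ} {h : T → M → ℝ}
    (hG : ∀ t, Mix F (G t) fun a b => A a b t) (hA : ∀ a b, SB F univ (A a b)) (hh : SB F univ h)
    (hμ : ∀ t, (G t).μ = F.μ.withDensity fun x => ENNReal.ofReal (h t x)) {f : T → M → V}
    (hf : SB F univ f) {K : Set M} (hK : IsCompact K) (h0 : ∀ t, ∀ x ∉ K, f t x = 0) (k : ℕ)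
    {D : Set T} (hD : IsCompact D) : ∃ s, ∀ t ∈ D, (G t).CB k (f t) s ∧ (G t).nrm 0 (f t) ≤ s := by
  refine hD.induction_on (p := fun D => ∃ s, ∀ t ∈ D, (G t).CB k (f t) s ∧ (G t).nrm 0 (f t) ≤ s)
    ⟨0, fun _ h => h.elim⟩ (fun _ _ hs ⟨s, h⟩ => ⟨s, fun t ht => h t (hs ht)⟩)
    (fun _ _ ⟨s, h⟩ ⟨s', h'⟩ => ⟨max s s', fun t ht => ht.elim
      (fun ht => ⟨CB_mono (h t ht).1 (le_max_left _ _), (h t ht).2.trans (le_max_left _ _)⟩)
      fun ht => ⟨CB_mono (h' t ht).1 (le_max_right _ _), (h' t ht).2.trans (le_max_right _ _)⟩⟩)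
    fun t₀ _ => ?_
  obtain ⟨C, hC⟩ := hf.bound k (mem_univ t₀)
  obtain ⟨c, hc⟩ := hh.bound 0 (mem_univ t₀)
  choose a ha using fun s : ι × ι => (hA s.1 s.2).bound k (mem_univ t₀)
  obtain ⟨a', ha'⟩ := (finite_range a).bddAbove
  rw [nhdsWithin_univ] at hC hc ha
  refine ⟨_, mem_nhdsWithin_of_mem_nhds ((hC.and hc).and (eventually_all.2 ha)),
    max (cM (Fintype.card ι) a' k * |C|) (√(c.toNNReal) * √(F.μ.real K * C ^ 2)), fun t ht => ?_⟩
  have hs := Cb.sm (hf.cb t trivial)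
  refine ⟨CB_mono ((hG t).CB (fun a b => Cb.sm ((hA a b).cb t trivial)) k
    (fun i j => CB_mono (ht.2 (i, j)) (ha' ⟨_, rfl⟩)) hs ht.1.1) (le_max_left _ _),
    le_trans ?_ (le_max_right _ _)⟩
  refine (nrm_zero_le (F := F) (c := c.toNNReal) ?_ hs (HasCompactSupport.intro hK (h0 t))).trans
    (mul_le_mul_of_nonneg_left (nrm_le_supp F hK (h0 t) (CB_bound ht.1.1)) (Real.sqrt_nonneg _))
  rw [hμ]
  refine (withDensity_mono (g := fun _ => (c.toNNReal : ENNReal)) (.of_forall fun x => ?_)).trans_eq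
    (withDensity_const _)
  exact ENNReal.ofReal_le_ofReal ((le_abs_self _).trans (CB_bound ht.1.2 x))

theorem sb_supp {F : Pre I M ι} {N : Type} [NormedAddCommGroup N] [NormedSpace ℝ N]
    {f : T → M → N} (h : JS I univ f) {K : Set M} (hK : IsCompact K)
    (h0 : ∀ t, ∀ x ∉ K, f t x = 0) : SB F univ f :=
  Prm93.Fam.sb hK isOpen_univ ⟨h, fun t ht => Cb_of_hcs (h.sm ht)
    (HasCompactSupport.intro hK (h0 t)), fun t _ s _ x hx => by rw [h0 t x hx, h0 s x hx]⟩

theorem sb_fm {F : Pre I M ι} {α : Type} [Fintype α] {O : Set T} {f : T → M → Fm α ℝ}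
    (h : ∀ a, SB F O fun t x => f t x a) : SB F O f := by
  classical
  refine (SB.sum fun a => (h a).smul (SB.fixed (Cb_const (EuclideanSpace.single a (1 : ℝ))))).congr
    fun t _ => ?_
  ext x b
  simp [Pi.single_apply]

end Crest.Agent.X212.Cyc79
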