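import Crest.Agent.X212.Cyc79.Xf
import Crest.Agent.X212.Flo2.Ext

/-!
# Row 212, LV-EXT-F (helper79): the forms `p2 (∑ f dg ∧ dh)`
-/

set_option autoImplicit false
set_option linter.unusedSectionVars false
noncomputable section
open scoped Manifold ContDiff Topology InnerProductSpace
open MeasureTheory Set Function Filter

namespace Crest.Agent.X212.Cyc79
open An An.Pre Sob92 Prm93 Sw Flo2
open M (Mf)

variable {κ lam ν : Type} [Fintype κ] [Fintype lam] [Fintype ν] [DecidableEq ν]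
  {X X' : Mf 4} {nc nc' n : ℕ} {b : Bg X.I X.M κ lam ν nc} {b' : Bg X'.I X'.M κ lam ν nc'}

theorem xp2 (x : X.M) (η : F2 κ) (s : Option κ × Option κ) :
    b.p2 x η s = ∑ t, b.B.sd x s t * η t := by simp [Bg.p2]

theorem frm_apply (f g h : Fin n → X.M → ℝ) (x : X.M) (s : Option κ × Option κ) :
    frm b f g h x s = ∑ t, b.B.sd x s t * ∑ a, f a x * b.F.D t.1 (g a) x * b.F.D t.2 (h a) x :=
  xp2 x _ s

theorem p2_p2 (hb : b.OK) (x : X.M) (η : F2 κ) : b.p2 x (b.p2 x η) = b.p2 x η := by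
  ext s
  rw [xp2]
  simp only [xp2 x η, Finset.mul_sum _ _ (b.B.sd x s _), ← mul_assoc]
  rw [Finset.sum_comm]
  simp only [← Finset.sum_mul, Wz78.sd_sd hb.B x s]

theorem xf_all (hb : b.OK) {fo : X.M → F2 κ} (hf : fo ∈ Sec X.I b.p2) :
    ∃ (n : ℕ) (f g h : Fin n → X.M → ℝ), (∀ a, f a ∈ Sec X.I (triv X.M ℝ) ∧
      g a ∈ Sec X.I (triv X.M ℝ) ∧ h a ∈ Sec X.I (triv X.M ℝ)) ∧ frm b f g h = fo := by
  obtain ⟨J, _, y, R, hy, hR, hs⟩ := xf_glob b.F hf.2.1.isCompact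
  let e := (Fintype.equivFin (J × J)).symm
  refine ⟨_, fun a x => ∑ r, fo x r * R (e a).1 r.1 x * R (e a).2 r.2 x, fun a => y (e a).1,
    fun a => y (e a).2, fun a => ⟨⟨contMDiff_finsetSum fun r _ =>
      ((((PiLp.proj 2 (fun _ => ℝ) r : F2 κ →L[ℝ] ℝ).contMDiff.comp hf.1).mul (hR _ _)).mul
        (hR _ _)), hf.2.1.mono fun x hx h => hx (by simp [h]), fun _ => rfl⟩, hy _, hy _⟩, ?_⟩
  ext x s
  by_cases hx : x ∈ tsupport fo
  · have h := xf_alg hb.B x (R := fun i a => R i a x) (D := fun i a => b.F.D a (y i) x)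
      (fun a c => hb.G.P ▸ hs x hx a c) (fo x) s
    rw [← xp2, hf.2.2 x] at h
    rw [frm_apply, ← h]
    exact Finset.sum_congr rfl fun t _ => congrArg _ (e.sum_comp fun i =>
      (∑ r, fo x r * R i.1 r.1 x * R i.2 r.2 x) * b.F.D t.1 (y i.1) x * b.F.D t.2 (y i.2) x)
  · simp [frm_apply, image_eq_zero_of_notMem_tsupport hx]

theorem xf_nat {φ : OpenPartialHomeomorph X.M X'.M} {U : X.M → Option κ → Option κ → ℝ}
    {u : X.M → En ν} {α : Option κ → X.M → ℝ} (hb : b.OK) (hb' : b'.OK) (i : b.Iso b' φ U u α)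
    (f g h : Fin n → X'.M → ℝ) (hs : ∀ a, Sm X'.I (g a) ∧ Sm X'.I (h a)) {x : X.M}
    (hx : x ∈ φ.source) (s : Option κ × Option κ) : frm b' f g h (φ x) s =
      ∑ a, ∑ a', U x s.1 a * U x s.2 a' *
        frm b (fun a => f a ∘ φ) (fun a => g a ∘ φ) (fun a => h a ∘ φ) x (a, a') := by
  obtain ⟨v, q⟩ := i.g
  have L := Eqv71.lg_of_geq q hb.B hb.G hb'.B hb'.G φ.open_source Subset.rfl
  have D : ∀ {k : X'.M → ℝ}, Sm X'.I k → ∀ j, b'.F.D j k (φ x) =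
      ∑ a, U x j a * b.F.D a (k ∘ φ) x := fun hk j =>
    L.rot.D' hx j (hk.mdifferentiableAt (by simp))
  set T : Option κ × Option κ → ℝ := fun r =>
    ∑ a, f a (φ x) * b.F.D r.1 (g a ∘ φ) x * b.F.D r.2 (h a ∘ φ) x with hT
  have e : ∀ t : Option κ × Option κ, ∑ a, f a (φ x) * b'.F.D t.1 (g a) (φ x) *
      b'.F.D t.2 (h a) (φ x) = ∑ r, Eqv71.sq2 (U x) t r * T r := fun t => by
    simp only [D (hs _).1, D (hs _).2, hT, Eqv71.sq2, Finset.sum_mul, Finset.mul_sum]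
    rw [Finset.sum_comm (γ := Option κ × Option κ)]
    refine Finset.sum_congr rfl fun a _ => ?_
    rw [Fintype.sum_prod_type_right]
    exact Finset.sum_congr rfl fun _ _ => Finset.sum_congr rfl fun _ _ => by ring
  rw [← Fintype.sum_prod_type' fun a a' => U x s.1 a * U x s.2 a' *
    frm b (fun a => f a ∘ φ) (fun a => g a ∘ φ) (fun a => h a ∘ φ) x (a, a')]
  simp only [frm_apply, e]
  change _ = ∑ t, Eqv71.sq2 (U x) s t * ∑ r, b.B.sd x t r * T r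
  simp only [Finset.mul_sum _ _ (b'.B.sd _ _ _), Finset.mul_sum _ _ (Eqv71.sq2 _ s _), ← mul_assoc]
  rw [Finset.sum_comm, Finset.sum_comm (f := fun t r => Eqv71.sq2 (U x) s t * b.B.sd x t r * T r)]
  simp only [← Finset.sum_mul, (L.be x hx).sd hb.B hb'.B]

variable {g : Gc κ lam ν} (hg : g.OK)
include hg

theorem xf_fam {F : Fin 3 → Fin n → Sc g} (hF : ∀ i a, (F i a).OK) :
    (∀ t, frm (g.P t).bg (fun a => F 0 a t) (fun a => F 1 a t) (fun a => F 2 a t) ∈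
      Sec g.X.I (g.P t).bg.p2) ∧ SB g.s.bg.F.toPre univ
        (fun t => frm (g.P t).bg (fun a => F 0 a t) (fun a => F 1 a t) fun a => F 2 a t) := by
  have h := hg.fam
  have hQ := hg.Q
  have ht : ∀ t, t ∈ g.𝓕.Q := fun t => hQ ▸ mem_univ t
  have sF : ∀ i a, SB g.s.bg.F.toPre univ (F i a) := fun i a =>
    let ⟨r, hr⟩ := (hF i a).cf; sb_supp (hF i a).sm (h.site.cpt r) hr
  have sD : ∀ i a j, SB g.s.bg.F.toPre univ fun t => (g.P t).bg.F.D j (F i a t) := fun i a j =>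
    SB.D' (G := fun t => (g.P t).bg.F.toPre) (A := fun a c t x => g.𝓕.S t x a c)
      (fun t _ => h.mix t (ht t)) (fun a c => hQ ▸ h.sS a c) (sF i a) j
  obtain ⟨C, hC⟩ := h.site.bg.tame
  have S : SB g.s.bg.F.toPre univ
      (fun t => frm (g.P t).bg (fun a => F 0 a t) (fun a => F 1 a t) fun a => F 2 a t) :=
    sb_fm fun s => (SB.sum fun r => (SB.fixed (cb_sd
      (fun a c => h.site.bg.G.P ▸ ⟨C, hC.P a c⟩) h.site.bg.co s r)).mul
        (SB.sum fun a => ((sF 0 a).mul (sD 1 a r.1)).mul (sD 2 a r.2))).congr fun t _ =>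
      funext fun x => by rw [frm_apply, show (g.P t).bg.B = g.s.bg.B from h.B t (ht t)]
  choose r hr using fun a => (hF 0 a).cf
  refine ⟨fun t => ⟨Cb.sm (S.cb t trivial), HasCompactSupport.intro
    (isCompact_iUnion fun a => h.site.cpt (r a)) fun x hx => ?_,
    fun x => p2_p2 (h.ok t (ht t)).1.bg x _⟩, S⟩
  ext s
  simp [frm_apply, fun a => hr a t x fun h => hx (mem_iUnion.2 ⟨a, h⟩)]

theorem xf_bds {fo : Tk g.k → g.X.M → F2 κ} (hf : SB g.s.bg.F.toPre univ fo) {r : ℝ}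
    (hr : ∀ t, ∀ x ∉ g.s.core r, fo t x = 0) {D : Set (Tk g.k)} (hD : IsCompact D) : ∃ s, ∀ t ∈ D,
      (g.P t).bg.F.CB 6 (fo t) s ∧ (g.P t).bg.F.nrm 0 (fo t) ≤ s := by
  have h := hg.fam
  have hQ := hg.Q
  have ht : ∀ t, t ∈ g.𝓕.Q := fun t => hQ ▸ mem_univ t
  obtain ⟨d, hd, hμ⟩ := h.dens
  exact xf_bd (G := fun t => (g.P t).bg.F.toPre) (A := fun a c t x => g.𝓕.S t x a c)
    (fun t => h.mix t (ht t)) (fun a c => hQ ▸ h.sS a c) (hQ ▸ hd) (fun t => (hμ t (ht t)).2) hf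
    (h.site.cpt r) hr 6 hD

omit hg in
/-- **LV-EXT-F** -/
theorem extF : ExtFStmt κ lam ν :=
  ⟨fun _ _ _ hb _ hf => xf_all hb hf,
    fun _ _ _ _ _ _ _ _ _ _ hb hb' i _ f g h hs _ hx s => xf_nat hb hb' i f g h hs hx s,
    fun _ hg _ _ hF => xf_fam hg hF, fun _ hg _ hf ⟨_, hr⟩ _ hD => xf_bds hg hf hr hD⟩

end Crest.Agent.X212.Cyc79
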